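import Vale.Agent.P057L.Num

/-! The step for grids, its iteration, the induction for KH. -/

set_option linter.all false

open Finset
open scoped BigOperators

namespace Vale.Agent.P057L

open Vale.Agent.P057Z

theorem khall (h0 : ∀ m, 1 ≤ m → KH 0 m) (ha : ∀ j, KH j 1 → KHA j)
    (hb : ∀ j m, KHA j → KH j (m + 1) → KH j m → KH (j + 1) m) : ∀ j m, 1 ≤ m → KH j m := by
  intro j
  induction j with
  | zero => exact h0
  | succ j ih => exact fun m hm => hb j m (ha j (ih 1 le_rfl)) (ih _ (by omega)) (ih m hm)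

theorem gw_bd {j q : ℕ} {g : ℤ → ℝ} {M : ℝ} (hg : ∀ x, 0 ≤ g x ∧ g x ≤ M) (W : Pt j q) (s : ℤ) :
    0 ≤ Gw g W s ∧ Gw g W s ≤ M ^ (q ^ j) := by
  refine ⟨prod_nonneg fun c _ => (hg _).1, ?_⟩
  have := prod_le_prod (s := (univ : Finset (Fin j → Fin q))) (fun c _ => (hg (s + ∑ i, W i (c i))).1)
    (fun c _ => (hg (s + ∑ i, W i (c i))).2)
  simpa [Gw] using this

theorem Fac.mono {j q : ℕ} {G : Pt j q → ℤ → ℝ} {B B' : ℝ} {i : Fin j} {l l' : Fin q}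
    (h : Fac G B i l l') (hB : B ≤ B') : Fac G B' i l l' := fun W0 => by
  obtain ⟨σ, A, C, h1, h2, h3, h4⟩ := h W0
  exact ⟨σ, A, C, h1, fun s a => (h2 s a).trans hB, fun s b => (h3 s b).trans hB, h4⟩

theorem In1.mono {j q Q r : ℕ} [Fact Q.Prime] {Y Y' : ℝ} {N T : ℕ} {ρ θ : ℝ} {G : Pt j q → ℤ → ℝ}
    {ξ γ : Pt j q → Fin r → ZMod Q} {Ω : Finset (Pt j q)} (h : In1 Y N T ρ θ G ξ γ Ω)
    (hY : Y ≤ Y') : In1 Y' N T ρ θ G ξ γ Ω :=
  ⟨h.hr.trans hY, (Real.exp_le_exp.2 (by linarith)).trans h.hρ, h.hρ1, h.hT, h.hTN,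
    h.hNT.trans (by gcongr), h.hNQ, h.hQN.trans (by gcongr), h.hd.mono hY,
    fun W hW => (Real.exp_le_exp.2 (by linarith)).trans (h.hx W hW)⟩

theorem In2.mono {j q Q r t : ℕ} [Fact Q.Prime] {Y Y' : ℝ} {N T K0 : ℕ} {ρ θ : ℝ}
    {G : Pt j q → ℤ → ℝ} {ξ γ : Pt j q → Fin r → ZMod Q} {b : Fin t → Fin r → ℤ}
    {Ψ : (Fin r → ZMod Q) → ℝ} {Ω : Finset (Pt j q)} (h : In2 Y N T K0 ρ θ G ξ γ b Ψ Ω)
    (hY : Y ≤ Y') : In2 Y' N T K0 ρ θ G ξ γ b Ψ Ω :=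
  ⟨h.ht, h.hK, h.hK'.trans (by gcongr), h.hb, h.hi, h.hl, h.hp, h.hd.mono hY,
    fun W hW => (Real.exp_le_exp.2 (by linarith)).trans (h.hx W hW)⟩

theorem grd_le {m q N : ℕ} {g : ℤ → ℝ} {M : ℝ} (hN1 : 1 ≤ N) (hg : ∀ x, 0 ≤ g x ∧ g x ≤ M) :
    grd m q N g ≤ M ^ (q ^ m) := by
  unfold grd gridA
  refine expect_le ?_ fun W _ => ?_
  · exact Fintype.piFinset_nonempty.2 fun _ => Fintype.piFinset_nonempty.2 fun _ =>
      ⟨0, by unfold rg; rw [mem_Ico]; omega⟩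
  · have := prod_le_prod (s := (univ : Finset (Fin m → Fin q)))
      (fun c _ => (hg (∑ i, W i (c i))).1) (fun c _ => (hg (∑ i, W i (c i))).2)
    simpa using this

theorem lg_of_le {L L' : ℕ} {Y Z : ℝ} (hL : 1 ≤ L) (hL' : 1 ≤ L') (hY : 2 ≤ Y)
    (h : 2 * Z ≤ Real.log L) (hLL' : L ≤ L' * Real.exp Z) : Lg L L' Y := by
  have hL0 : (0 : ℝ) < L := by exact_mod_cast hL
  have hL'0 : (0 : ℝ) < L' := by exact_mod_cast hL'
  have b3 := Real.log_le_log hL0 hLL'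
  rw [Real.log_mul hL'0.ne' (Real.exp_pos _).ne', Real.log_exp] at b3
  refine ⟨hL', ?_⟩
  have := Real.log_natCast_nonneg L'
  nlinarith

theorem four_eps {ε θ : ℝ} (hε : 0 < ε) (hε' : ε ≤ 1 / 10) (hθ0 : 0 ≤ θ) :
    (1 - ε) * θ ≤ (1 - ε / 10) * ((1 - ε / 10) ^ 3 * θ) := by
  rw [← mul_assoc]
  refine mul_le_mul_of_nonneg_right ?_ hθ0
  have := one_add_mul_le_pow (a := -(ε / 10)) (by linarith) 4
  have e : (1 - ε / 10) * (1 - ε / 10) ^ 3 = (1 + -(ε / 10)) ^ 4 := by ring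
  rw [e]; push_cast at this; linarith

theorem three_eps {e θ : ℝ} {n : ℕ} (e1 : 0 ≤ e) (e2 : e ≤ 1) (hθ0 : 0 ≤ θ) (hn : n ≠ 0) :
    (e ^ 3 * θ) ^ n ≤ e * (e * (e * θ ^ n)) := by
  rw [mul_pow]
  have : (e ^ 3) ^ n ≤ e ^ 3 := pow_le_of_le_one (by positivity) (pow_le_one₀ e1 e2) hn
  calc _ ≤ e ^ 3 * θ ^ n := mul_le_mul_of_nonneg_right this (by positivity)
    _ = _ := by ring

theorem step (hG : GFAC) (hS : S1) (hD : DROP) (hV : VEC) (hK : ∀ j, KH j 1) (hC : CST)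
    (hP : CPY) : STEP := by
  intro j ε hε hε'
  obtain ⟨C1, hS⟩ := hS j (ε / 10) (by linarith) (by linarith)
  obtain ⟨C2, hD⟩ := hD j (ε / 10) (by linarith) (by linarith)
  obtain ⟨C3, hV⟩ := hV j
  obtain ⟨C4, hK⟩ := hK j
  obtain ⟨C5, hC⟩ := hC j (ε / 10) (by linarith) (by linarith)
  obtain ⟨C6, hP⟩ := hP j (ε / 10) (by linarith) (by linarith)
  obtain ⟨a, ha⟩ : ∃ a, a = C1 + j + 1 := ⟨_, rfl⟩
  obtain ⟨u2, hu2⟩ : ∃ u, u = a * C2 := ⟨_, rfl⟩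
  obtain ⟨u3, hu3⟩ : ∃ u, u = (u2 + a) * C3 := ⟨_, rfl⟩
  obtain ⟨u4, hu4⟩ : ∃ u, u = (u3 + a) * C4 := ⟨_, rfl⟩
  obtain ⟨u5, hu5⟩ : ∃ u, u = (u4 + u2 + a) * C5 := ⟨_, rfl⟩
  obtain ⟨u6, hu6⟩ : ∃ u, u = (u5 + a) * C6 := ⟨_, rfl⟩
  refine ⟨C1 + C2 + C3 + C4 + C5 + C6 + u2 + u3 + 2 * u4 + 2 * u5 + u6 + a + 10, ?_⟩
  intro Y θ q N g hY' hq1 hq hN hg hθ hgr
  push_cast at hY'
  have p1 : (0 : ℝ) ≤ C1 := by positivity
  have p2 : (0 : ℝ) ≤ C2 := by positivity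
  have p3 : (0 : ℝ) ≤ C3 := by positivity
  have p4 : (0 : ℝ) ≤ C4 := by positivity
  have p5 : (0 : ℝ) ≤ C5 := by positivity
  have p6 : (0 : ℝ) ≤ C6 := by positivity
  have p7 : (0 : ℝ) ≤ u2 + u3 + 2 * u4 + 2 * u5 + u6 + a := by positivity
  have hY : 2 ≤ Y := by linarith
  have hY1 : 1 ≤ Y := by linarith
  have hY0 : 0 ≤ Y := by linarith
  have hN1 : 1 ≤ N := one_le_of_log (by positivity) hN
  have up : ∀ {x : ℝ} {n : ℕ}, 1 ≤ n → x ≤ Y → x ≤ Y ^ n := fun h hx => hx.trans (le_pw hY1 h)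
  have hM : Real.exp Y ^ (q ^ j) ≤ Real.exp (Y ^ a) := by
    rw [← Real.exp_nat_mul]
    refine Real.exp_le_exp.2 (le_trans ?_ (pw_le hY1 (by omega : j + 1 ≤ a)))
    push_cast; rw [pow_succ]
    exact mul_le_mul_of_nonneg_right (pow_le_pow_left₀ (by positivity) hq j) hY0
  have hθM : θ ≤ Real.exp Y :=
    le_of_pow_le_pow_left₀ (by positivity) (Real.exp_pos Y).le (hgr.trans (grd_le hN1 hg))
  have hθ0 : 0 ≤ θ := by linarith
  have hθa : θ ^ (q ^ j) ≤ Real.exp (Y ^ a) := (pow_le_pow_left₀ hθ0 hθM _).trans hM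
  have hθp : 0 ≤ θ ^ (q ^ j) := by positivity
  have e1 : 0 ≤ 1 - ε / 10 := by linarith
  have e2 : 1 - ε / 10 ≤ 1 := by linarith
  obtain ⟨x0, T, Q, r, hQ, ρ, ξ, γ, Ω, h1⟩ := hS Y θ q N g (by linarith) hq1 hq
    ((pw_le hY1 (by omega)).trans hN) hg hθ hgr
  have h1' := h1.mono (pw_le hY1 (by omega : C1 ≤ a))
  have hGb : ∀ (W : Pt j q) (s : ℤ), 0 ≤ Gw g W (x0 + s) ∧ Gw g W (x0 + s) ≤ Real.exp (Y ^ a) :=
    fun W s => ⟨(gw_bd hg W _).1, (gw_bd hg W _).2.trans hM⟩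
  obtain ⟨t, K0, b, Ψ, Ω1, h2, hpr⟩ := hD (Y ^ a) q N T Q r ρ _ _ ξ γ Ω (up (by omega) (by linarith))
    (up (by omega) hq) (by rw [← pow_mul, ← hu2]; exact (pw_le hY1 (by omega)).trans hN) hGb
    (by positivity) (le_trans (by nlinarith) hθa)
    (fun i l l' => (hG j q g (Real.exp Y) x0 i l l' (Real.one_le_exp hY0) hg).mono hM) h1'
  rw [← pow_mul, ← hu2] at h2
  obtain ⟨E, hE, hED, hEM⟩ := hV (Y ^ (u2 + a)) q N Q (Fin t) _ Ω1 (up (by omega) (by linarith)) hq1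
    (up (by omega) hq) hN1 (h2.hd.mono (pw_le hY1 (by omega))) hpr
  rw [← pow_mul, ← hu3] at hED
  have hNQ := h1.hNQ
  obtain ⟨W0, d, L, Ω', hd1, hdL, hL, hΩ', hD', hk⟩ := hK (Y ^ (u3 + a)) q N Q (Fin t) _ E
    (up (by omega) (by linarith)) hq1 (up (by omega) hq)
    (by
      rw [Fintype.card_fin]
      exact le_trans (by exact_mod_cast h2.ht) (h1'.hr.trans (pw_le hY1 (by omega))))
    (by rw [← pow_mul, ← hu4]; exact (pw_le hY1 (by omega)).trans hN) (by omega)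
    (hED.mono (pw_le hY1 (by omega))) hEM
  rw [← pow_mul, ← hu4] at hL hD'
  have ea : Real.exp (Y ^ a) ≤ Real.exp (Y ^ (u4 + u2 + a)) :=
    Real.exp_le_exp.2 (pw_le hY1 (by omega))
  obtain ⟨o, W1, d', L', Ω5, hd', hL', hLL', hD5, h5⟩ := hC (Y ^ (u4 + u2 + a)) q N T Q r t K0 d L ρ _
    _ ξ γ b Ψ Ω1 Ω' W0 (up (by omega) (by linarith)) (up (by omega) hq)
    (h1'.hr.trans (pw_le hY1 (by omega)))
    (by rw [← pow_mul, ← hu5]; exact hL.big hY1 hN (by omega))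
    ((Real.exp_le_exp.2 (neg_le_neg (pw_le hY1 (by omega)))).trans h1'.hρ) h1.hT
    (h1'.hNT.trans (by gcongr)) (fun W s => ⟨(hGb W s).1, (hGb W s).2.trans ea⟩) (by positivity)
    (le_trans (by
      have : (1 - ε / 10) * θ ^ (q ^ j) ≤ θ ^ (q ^ j) := by nlinarith
      nlinarith) (hθa.trans ea))
    (h2.mono (pw_le hY1 (by omega))) hd1 hdL
    (fun w hw => mem_pre.2 ⟨(mem_pre.1 (hΩ' hw)).1, hE (mem_pre.1 (hΩ' hw)).2⟩)
    (hD'.mono (pw_le hY1 (by omega))) (fun w hw a => by simpa using hk w hw a)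
  rw [← pow_mul, ← hu5] at hLL' hD5
  obtain ⟨x1, p, hp1, hp, h6⟩ := hP (Y ^ (u5 + a)) ((1 - ε / 10) ^ 3 * θ) q L' d' g (x0 + o) W1 Ω5
    (up (by omega) (by linarith)) hq1 (up (by omega) hq) hL' (fun x => (hg x).1) (by positivity)
    (hD5.mono (pw_le hY1 (by omega))) (fun w hw => by
      refine (three_eps e1 e2 hθ0 (by positivity)).trans ((h5 w hw).trans (le_of_eq ?_))
      simp only [add_assoc])
  rw [← pow_mul, ← hu6] at hp
  refine ⟨x1, d', L', p, hd', ?_, hp1, hp.trans (pw_le hY1 (by omega)), le_trans ?_ h6⟩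
  · have b1 : Y ^ (u5 + 1) ≤ Real.log L := hL.big hY1 hN (by omega)
    refine (hL.trans (lg_of_le hL.1 hL' hY ((mul_pw_le hY0 hY u5).trans b1) hLL')
      (by positivity)).mono ?_
    rw [← pow_succ]; exact pw_le hY1 (by omega)
  · exact pow_le_pow_left₀ (mul_nonneg (by linarith) hθ0) (four_eps hε hε' hθ0) _

theorem grd_one (q N : ℕ) (g : ℤ → ℝ) : grd 1 q N g = (𝔼 z ∈ rg N, g z) ^ q := by
  unfold grd gridA
  rw [expect_pow]
  refine expect_nbij' (fun W => W 0) (fun y => fun _ => y) ?_ ?_ ?_ ?_ ?_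
  · intro W hW; exact Fintype.mem_piFinset.1 hW 0
  · intro y hy; exact Fintype.mem_piFinset.2 fun _ => hy
  · intro W _; funext i; rw [Subsingleton.elim i 0]
  · intro y _; rfl
  · intro W hW
    exact Fintype.prod_equiv (Equiv.funUnique (Fin 1) (Fin q)) _ _ fun c => by simp

theorem down (hS : STEP) : DOWN := by
  intro m ε hε hε'
  induction m with
  | zero =>
    refine ⟨1, fun Y θ q N g hY hq1 hq hN hg hθ hgr => ?_⟩
    simp only [Nat.cast_one, pow_one, pow_zero, one_mul, zero_add] at *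
    have hN1 : 1 ≤ N := one_le_of_log (by linarith) hN
    refine ⟨0, 1, N, le_rfl, ⟨hN1, by nlinarith [Real.log_natCast_nonneg N]⟩, ?_⟩
    rw [grd_one] at hgr
    have := le_of_pow_le_pow_left₀ (by omega) (expect_nonneg fun z _ => (hg z).1) hgr
    simpa using this
  | succ m ih =>
    obtain ⟨C1, h1⟩ := hS m ε hε hε'
    obtain ⟨C2, h2⟩ := ih
    obtain ⟨u, hu⟩ : ∃ u, u = (C1 + 1) * C2 := ⟨_, rfl⟩
    refine ⟨C1 + C2 + u + 2, fun Y θ q N g hY' hq1 hq hN hg hθ hgr => ?_⟩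
    push_cast at hY'
    have p1 : (0 : ℝ) ≤ C1 := by positivity
    have p2 : (0 : ℝ) ≤ C2 := by positivity
    have p3 : (0 : ℝ) ≤ u := by positivity
    have hY1 : 1 ≤ Y := by linarith
    have e1 : 0 ≤ 1 - ε := by linarith
    have e2 : (1 - ε) ^ (m + 1) ≤ 1 := pow_le_one₀ e1 (by linarith)
    have hθ0 : 0 ≤ θ := by
      by_contra h
      have : (1 - ε) ^ (m + 1) * θ ≤ 0 :=
        mul_nonpos_of_nonneg_of_nonpos (by positivity) (not_le.1 h).le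
      linarith
    obtain ⟨x1, d, L, p, hd, hL, hp1, hp, hg1⟩ := h1 Y θ q N g (by linarith) hq1 hq
      ((pw_le hY1 (by omega)).trans hN) hg (by nlinarith) hgr
    obtain ⟨x2, d2, L2, hd2, hL2, h3⟩ := h2 (Y ^ (C1 + 1)) ((1 - ε) * θ) p L _
      (le_trans (by linarith) (le_pw hY1 (by omega))) hp1 (hp.trans (pw_le hY1 (by omega)))
      (by rw [← pow_mul, ← hu]; exact hL.big hY1 hN (by omega))
      (fun x => ⟨(hg _).1, (hg _).2.trans (Real.exp_le_exp.2 (le_pw hY1 (by omega)))⟩)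
      (by rw [← mul_assoc, ← pow_succ]; exact hθ) hg1
    rw [← pow_mul, ← hu] at hL2
    refine ⟨x1 + d * x2, d * d2, L2, Nat.mul_pos hd hd2, ?_, ?_⟩
    · refine (hL.trans hL2 (by positivity)).mono ?_
      rw [← pow_add]; exact pw_le hY1 (by omega)
    · rw [pow_succ, mul_assoc]
      refine h3.trans (le_of_eq (expect_congr rfl fun z _ => ?_))
      congr 1; push_cast; ring

end Vale.Agent.P057L
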