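import Vale.Agent.P057L.Defs

/-! Sliding windows. -/

set_option linter.all false

open Finset
open scoped BigOperators

namespace Vale.Agent.P057L

namespace Win

theorem abs {G : Type} [AddCommGroup G] (B T O : Finset G) (φ : G → G) (w : G → ℝ)
    (hw : ∀ y, 0 ≤ w y) (h : ∀ y ∈ B, ∀ t ∈ T, y - φ t ∈ O) :
    ∃ o, (∑ y ∈ B, w y) * (T.card : ℝ) ≤ (O.card : ℝ) * ∑ t ∈ T, w (o + φ t) := by
  classical
  have h1 : (∑ y ∈ B, w y) * (T.card : ℝ) ≤ ∑ o ∈ O, ∑ t ∈ T, w (o + φ t) := by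
    rw [sum_comm, mul_comm, ← nsmul_eq_mul]
    refine card_nsmul_le_sum _ _ _ fun t ht => ?_
    calc ∑ y ∈ B, w y = ∑ o ∈ B.image (fun y => y - φ t), w (o + φ t) := by
          rw [sum_image fun a _ b _ e => sub_left_injective e]
          exact sum_congr rfl fun y _ => by rw [sub_add_cancel]
      _ ≤ _ := sum_le_sum_of_subset_of_nonneg (fun o ho => by
          obtain ⟨y, hy, rfl⟩ := mem_image.mp ho
          exact h y hy t ht) fun _ _ _ => hw _
  rcases O.eq_empty_or_nonempty with rfl | hO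
  · exact ⟨0, by simpa using h1⟩
  obtain ⟨o, -, ho⟩ := exists_max_image O (fun o => ∑ t ∈ T, w (o + φ t)) hO
  refine ⟨o, h1.trans ?_⟩
  rw [← nsmul_eq_mul]
  exact sum_le_card_nsmul _ _ _ ho

theorem one {N L e : ℕ} (h : e * L ≤ N) {y t : ℤ} (hy : y ∈ rg N) (ht : t ∈ rg L) :
    y - e * t ∈ Ico (-(N : ℤ)) N := by
  rw [rg, mem_Ico] at hy ht
  have h1 : (e : ℤ) * L ≤ N := by exact_mod_cast h
  have h2 : 0 ≤ (e : ℤ) * t := mul_nonneg (Int.natCast_nonneg e) ht.1
  have h3 : (e : ℤ) * t ≤ e * L := mul_le_mul_of_nonneg_left ht.2.le (Int.natCast_nonneg e)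
  exact mem_Ico.mpr ⟨by linarith [hy.1], by linarith [hy.2]⟩

theorem c1 (N : ℕ) : (rg N).card = N := by simp [rg]

theorem c2 (N : ℕ) : (Ico (-(N : ℤ)) N).card = 2 * N := by
  rw [Int.card_Ico]
  omega

theorem cp {α : Type} (q : ℕ) (S : Finset α) :
    (Fintype.piFinset fun _ : Fin q => S).card = S.card ^ q := by
  rw [Fintype.card_piFinset, prod_const, card_univ, Fintype.card_fin]

end Win

open Win in
theorem win : WIN := by
  refine ⟨fun q N L e w _ h hw => ?_, fun j q N L e w _ h hw => ?_⟩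
  · obtain ⟨o, ho⟩ := abs (bz q N) (bz q L) (Fintype.piFinset fun _ => Ico (-(N : ℤ)) N)
      (fun t => (e : ℤ) • t) w hw fun y hy t ht => Fintype.mem_piFinset.mpr fun l =>
        one h (Fintype.mem_piFinset.mp hy l) (Fintype.mem_piFinset.mp ht l)
    refine ⟨o, ?_⟩
    rw [cp, c2, show (bz q L).card = L ^ q by rw [bz, cp, c1]] at ho
    push_cast at ho
    rwa [mul_pow] at ho
  · obtain ⟨o, ho⟩ := abs (bp j q N) (bp j q L)
      (Fintype.piFinset fun _ => Fintype.piFinset fun _ => Ico (-(N : ℤ)) N)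
      (fun t => (e : ℤ) • t) w hw fun y hy t ht => Fintype.mem_piFinset.mpr fun i =>
        Fintype.mem_piFinset.mpr fun l =>
          one h (Fintype.mem_piFinset.mp (Fintype.mem_piFinset.mp hy i) l)
            (Fintype.mem_piFinset.mp (Fintype.mem_piFinset.mp ht i) l)
    refine ⟨o, ?_⟩
    rw [cp, cp, c2, show (bp j q L).card = L ^ (j * q) by
      rw [bp, cp, bz, cp, c1, ← pow_mul, mul_comm], ← pow_mul, mul_comm q j] at ho
    push_cast at ho
    rwa [mul_pow] at ho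

end Vale.Agent.P057L
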