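import Vale.Agent.P057L.Defs

/-! Bookkeeping of parameters, windows over fibres. -/

set_option linter.all false

open Finset
open scoped BigOperators

namespace Vale.Agent.P057L

open Vale.Agent.P057Z

variable {j q : ℕ}

theorem pw_le {Y : ℝ} (hY : 1 ≤ Y) {a b : ℕ} (h : a ≤ b) : Y ^ a ≤ Y ^ b :=
  pow_le_pow_right₀ hY h

theorem le_pw {Y : ℝ} (hY : 1 ≤ Y) {a : ℕ} (h : 1 ≤ a) : Y ≤ Y ^ a := by
  simpa using pw_le hY h

/-- a constant times a power is below the next power -/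
theorem mul_pw_le {Y c : ℝ} (hY : 0 ≤ Y) (hc : c ≤ Y) (a : ℕ) : c * Y ^ a ≤ Y ^ (a + 1) := by
  rw [pow_succ']; exact mul_le_mul_of_nonneg_right hc (pow_nonneg hY a)

theorem add_pw_le {Y : ℝ} (hY : 2 ≤ Y) {a b c : ℕ} (ha : a < c) (hb : b < c) :
    Y ^ a + Y ^ b ≤ Y ^ c := by
  obtain ⟨c, rfl⟩ : ∃ c', c = c' + 1 := ⟨c - 1, by omega⟩
  have h1 : Y ^ a ≤ Y ^ c := pw_le (by linarith) (by omega)
  have h2 : Y ^ b ≤ Y ^ c := pw_le (by linarith) (by omega)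
  have h3 := mul_pw_le (by linarith : (0 : ℝ) ≤ Y) hY c
  linarith

theorem Dn.mono {Ω : Finset (Pt j q)} {N : ℕ} {Y Y' : ℝ} (h : Dn Ω N Y) (hY : Y ≤ Y') :
    Dn Ω N Y' :=
  ⟨h.1, le_trans (mul_le_mul_of_nonneg_right (Real.exp_le_exp.2 (by linarith)) (by positivity)) h.2⟩

theorem Dn.nonempty {Ω : Finset (Pt j q)} {N : ℕ} {Y : ℝ} (h : Dn Ω N Y) (hN : 1 ≤ N) :
    Ω.Nonempty := by
  rw [← card_pos]
  have : (0 : ℝ) < Ω.card := lt_of_lt_of_le (by have : (0 : ℝ) < N := by exact_mod_cast hN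
                                                positivity) h.2
  exact_mod_cast this

theorem ex_mono {Y Y' A B : ℝ} (h : Real.exp (-Y) * A ≤ B) (hA : 0 ≤ A) (hY : Y ≤ Y') :
    Real.exp (-Y') * A ≤ B :=
  le_trans (mul_le_mul_of_nonneg_right (Real.exp_le_exp.2 (by linarith)) hA) h

theorem Lg.mono {N L : ℕ} {Y Y' : ℝ} (h : Lg N L Y) (hY : Y ≤ Y') : Lg N L Y' :=
  ⟨h.1, h.2.trans (mul_le_mul_of_nonneg_right hY (Real.log_natCast_nonneg L))⟩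

theorem Lg.trans {N L L' : ℕ} {Y Y' : ℝ} (h : Lg N L Y) (h' : Lg L L' Y') (hY : 0 ≤ Y) :
    Lg N L' (Y * Y') :=
  ⟨h'.1, h.2.trans (by rw [mul_assoc]; exact mul_le_mul_of_nonneg_left h'.2 hY)⟩

/-- the logarithm of the new side is still large -/
theorem Lg.big {N L : ℕ} {Y : ℝ} {a b c : ℕ} (h : Lg N L (Y ^ a)) (hY : 1 ≤ Y)
    (hN : Y ^ c ≤ Real.log N) (hc : a + b ≤ c) : Y ^ b ≤ Real.log L := by
  have h1 : Y ^ a * Y ^ b ≤ Y ^ a * Real.log L := by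
    rw [← pow_add]; exact ((pw_le hY hc).trans hN).trans h.2
  exact le_of_mul_le_mul_left h1 (by positivity)

theorem one_le_of_log {N : ℕ} {Y : ℝ} (hY : 0 < Y) (h : Y ≤ Real.log N) : 1 ≤ N := by
  rcases Nat.eq_zero_or_pos N with rfl | h0
  · simp at h; linarith
  · exact h0

theorem exp_le_of_log {N : ℕ} {Y : ℝ} (hY : 0 < Y) (h : Y ≤ Real.log N) : Real.exp Y ≤ N := by
  have h1 : (0 : ℝ) < N := by exact_mod_cast one_le_of_log hY h
  calc Real.exp Y ≤ Real.exp (Real.log N) := Real.exp_le_exp.2 h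
    _ = N := Real.exp_log h1

/-- dividing a side by exp Y -/
theorem exists_side {L : ℕ} {Y : ℝ} (hY : 1 ≤ Y) (h : 4 * Y ≤ Real.log L) :
    ∃ L1 : ℕ, 1 ≤ L1 ∧ L1 * Real.exp Y ≤ L ∧ L ≤ L1 * Real.exp (2 * Y) ∧ Lg L L1 2 := by
  have hL : Real.exp (4 * Y) ≤ L := exp_le_of_log (by linarith) h
  have hE : 0 < Real.exp Y := Real.exp_pos Y
  have h2 : 2 ≤ Real.exp Y := by have := Real.add_one_le_exp Y; linarith
  have h4 : Real.exp (4 * Y) = Real.exp Y ^ 4 := by rw [← Real.exp_nat_mul]; norm_num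
  have h2' : Real.exp (2 * Y) = Real.exp Y ^ 2 := by rw [← Real.exp_nat_mul]; norm_num
  have hx : 1 ≤ (L : ℝ) / Real.exp Y := by
    rw [le_div_iff₀ hE]; nlinarith [pow_le_pow_right₀ (by linarith : 1 ≤ Real.exp Y) (by norm_num : 1 ≤ 4)]
  have h1 : 1 ≤ ⌊(L : ℝ) / Real.exp Y⌋₊ := Nat.le_floor (by simpa using hx)
  have hf : (⌊(L : ℝ) / Real.exp Y⌋₊ : ℝ) ≤ L / Real.exp Y := Nat.floor_le (by linarith)
  have hg : (L : ℝ) / Real.exp Y < ⌊(L : ℝ) / Real.exp Y⌋₊ + 1 := Nat.lt_floor_add_one _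
  have h1' : (1 : ℝ) ≤ ⌊(L : ℝ) / Real.exp Y⌋₊ := by exact_mod_cast h1
  have hup : (L : ℝ) ≤ ⌊(L : ℝ) / Real.exp Y⌋₊ * Real.exp (2 * Y) := by
    rw [div_lt_iff₀ hE] at hg; rw [h2']; nlinarith
  refine ⟨_, h1, by rwa [le_div_iff₀ hE] at hf, hup, h1, ?_⟩
  have hL0 : (0 : ℝ) < L := lt_of_lt_of_le (Real.exp_pos _) hL
  have := Real.log_le_log hL0 hup
  rw [Real.log_mul (by linarith) (Real.exp_pos _).ne', Real.log_exp] at this
  linarith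

theorem two_pow_le_exp (n : ℕ) : (2 : ℝ) ^ n ≤ Real.exp n := by
  have h : (2 : ℝ) ≤ Real.exp 1 := by have := Real.add_one_le_exp (1 : ℝ); linarith
  calc (2 : ℝ) ^ n ≤ Real.exp 1 ^ n := pow_le_pow_left₀ (by norm_num) h n
    _ = Real.exp n := by rw [← Real.exp_nat_mul]; simp

theorem mem_pre {Ω : Finset (Pt j q)} {W0 t : Pt j q} {d L : ℕ} :
    t ∈ pre Ω W0 d L ↔ t ∈ bp j q L ∧ lc W0 d t ∈ Ω := by
  unfold pre; rw [mem_filter]

theorem mem_fb {Ω : Finset (Pt (j + 1) q)} {N : ℕ} {x : Pt j q} {y : Vz q} :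
    y ∈ fb Ω N x ↔ y ∈ bz q N ∧ cn y x ∈ Ω := by
  unfold fb; rw [mem_filter]

/-- the remaining classes -/
def tl (w : Pt (j + 1) q) : Pt j q := fun i => w i.succ

theorem cn_eta (w : Pt (j + 1) q) : cn (w 0) (tl w) = w := Fin.cons_self_tail w

theorem tl_cn (y : Vz q) (x : Pt j q) : tl (cn y x) = x := by
  funext i; simp [tl, cn]

theorem cn_zero (y : Vz q) (x : Pt j q) : cn y x 0 = y := by simp [cn]

/-- a dense window -/
theorem dn_win (hW : WIN) {Ω : Finset (Pt j q)} {N L e : ℕ} {Y : ℝ} (h : Dn Ω N Y) (hL : 1 ≤ L)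
    (hN : 1 ≤ N) (he : e * L ≤ N) : ∃ W0, Dn (pre Ω W0 e L) L (Y + j * q) := by
  classical
  obtain ⟨W0, hW0⟩ := hW.2 j q N L e (fun y => if y ∈ Ω then 1 else 0) hL he
    (fun y => by split_ifs <;> norm_num)
  refine ⟨W0, fun t ht => (mem_pre.1 ht).1, ?_⟩
  have e1 : ∑ y ∈ bp j q N, (if y ∈ Ω then (1 : ℝ) else 0) = Ω.card := by
    rw [sum_boole, filter_mem_eq_inter, inter_eq_right.2 h.1]
  have e2 : ∑ t ∈ bp j q L, (if lc W0 e t ∈ Ω then (1 : ℝ) else 0) = (pre Ω W0 e L).card := by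
    rw [sum_boole]; unfold pre; congr 2
  rw [e1, e2] at hW0
  have hNp : (0 : ℝ) < (N : ℝ) ^ (j * q) := by
    have : (0 : ℝ) < N := by exact_mod_cast hN
    positivity
  have h2 := two_pow_le_exp (j * q)
  have h3 : Real.exp (-Y) * (N : ℝ) ^ (j * q) * (L : ℝ) ^ (j * q) ≤
      Real.exp ((j * q : ℕ) : ℝ) * (N : ℝ) ^ (j * q) * (pre Ω W0 e L).card :=
    (mul_le_mul_of_nonneg_right h.2 (by positivity)).trans (hW0.trans (by gcongr))
  have h4 : Real.exp (-Y) * (L : ℝ) ^ (j * q) ≤ Real.exp ((j * q : ℕ) : ℝ) * (pre Ω W0 e L).card := by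
    refine le_of_mul_le_mul_left ?_ hNp
    nlinarith
  have h5 : Real.exp (-(Y + j * q)) = Real.exp (-Y) / Real.exp ((j * q : ℕ) : ℝ) := by
    rw [← Real.exp_sub]; push_cast; ring_nf
  rw [h5, div_mul_eq_mul_div, div_le_iff₀ (Real.exp_pos _)]
  linarith

theorem fw_num {Y A B c x S n a b : ℝ} {q : ℕ} (hn : 0 < n) (ha : 0 ≤ a) (hb : 0 ≤ b) (hc : 0 ≤ c)
    (e3 : Real.exp (-Y) * n * x ≤ S) (hy : S * b ≤ 2 ^ q * n * c) (hx : Real.exp (-A) * a ≤ x)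
    (hB : B = Y + A + q) : Real.exp (-B) * (a * b) ≤ c := by
  have h2 := two_pow_le_exp q
  have h3 : n * (Real.exp (-Y) * x * b) ≤ n * (Real.exp q * c) := by
    calc _ = Real.exp (-Y) * n * x * b := by ring
      _ ≤ S * b := mul_le_mul_of_nonneg_right e3 hb
      _ ≤ _ := hy
      _ ≤ Real.exp q * n * c := by gcongr
      _ = _ := by ring
  have h4 := le_of_mul_le_mul_left h3 hn
  have h5 : Real.exp (-Y) * (Real.exp (-A) * a) * b ≤ Real.exp q * c :=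
    le_trans (by gcongr) h4
  have h6 : Real.exp (-B) * Real.exp q = Real.exp (-Y) * Real.exp (-A) := by
    rw [← Real.exp_add, ← Real.exp_add, hB]; ring_nf
  refine le_of_mul_le_mul_left ?_ (Real.exp_pos q)
  calc _ = (Real.exp (-B) * Real.exp q) * (a * b) := by ring
    _ = Real.exp (-Y) * (Real.exp (-A) * a) * b := by rw [h6]; ring
    _ ≤ _ := h5

theorem sum_card_le_cn (hB : BAS) {L : ℕ} (X : Finset (Pt j q)) (hX : X ⊆ bp j q L)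
    (P : Vz q → Pt j q → Prop) [∀ t u, Decidable (P t u)] [DecidableEq (Pt j q)] :
    ∑ t ∈ bz q L, (X.filter fun u => P t u).card ≤
      ((bp (j + 1) q L).filter fun w => tl w ∈ X ∧ P (w 0) (tl w)).card := by
  rw [← card_sigma]
  refine card_le_card_of_injOn (fun p => cn p.1 p.2) ?_ ?_
  · intro p hp
    have hp' := mem_sigma.1 (mem_coe.1 hp)
    have h2 := mem_filter.1 hp'.2
    refine mem_coe.2 (mem_filter.2 ⟨(hB.2.2.2.1 j q L _ _).2 ⟨hp'.1, hX h2.1⟩, ?_, ?_⟩)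
    · show tl (cn p.1 p.2) ∈ X
      rw [tl_cn]; exact h2.1
    · show P (cn p.1 p.2 0) (tl (cn p.1 p.2))
      rw [tl_cn, cn_zero]; exact h2.2
  · intro p _ p' _ hpp
    obtain ⟨a, b⟩ := p
    obtain ⟨a', b'⟩ := p'
    obtain ⟨h1, h2⟩ := Fin.cons_injective2 hpp
    simp only at h1 h2
    subst h1; subst h2; rfl

theorem sum_card_swap {α β : Type} [DecidableEq α] (s : Finset α) (X : Finset β) (F : β → Finset α)
    (hF : ∀ u, F u ⊆ s) :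
    ∑ y ∈ s, ((X.filter fun u => y ∈ F u).card : ℝ) = ∑ u ∈ X, ((F u).card : ℝ) := by
  simp only [card_filter, Nat.cast_sum]
  rw [sum_comm]
  refine sum_congr rfl fun u _ => ?_
  rw [← Nat.cast_sum, ← card_filter, filter_mem_eq_inter, inter_eq_right.2 (hF u)]

/-- windows in the base and in the fibres -/
theorem fib_win (hB : BAS) (hW : WIN) {Ω : Finset (Pt (j + 1) q)} {X : Finset (Pt j q)}
    {N L2 L3 e : ℕ} {Y : ℝ} (x1 : Pt j q) (hX : Dn X L2 Y) (hL3 : 1 ≤ L3) (h32 : L3 ≤ L2)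
    (he : e * L3 ≤ N) (hN : 1 ≤ N)
    (hf : ∀ u ∈ X, Real.exp (-Y) * (N : ℝ) ^ q ≤ (fb Ω N (lc x1 e u)).card) :
    ∃ (y0 : Vz q) (x2 : Pt j q) (Ω3 : Finset (Pt (j + 1) q)), Ω3 ⊆ pre Ω (cn y0 x2) e L3 ∧
      Dn Ω3 L3 (2 * Y + (j + 1) * q) ∧
      ∀ t u, cn t u ∈ Ω3 → y0 + (e : ℤ) • t ∈ bz q N ∧ ∃ u' ∈ X, lc x2 e u = lc x1 e u' := by
  classical
  obtain ⟨u0, hu0⟩ := dn_win hW hX hL3 (hL3.trans h32) (e := 1) (by omega)
  obtain ⟨X', hX'⟩ : ∃ X', X' = pre X u0 1 L3 := ⟨_, rfl⟩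
  obtain ⟨x2, hx2⟩ : ∃ x2, x2 = lc x1 e u0 := ⟨_, rfl⟩
  have hcomp : ∀ u, lc x2 e u = lc x1 e (lc u0 1 u) := fun u => by
    rw [hB.2.2.2.2.2.1 j q e 1 x1 u0 u, mul_one, hx2]
  have hm : ∀ u ∈ X', lc u0 1 u ∈ X := fun u hu => (mem_pre.1 (hX' ▸ hu)).2
  rw [← hX'] at hu0
  obtain ⟨y0, hy0⟩ := hW.1 q N L3 e
    (fun y => ((X'.filter fun u => y ∈ fb Ω N (lc x2 e u)).card : ℝ)) hL3 he
    (fun y => by positivity)
  have e2 := sum_card_le_cn hB X' hu0.1 (fun t u => y0 + (e : ℤ) • t ∈ fb Ω N (lc x2 e u))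
  obtain ⟨Ω3, hΩ3⟩ : ∃ Ω3, Ω3 = (bp (j + 1) q L3).filter fun w => tl w ∈ X' ∧
    y0 + (e : ℤ) • w 0 ∈ fb Ω N (lc x2 e (tl w)) := ⟨_, rfl⟩
  rw [← hΩ3] at e2
  have hmem : ∀ w ∈ Ω3, w ∈ bp (j + 1) q L3 ∧ tl w ∈ X' ∧
      y0 + (e : ℤ) • w 0 ∈ fb Ω N (lc x2 e (tl w)) := fun w hw => mem_filter.1 (hΩ3 ▸ hw)
  refine ⟨y0, x2, Ω3, ?_, ⟨fun w hw => (hmem w hw).1, ?_⟩, ?_⟩
  · intro w hw
    refine mem_pre.2 ⟨(hmem w hw).1, ?_⟩
    rw [← cn_eta w, hB.2.2.2.2.1]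
    exact (mem_fb.1 (hmem w hw).2.2).2
  · rw [sum_card_swap (bz q N) X' (fun u => fb Ω N (lc x2 e u))
      (fun u y hy => (mem_fb.1 hy).1)] at hy0
    have e3 : Real.exp (-Y) * (N : ℝ) ^ q * X'.card ≤
        ∑ u ∈ X', ((fb Ω N (lc x2 e u)).card : ℝ) := by
      rw [mul_comm, ← nsmul_eq_mul]
      refine card_nsmul_le_sum _ _ _ fun u hu => ?_
      rw [hcomp]; exact hf _ (hm u hu)
    have hNp : (0 : ℝ) < (N : ℝ) ^ q := by
      have : (0 : ℝ) < N := by exact_mod_cast hN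
      positivity
    have e2' : ∑ t ∈ bz q L3,
        ((X'.filter fun u => y0 + (e : ℤ) • t ∈ fb Ω N (lc x2 e u)).card : ℝ) ≤ Ω3.card := by
      exact_mod_cast e2
    have h7 : ((L3 : ℝ)) ^ ((j + 1) * q) = (L3 : ℝ) ^ (j * q) * (L3 : ℝ) ^ q := by
      rw [← pow_add]; congr 1; ring
    rw [h7]
    exact fw_num hNp (by positivity) (by positivity) (by positivity) e3
      (hy0.trans (mul_le_mul_of_nonneg_left e2' (by positivity))) hu0.2 (by ring)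
  · intro t u h
    have h' := hmem _ h
    rw [tl_cn, cn_zero] at h'
    exact ⟨(mem_fb.1 h'.2.2).1, lc u0 1 u, hm u h'.2.1, hcomp u⟩

end Vale.Agent.P057L
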