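import Vale.Agent.P057L.Num

/-! The density increment, its iteration and the final bound. -/

set_option linter.all false

open Finset Filter
open scoped BigOperators

namespace Vale.Agent.P057L

open Vale.Agent.P057Z

noncomputable section

theorem inc_card_rg (L : ℕ) : (rg L).card = L := by simp [rg]

theorem inc_of {k L D : ℕ} {A : Finset ℤ} {α θ : ℝ} {x : ℤ} (hA : APF k A) (hα : 0 < α)
    (hL : 1 ≤ L) (hD : 1 ≤ D) (h : θ ≤ 𝔼 z ∈ rg L, ind A α (x + D * z)) :
    ∃ A' : Finset ℤ, A' ⊆ rg L ∧ APF k A' ∧ θ * α * L ≤ A'.card := by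
  refine ⟨(rg L).filter fun z => x + D * z ∈ A, filter_subset _ _, fun a d hd H => ?_, ?_⟩
  · have D0 : (0 : ℤ) < D := by exact_mod_cast hD
    refine hA (x + D * a) (D * d) (mul_pos D0 hd) fun i hi => ?_
    have := (mem_filter.1 (H i hi)).2
    rwa [show x + D * (a + i * d) = x + D * a + i * (D * d) by ring] at this
  · have L0 : (0 : ℝ) < L := by exact_mod_cast hL
    have e : ∑ z ∈ rg L, ind A α (x + D * z) =
        (((rg L).filter fun z => x + D * z ∈ A).card : ℝ) * (1 / α) := by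
      unfold ind
      rw [← sum_filter, sum_const, nsmul_eq_mul]
    rw [expect_eq_sum_div_card, e, inc_card_rg, le_div_iff₀ L0, mul_one_div, le_div_iff₀ hα] at h
    linarith

theorem inc (hS : START) (hD : DOWN) : INC := by
  intro k hk
  obtain ⟨η, η0, η1, C1, h1⟩ := hS k hk
  have k0 : (0 : ℝ) ≤ k := by positivity
  have ε0 : 0 < η / (4 * (k + 1)) := by positivity
  have ε1 : η / (4 * (k + 1)) * (k + 1) = η / 4 := by field_simp
  generalize η / (4 * (k + 1)) = ε at ε0 ε1
  have ε2 : ε ≤ 1 / 10 := by nlinarith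
  obtain ⟨C2, h2⟩ := hD k ε ε0 ε2
  have hθ : 1 + η / 2 ≤ (1 - ε) ^ k * (1 + η) := by
    have a := one_add_mul_le_pow (a := -ε) (by linarith) k
    rw [← sub_eq_add_neg] at a
    have b : 1 - η / 4 ≤ (1 - ε) ^ k := by nlinarith
    nlinarith
  refine ⟨η / 2, by linarith, by linarith, (C1 + 1) * (C2 + 1) + 2,
    fun X α N A hX hN hA hF hα hc => ?_⟩
  have c1 : (0 : ℝ) ≤ C1 := by positivity
  have c2 : (0 : ℝ) ≤ C2 := by positivity
  have hX' : ((C1 : ℝ) + 1) * (C2 + 1) + 2 ≤ X := by exact_mod_cast hX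
  have X2 : 2 ≤ X := by nlinarith
  have X1 : 1 ≤ X := by linarith
  have α0 : 0 < α := (Real.exp_pos _).trans_le hα
  have q0 : C1 + 1 ≤ (C1 + 1) * (C2 + 1) := Nat.le_mul_of_pos_right _ (by omega)
  have q1 : (C1 + 1) * C2 ≤ (C1 + 1) * (C2 + 1) := Nat.mul_le_mul_left _ (by omega)
  obtain ⟨x1, d, L, hd, hL, hNL, H⟩ := h1 X α N A (by nlinarith)
    ((pw_le X1 (by omega)).trans hN) hA hF hα hc
  have N1 : 1 ≤ N := one_le_of_log (by positivity) hN
  have hlog : Real.log N ≤ Real.log L + X ^ C1 := by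
    have a : (0 : ℝ) < N := by exact_mod_cast N1
    have b : (0 : ℝ) < L := by exact_mod_cast hL
    have := Real.log_le_log a hNL
    rwa [Real.log_mul b.ne' (Real.exp_pos _).ne', Real.log_exp] at this
  have p1 : 2 * X ^ C1 ≤ X ^ ((C1 + 1) * (C2 + 1) + 2) :=
    (mul_pw_le (by linarith) X2 _).trans (pw_le X1 (by omega))
  have p2 : 2 * X ^ ((C1 + 1) * C2) ≤ X ^ ((C1 + 1) * (C2 + 1) + 2) :=
    (mul_pw_le (by linarith) X2 _).trans (pw_le X1 (by omega))
  have lg : Lg N L 2 := ⟨hL, by linarith⟩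
  rcases H with H | ⟨p, hp, hpX, H⟩
  · obtain ⟨A', a, b, c⟩ := inc_of hF α0 hL hd (le_trans (by linarith : 1 + η / 2 ≤ 1 + η) H)
    exact ⟨L, A', lg.mono (X2.trans (le_pw X1 (by omega))), a, b, c⟩
  · have XY : X ≤ X ^ (C1 + 1) := le_pw X1 (by omega)
    obtain ⟨x2, d', L', hd', lg', H'⟩ := h2 (X ^ (C1 + 1)) (1 + η) p L
      (fun z => ind A α (x1 + d * z)) (le_trans (by nlinarith) XY) hp
      (hpX.trans (pw_le X1 (by omega))) (by rw [← pow_mul]; linarith) (fun x => by
        unfold ind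
        split_ifs
        · refine ⟨by positivity, le_trans ?_ (Real.exp_le_exp.2 XY)⟩
          rw [div_le_iff₀ α0]
          have := mul_le_mul_of_nonneg_left hα (Real.exp_pos X).le
          rwa [← Real.exp_add, add_neg_cancel, Real.exp_zero] at this
        · exact ⟨le_rfl, (Real.exp_pos _).le⟩) (by linarith) H
    have e : ∀ z : ℤ, x1 + d * (x2 + d' * z) = x1 + d * x2 + ((d * d' : ℕ) : ℤ) * z := fun z => by
      push_cast
      ring
    simp only [e] at H'
    obtain ⟨A', a, b, c⟩ := inc_of hF α0 lg'.1 (Nat.mul_pos hd hd') (hθ.trans H')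
    refine ⟨L', A', (lg.trans lg' (by norm_num)).mono ?_, a, b, c⟩
    rw [← pow_mul]
    exact p2

theorem bnd (h : INC) : BND := by
  intro k hk
  obtain ⟨η, η0, η1, C0, h0⟩ := h k hk
  obtain ⟨m, hm⟩ := pow_unbounded_of_one_lt (3 : ℝ) (by linarith : 1 < 1 + η)
  refine ⟨2 * m * C0 + C0 + 1, fun X N A hX N1 hA hF hc => ?_⟩
  have c0 : (0 : ℝ) ≤ C0 := by positivity
  have m0 : (0 : ℝ) ≤ m := by positivity
  have hX' : 2 * (m : ℝ) * C0 + C0 + 1 ≤ X := by exact_mod_cast hX
  have mc : 0 ≤ 2 * (m : ℝ) * C0 := by positivity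
  have X1 : 1 ≤ X := by linarith
  have Z1 : 1 ≤ X ^ C0 := one_le_pow₀ X1
  have key : ∀ (n N : ℕ) (A : Finset ℤ) (α : ℝ), 1 ≤ N → A ⊆ rg N → APF (k + 2) A →
      Real.exp (-X) ≤ α → α * N = A.card → 1 < α * (1 + η) ^ n → Real.log N ≤ (X ^ C0) ^ n := by
    intro n
    induction n with
    | zero =>
      intro N A α N1 hA _ _ hc h1
      have a : (A.card : ℝ) ≤ N := by exact_mod_cast (card_le_card hA).trans (inc_card_rg N).le
      have b : (0 : ℝ) < N := by exact_mod_cast N1
      rw [pow_zero, mul_one] at h1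
      nlinarith
    | succ n ih =>
      intro N A α N1 hA hF hα hc h1
      rcases le_or_gt (X ^ C0) (Real.log N) with hN | hN
      · obtain ⟨L, A', lg, a, b, c⟩ := h0 X α N A (by linarith) hN hA hF hα hc
        have L0 : (0 : ℝ) < L := by exact_mod_cast lg.1
        have α0 : 0 < α := (Real.exp_pos _).trans_le hα
        have d : (1 + η) * α ≤ A'.card / L := (le_div_iff₀ L0).2 c
        have := ih L A' (A'.card / L) lg.1 a b (by nlinarith) (div_mul_cancel₀ _ L0.ne') (by
          refine h1.trans_le ?_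
          rw [pow_succ', ← mul_assoc, mul_comm α]
          exact mul_le_mul_of_nonneg_right d (by positivity))
        rw [pow_succ']
        exact lg.2.trans (mul_le_mul_of_nonneg_left this (by positivity))
      · exact hN.le.trans (le_pw Z1 (by omega))
  have N0 : (0 : ℝ) < N := by exact_mod_cast N1
  have hα : Real.exp (-X) ≤ A.card / N := (le_div_iff₀ N0).2 hc
  have cl : ⌈X⌉₊ ≠ 0 := (Nat.ceil_pos.2 (by linarith)).ne'
  have big : Real.exp X < (1 + η) ^ (m * ⌈X⌉₊) := by
    have a : Real.exp X ≤ Real.exp 1 ^ ⌈X⌉₊ := by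
      rw [← Real.exp_nat_mul, mul_one]
      exact Real.exp_le_exp.2 (Nat.le_ceil X)
    rw [pow_mul]
    refine a.trans_lt (pow_lt_pow_left₀ ?_ (Real.exp_pos _).le cl)
    linarith [Real.exp_one_lt_d9]
  have := key (m * ⌈X⌉₊) N A (A.card / N) N1 hA hF hα (div_mul_cancel₀ _ N0.ne') (by
    have a := mul_lt_mul_of_pos_left big (Real.exp_pos (-X))
    rw [← Real.exp_add, neg_add_cancel, Real.exp_zero] at a
    exact a.trans_le (mul_le_mul_of_nonneg_right hα (by positivity)))
  refine this.trans ?_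
  have l0 : 0 ≤ Real.log X := Real.log_nonneg X1
  have e : (X ^ C0) ^ (m * ⌈X⌉₊) = Real.exp ((C0 * (m * ⌈X⌉₊) : ℕ) * Real.log X) := by
    rw [Real.exp_nat_mul, Real.exp_log (by linarith), pow_mul X]
  rw [e]
  refine Real.exp_le_exp.2 (mul_le_mul_of_nonneg_right ?_ l0)
  have a : (⌈X⌉₊ : ℝ) ≤ 2 * X := by linarith [Nat.ceil_lt_add_one (by linarith : 0 ≤ X)]
  push_cast
  nlinarith [mul_le_mul_of_nonneg_left a (mul_nonneg c0 m0), mul_nonneg c0 (by linarith : 0 ≤ X)]

theorem res (h : BND) : RESULT := by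
  intro k hk
  obtain ⟨k, rfl⟩ : ∃ k', k = k' + 2 := ⟨k - 2, by omega⟩
  obtain ⟨C, h0⟩ := h k (by omega)
  have c0 : (0 : ℝ) ≤ C := by positivity
  have hc : (0 : ℝ) < 1 / (C + 1) := by positivity
  have hc1 : 1 / ((C : ℝ) + 1) * (C + 1) = 1 := by field_simp
  refine ⟨1 / (C + 1), hc, ?_⟩
  generalize 1 / ((C : ℝ) + 1) = c at hc hc1
  have t1 : Tendsto (fun N : ℕ => Real.log N) atTop atTop :=
    Real.tendsto_log_atTop.comp tendsto_natCast_atTop_atTop
  have t2 : Tendsto (fun N : ℕ => Real.log (Real.log N)) atTop atTop :=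
    Real.tendsto_log_atTop.comp t1
  have t3 : Tendsto (fun N : ℕ => Real.log (Real.log (Real.log N))) atTop atTop :=
    Real.tendsto_log_atTop.comp t2
  obtain ⟨N₀, hN₀⟩ := eventually_atTop.1 (((t2.eventually
    (Real.isLittleO_log_id_atTop.bound (c := c * c) (by positivity))).and
    (t3.eventually_ge_atTop 1)).and ((t2.eventually_gt_atTop 0).and
    ((t1.eventually_gt_atTop 0).and (eventually_ge_atTop 1))))
  refine ⟨N₀, fun N hN A hA hF => ?_⟩
  obtain ⟨⟨a1, a2⟩, a3, a4, N1⟩ := hN₀ N hN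
  have e4 := Real.exp_log a4
  generalize Real.log (Real.log N) = u at a1 a2 a3 e4 ⊢
  rw [id, Real.norm_eq_abs, Real.norm_eq_abs, abs_of_pos a3, abs_of_pos (by linarith)] at a1
  by_contra hlt
  rw [not_le] at hlt
  have l0 : 0 < Real.log u := by linarith
  have X1 : (C : ℝ) + 1 ≤ c * u / Real.log u := by
    rw [le_div_iff₀ l0]
    have := mul_le_mul_of_nonneg_left a1 (by positivity : 0 ≤ (C : ℝ) + 1)
    have e : ((C : ℝ) + 1) * (c * c * u) = c * (C + 1) * (c * u) := by ring
    rwa [e, hc1, one_mul] at this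
  have X2 : c * u / Real.log u ≤ u := by
    rw [div_le_iff₀ l0]
    have : c ≤ 1 := by nlinarith
    nlinarith
  have inj : Function.Injective fun a : ℕ => (a : ℤ) - 1 := fun a b e => by
    have : (a : ℤ) - 1 = b - 1 := e
    omega
  have key := h0 (c * u / Real.log u) N (A.image fun a : ℕ => (a : ℤ) - 1) (by linarith) N1
    (by
      intro z hz
      obtain ⟨a, ha, rfl⟩ := mem_image.1 hz
      have := mem_Icc.1 (hA ha)
      rw [rg, mem_Ico]
      omega)
    (by
      intro a d hd H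
      obtain ⟨a0, -, e0⟩ := mem_image.1 (H 0 (by omega))
      refine hF a0 d.toNat (by omega) fun i hi => ?_
      obtain ⟨b, hb, e⟩ := mem_image.1 (H i hi)
      have e1 : ((a0 + i * d.toNat : ℕ) : ℤ) = b := by
        rw [Nat.cast_add, Nat.cast_mul, Int.toNat_of_nonneg hd.le]
        rw [Nat.cast_zero, zero_mul, add_zero] at e0
        linarith
      rwa [Nat.cast_injective e1])
    (by
      rw [card_image_of_injective _ inj, mul_comm]
      exact hlt.le)
  rw [← e4, Real.exp_le_exp] at key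
  have l1 : Real.log (c * u / Real.log u) ≤ Real.log u := Real.log_le_log (by linarith) X2
  have l2 := mul_le_mul_of_nonneg_left l1
    (by positivity : 0 ≤ (C : ℝ) * (c * u / Real.log u))
  have e : (C : ℝ) * (c * u / Real.log u) * Real.log u = C * c * u := by field_simp
  nlinarith [mul_pos hc a3]

end

end Vale.Agent.P057L
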