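import Vale.Agent.P057L.Num
import Vale.Agent.P057Z.Fr.Bog
import Vale.Agent.P057Z.Fr.Box
import Vale.Agent.P057Z.Km.All

/-! Bohr boxes in the integers and the chart of every dense fibre. -/

set_option linter.all false

open Finset
open scoped BigOperators

namespace Vale.Agent.P057L

open Vale.Agent.P057Z

namespace Bogz

theorem mono {q Q T : ℕ} {κ : Type} {γ : κ → Fin q → ZMod Q} {ρ ρ' : ℝ} {y : Vz q} {m : κ → ℤ}
    (h : Sl γ T ρ y m) (hρ : ρ ≤ ρ') : Sl γ T ρ' y m :=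
  ⟨fun l => (h.1 l).trans (mul_le_mul_of_nonneg_right hρ (Nat.cast_nonneg _)),
    fun r => (h.2 r).trans hρ⟩

theorem inj {q Q : ℕ} [Fact Q.Prime] {v w : Vz q} (h : cs Q v = cs Q w) (k : ∀ l, |v l - w l| < Q) :
    v = w := by
  funext l
  have h1 : ((v l - w l : ℤ) : ZMod Q) = 0 := by
    rw [Int.cast_sub, sub_eq_zero]
    exact congrFun h l
  exact sub_eq_zero.1 (Int.eq_zero_of_abs_lt_dvd ((ZMod.intCast_zmod_eq_zero_iff_dvd _ _).1 h1) (k l))

theorem side {Y : ℝ} {q N : ℕ} (hY : 127 ≤ Y) (hq : (q : ℝ) ≤ Y) (hN : Real.exp (Y ^ 2) ≤ N) :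
    ∃ T Ta : ℕ, 1 ≤ T ∧ T * Real.exp (10 * (2 * Y)) ≤ Ta ∧ 4 * (q + 1) * (8 * (q + 1) * Ta) ≤ N ∧
      T ≤ N ∧ N ≤ T * Real.exp (Y ^ 2) := by
  set K := ⌈Real.exp (10 * (2 * Y))⌉₊ with hK
  set M := 32 * (q + 1) ^ 2 * K with hM
  have e0 := Real.add_one_le_exp Y
  have e1 : 1 ≤ Real.exp (10 * (2 * Y)) := Real.one_le_exp (by linarith)
  have k1 : (K : ℝ) ≤ 2 * Real.exp (10 * (2 * Y)) := by
    have := (Nat.ceil_lt_add_one (by linarith : 0 ≤ Real.exp (10 * (2 * Y)))).le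
    linarith
  have k0 : 0 < K := Nat.ceil_pos.2 (by linarith)
  have m0 : 0 < M := by positivity
  have m1 : 2 * (M : ℝ) ≤ Real.exp (Y ^ 2) := by
    have a1 : ((q : ℝ) + 1) ^ 2 ≤ Real.exp Y ^ 2 := pow_le_pow_left₀ (by positivity) (by linarith) 2
    calc 2 * (M : ℝ) = 64 * ((q + 1) ^ 2 * K) := by rw [hM]; push_cast; ring
      _ ≤ 64 * (Real.exp Y ^ 2 * (2 * Real.exp (10 * (2 * Y)))) := by gcongr
      _ = 128 * (Real.exp Y ^ 2 * Real.exp (10 * (2 * Y))) := by ring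
      _ ≤ Real.exp Y * (Real.exp Y ^ 2 * Real.exp (10 * (2 * Y))) := by gcongr; linarith
      _ = Real.exp (23 * Y) := by
        rw [← Real.exp_nat_mul, ← Real.exp_add, ← Real.exp_add]; congr 1; push_cast; ring
      _ ≤ _ := Real.exp_le_exp.2 (by nlinarith)
  have m2 : M ≤ N := by
    have : (M : ℝ) ≤ N := by have : (0 : ℝ) ≤ M := Nat.cast_nonneg _; linarith
    exact_mod_cast this
  have t1 : 1 ≤ N / M := (Nat.one_le_div_iff m0).2 m2
  refine ⟨N / M, N / M * K, t1, ?_, ?_, Nat.div_le_self _ _, ?_⟩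
  · push_cast
    exact mul_le_mul_of_nonneg_left (Nat.le_ceil _) (Nat.cast_nonneg _)
  · exact le_trans (le_of_eq (by rw [hM]; ring)) (Nat.div_mul_le_self N M)
  · have a1 : N ≤ N / M * (2 * M) := by
      have := Nat.lt_div_mul_add (a := N) m0
      nlinarith
    calc (N : ℝ) ≤ (N / M : ℕ) * (2 * (M : ℝ)) := by exact_mod_cast a1
      _ ≤ _ := mul_le_mul_of_nonneg_left m1 (Nat.cast_nonneg _)

end Bogz

open Bogz in
theorem bogz : BOGZ := by
  classical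
  obtain ⟨X0, hB⟩ := Fr.bog Km.apb Fr.box
  refine ⟨⌈X0⌉₊ + 127, fun Y q N Q _ hY hq hN hQ => ?_⟩
  push_cast at hY
  have x0 := Nat.le_ceil X0
  have x1 : (0 : ℝ) ≤ ⌈X0⌉₊ := Nat.cast_nonneg _
  have y1 : 1 ≤ Y := by linarith
  have p2 : Y ^ 2 ≤ Y ^ (⌈X0⌉₊ + 127) := pw_le y1 (by omega)
  obtain ⟨T, Ta, t1, t2, t3, t4, t5⟩ := side (by linarith) hq
    (exp_le_of_log (by positivity) (p2.trans hN))
  refine ⟨⌊(2 * Y) ^ 6⌋₊, T, ?_, t5.trans ?_, t4, fun S hS hc => ?_⟩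
  · refine (Nat.floor_le (by positivity)).trans ?_
    rw [mul_pow]
    exact (mul_pw_le (by linarith) (by linarith) 6).trans (pw_le y1 (by omega))
  · exact mul_le_mul_of_nonneg_left (Real.exp_le_exp.2 p2) (Nat.cast_nonneg _)
  have b1 : ∀ s ∈ S, ∀ l, 0 ≤ s l ∧ s l < N := fun s hs l =>
    mem_Ico.1 (Fintype.mem_piFinset.1 (hS hs) l)
  have c1 : (S.image (cs Q)).card = S.card := card_image_of_injOn fun v hv w hw k =>
    inj k fun l => by
      have := b1 v hv l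
      have := b1 w hw l
      rw [abs_lt]
      omega
  obtain ⟨Θ, h1, h2⟩ := hB (2 * Y) Y (by linarith) y1 (by
      have := Real.pow_div_factorial_le_exp (2 * Y) (by linarith) 3
      norm_num [Nat.factorial] at this
      nlinarith [pow_nonneg (by linarith : 0 ≤ Y) 3]) Q q (S.image (cs Q)) 0 N _ Ta T hq t1 t2 le_rfl t3
    (by omega) (fun s hs => by
      obtain ⟨v, hv, rfl⟩ := mem_image.1 hs
      rw [Fr.mem_tb, sub_zero, Fr.mem_bx]
      refine ⟨fun l => (v l).toNat, fun l => by have := b1 v hv l; beta_reduce; omega, funext fun l => ?_⟩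
      rw [← Int.cast_natCast, Int.toNat_of_nonneg (b1 v hv l).1]
      rfl) (by
      rw [c1]
      refine le_trans ?_ (mul_le_mul_of_nonneg_left hc (Real.exp_pos _).le)
      rw [← mul_assoc, ← Real.exp_add]
      refine mul_le_mul_of_nonneg_right ?_ (by positivity)
      have := Real.add_one_le_exp (2 * Y + -Y)
      linarith)
  have h3 : Θ.toList.length ≤ ⌊(2 * Y) ^ 6⌋₊ := by
    rw [length_toList]
    exact Nat.le_floor h1
  refine ⟨fun r => Θ.toList.getD r 0, fun v m hv => ?_⟩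
  have r1 : Real.exp (-Y ^ (⌈X0⌉₊ + 127)) ≤ Real.exp (-(3 * (2 * Y))) :=
    Real.exp_le_exp.2 (by nlinarith)
  have v1 : ∀ l, |v l| ≤ T := fun l => by
    have := (hv.1 l).trans (mul_le_of_le_one_left (Nat.cast_nonneg T)
      (r1.trans (Real.exp_le_one_iff.2 (by linarith))))
    exact_mod_cast this
  obtain ⟨s1, k1, s2, k2, s3, k3, s4, k4, k⟩ := h2 (cs Q v) ⟨v, v1, rfl⟩ fun θ hθ => by
    obtain ⟨r, hr, rfl⟩ := List.mem_iff_getElem.1 (mem_toList.2 hθ)
    have a1 := hv.2 ⟨r, hr.trans_le h3⟩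
    simp only [List.getD_eq_getElem _ _ hr] at a1
    refine le_trans ?_ (a1.trans r1)
    have a2 := Fr.nm_cast_le (Q := Q)
      (∑ l, ((Θ.toList[r] l).val : ℤ) * v l - Q * m ⟨r, hr.trans_le h3⟩)
    have q0 : (0 : ℝ) < Q := Fr.Qpos
    push_cast at a2
    simp only [ZMod.natCast_val, ZMod.cast_id', id, ZMod.natCast_self, zero_mul, sub_zero] at a2
    refine le_trans a2 (le_of_eq ?_)
    rw [← abs_of_pos q0, ← abs_div, abs_of_pos q0, sub_div, sum_div, mul_div_cancel_left₀ _ q0.ne']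
    simp only [ZMod.natCast_val, mul_div_right_comm]
  obtain ⟨w1, l1, rfl⟩ := mem_image.1 k1
  obtain ⟨w2, l2, rfl⟩ := mem_image.1 k2
  obtain ⟨w3, l3, rfl⟩ := mem_image.1 k3
  obtain ⟨w4, l4, rfl⟩ := mem_image.1 k4
  refine ⟨w1, l1, w2, l2, w3, l3, w4, l4, inj (Q := Q) (k.trans (funext fun l => ?_)) fun l => ?_⟩
  · simp [cs]
  · have := b1 _ l1 l
    have := b1 _ l2 l
    have := b1 _ l3 l
    have := b1 _ l4 l
    have := abs_le.1 (v1 l)
    simp only [Pi.add_apply, Pi.sub_apply, abs_lt]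
    omega

theorem extb (hA : EXTA) : EXTB := by
  classical
  intro q Q Q' T _ κ ι _ γ τ S g hT h0 h4 hQ h6 hS
  let A : Fin q ⊕ κ → Fin q ⊕ κ → ℝ := Sum.elim
    (fun l => Sum.elim (fun l' => if l = l' then 1 / T else 0) fun _ => 0)
    fun r => Sum.elim (fun l => ((γ r l).val : ℝ) / Q') fun r' => if r = r' then -1 else 0
  have t0 : (0 : ℝ) < T := by exact_mod_cast hT
  have a1 : ∀ (ρ : ℝ) (w : Fin q ⊕ κ → ℤ), Sa A ρ (fun d => (w d : ℝ)) ↔
      Sl γ T ρ (fun l => w (.inl l)) fun r => w (.inr r) := fun ρ w => by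
    simp only [Sa, Sl, Sum.forall, A, Fintype.sum_sum_type, Sum.elim_inl, Sum.elim_inr, ite_mul,
      zero_mul, sum_ite_eq, mem_univ, if_true, sum_const_zero, add_zero, neg_one_mul,
      ← sub_eq_add_neg, one_div, inv_mul_eq_div, abs_div, abs_of_pos t0, div_le_iff₀ t0]
  have a2 : ∀ v : Vz q, ∃ s : Fin 4 → Vz q, (∃ s1 ∈ S, ∃ s2 ∈ S, ∃ s3 ∈ S, ∃ s4 ∈ S,
      v = s1 + s2 - s3 - s4) → (∀ a, s a ∈ S) ∧ v = s 0 + s 1 - s 2 - s 3 := fun v => by
    by_cases h : ∃ s1 ∈ S, ∃ s2 ∈ S, ∃ s3 ∈ S, ∃ s4 ∈ S, v = s1 + s2 - s3 - s4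
    · obtain ⟨s1, k1, s2, k2, s3, k3, s4, k4, k⟩ := h
      exact ⟨![s1, s2, s3, s4], fun _ => ⟨by simp [Fin.forall_fin_succ, *], k⟩⟩
    · exact ⟨0, fun k => absurd k h⟩
  choose s hs using a2
  let F : Vz q → ι → ZMod Q := fun v => g (s v 0) + g (s v 1) - g (s v 2) - g (s v 3)
  obtain ⟨U, hU⟩ := hA Q (Fin q ⊕ κ) (Fin q ⊕ κ) ι A τ (fun w => F fun l => w (.inl l)) h0
    (by simpa using hQ) fun a b ha hb hab => by
      obtain ⟨k1, k2⟩ := hs _ (hS _ _ ((a1 _ _).1 ha))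
      obtain ⟨k3, k4⟩ := hs _ (hS _ _ ((a1 _ _).1 hb))
      obtain ⟨k5, k6⟩ := hs _ (hS _ _ ((a1 _ _).1 hab))
      have k7 : (fun l => (a + b) (.inl l)) = (fun l => a (.inl l)) + fun l => b (.inl l) := rfl
      simp only [F]
      generalize s (fun l => a (.inl l)) = x at *
      generalize s (fun l => b (.inl l)) = y at *
      generalize s (fun l => (a + b) (.inl l)) = z at *
      have k8 := h6 ![x 0, x 1, y 0, y 1, z 2, z 3] ![z 0, z 1, x 2, x 3, y 2, y 3]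
        (by simp [Fin.forall_fin_succ, k1, k3, k5]) (by simp [Fin.forall_fin_succ, k1, k3, k5]) (by
          rw [k2, k4, k6] at k7
          simp only [Fin.sum_univ_six, Matrix.cons_val]
          linear_combination -k7)
      simp only [Fin.sum_univ_six, Matrix.cons_val] at k8
      linear_combination -k8
  refine ⟨fun l => U (.inl l), fun r => U (.inr r), fun y hy y' hy' m h => ?_⟩
  have k := hU (Sum.elim (y - y') m) ((a1 _ _).2 (by
    rw [Fintype.card_sum, Fintype.card_fin, Nat.cast_add]; exact h))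
  obtain ⟨k1, k2⟩ := hs (y - y') ⟨y, hy, y, hy, y, hy, y', hy', by abel⟩
  simp only [zd, Fintype.sum_sum_type, Sum.elim_inl, Sum.elim_inr, F] at k ⊢
  rw [← k]
  change _ = g (s (y - y') 0) + g (s (y - y') 1) - g (s (y - y') 2) - g (s (y - y') 3)
  generalize s (y - y') = x at *
  have k8 := h6 ![y, y, y, y, x 2, x 3] ![y, y, y, y', x 0, x 1]
    (by simp [Fin.forall_fin_succ, k1, hy]) (by simp [Fin.forall_fin_succ, k1, hy, hy']) (by
      simp only [Fin.sum_univ_six, Matrix.cons_val]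
      linear_combination k2)
  simp only [Fin.sum_univ_six, Matrix.cons_val] at k8
  linear_combination k8

theorem pet1 (hB : BAS) (hG : BOGZ) (hE : EXTB) : PET1 := by
  obtain ⟨C, hG⟩ := hG
  refine ⟨2 * C + 6, fun Y j q N Q Q' _ _ ι φ Ω hY hq hN hQ hQ' hφ => ?_⟩
  push_cast at hY
  have c0 : (0 : ℝ) ≤ C := Nat.cast_nonneg _
  have y1 : 1 ≤ Y := by linarith
  obtain ⟨R, T, r1, r2, r3, r4⟩ := hG Y q N Q' (by linarith) hq
    ((pw_le y1 (by omega)).trans hN) hQ'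
  have n1 := exp_le_of_log (by positivity) hN
  have t1 : 1 ≤ T := Nat.one_le_iff_ne_zero.2 fun h => by
    rw [h, Nat.cast_zero, zero_mul] at r2
    linarith [Real.exp_pos (Y ^ (2 * C + 6))]
  have w1 : (q : ℝ) + R ≤ Y ^ (C + 2) := by
    have := add_pw_le (by linarith : 2 ≤ Y) (show 1 < C + 2 by omega) (show C < C + 2 by omega)
    rw [pow_one] at this
    linarith
  have w2 : 1 ≤ Y ^ (C + 2) := one_le_pow₀ y1
  have w3 : (2 * (q + R) + 3) ^ (q + R) < Q := by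
    have a1 : ((2 * (q + R) + 3 : ℕ) : ℝ) ≤ Real.exp (4 * Y ^ (C + 2)) := by
      have := Real.add_one_le_exp (4 * Y ^ (C + 2))
      push_cast
      linarith
    have a2 := pow_le_pow_left₀ (Nat.cast_nonneg _) a1 (q + R)
    rw [← Real.exp_nat_mul, ← Nat.cast_pow] at a2
    have a3 : ((q + R : ℕ) : ℝ) * (4 * Y ^ (C + 2)) < Y ^ (2 * C + 6) := by
      push_cast
      calc _ ≤ Y ^ (C + 2) * (4 * Y ^ (C + 2)) := by gcongr
        _ < Y ^ (C + 2) * (Y ^ 2 * Y ^ (C + 2)) := by gcongr; nlinarith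
        _ = _ := by ring
    have a4 : (N : ℝ) ≤ Q := by exact_mod_cast hQ
    exact_mod_cast (a2.trans_lt (Real.exp_lt_exp.2 a3)).trans_le (n1.trans a4)
  have w4 : Real.exp (-Y ^ (2 * C + 6)) ≤ Real.exp (-Y ^ (C + 1)) / (q + R + 1) := by
    rw [le_div_iff₀ (by positivity)]
    refine (mul_le_mul_of_nonneg_left ((add_le_add_left w1 1).trans (Real.add_one_le_exp _))
      (Real.exp_pos _).le).trans ?_
    rw [← Real.exp_add]
    have := add_pw_le (by linarith : 2 ≤ Y) (show C + 1 < 2 * C + 6 by omega)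
      (show C + 2 < 2 * C + 6 by omega)
    exact Real.exp_le_exp.2 (by linarith)
  have w5 : Real.exp (-Y ^ (C + 1)) ≤ 1 / 4 := by
    have := Real.add_one_le_exp (Y ^ (C + 1))
    have := le_pw y1 (show 1 ≤ C + 1 by omega)
    rw [Real.exp_neg, one_div]
    exact inv_anti₀ (by norm_num) (by linarith)
  have key : ∀ x : Pt j q, ∃ (γ : Fin R → Fin q → ZMod Q') (θ : Fin q → ι → ZMod Q)
      (c : Fin R → ι → ZMod Q), Real.exp (-Y) * (N : ℝ) ^ q ≤ (fb Ω N x).card →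
      ∀ y ∈ fb Ω N x, ∀ y' ∈ fb Ω N x, ∀ m, Sl γ T (Real.exp (-Y ^ (2 * C + 6))) (y - y') m →
        φ (cn y x) - φ (cn y' x) = zd (y - y') θ + zd m c := fun x => by
    by_cases h : Real.exp (-Y) * (N : ℝ) ^ q ≤ (fb Ω N x).card
    · obtain ⟨γ, hγ⟩ := r4 _ (fun y hy => (mem_fb.1 hy).1) h
      obtain ⟨θ, c, k⟩ := hE q Q Q' T (Fin R) ι γ _ _ (fun y => φ (cn y x)) t1 (Real.exp_pos _) w5
        (by simpa using w3) (hB.2.2.2.2.2.2.2.2 j q N _ φ Ω x hφ) fun v m hv =>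
          hγ v m (Bogz.mono hv (Real.exp_le_exp.2 (neg_le_neg (pw_le y1 (by omega)))))
      exact ⟨γ, θ, c, fun _ y hy y' hy' m hm => k y hy y' hy' m (Bogz.mono hm (by simpa using w4))⟩
    · exact ⟨0, 0, 0, fun k => absurd k h⟩
  choose γ θ c hk using key
  exact ⟨R, T, γ, θ, c, r1.trans (pw_le y1 (by omega)), r2.trans (mul_le_mul_of_nonneg_left
    (Real.exp_le_exp.2 (pw_le y1 (by omega))) (Nat.cast_nonneg _)), r3, hk⟩

end Vale.Agent.P057L
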