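import Vale.Agent.P057L.Defs
import Vale.Agent.P057Z.Ke.Nm

/-! A large trilinear average gives many respected rectangles. -/

set_option linter.all false

open Finset
open scoped BigOperators ComplexConjugate

namespace Vale.Agent.P057L

open Vale.Agent.P057Z Vale.Agent.P057Z.Ke

noncomputable section

namespace Box3A

theorem conj_exp {α : Type*} (s : Finset α) (f : α → ℂ) :
    conj (𝔼 x ∈ s, f x) = 𝔼 x ∈ s, conj (f x) := by
  simp [expect_eq_sum_div_card, map_sum]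

/-- Cauchy-Schwarz -/
theorem cs2 {α β : Type*} {s : Finset α} (hs : s.Nonempty) (t : Finset β) (u : α → ℂ)
    (f : α → β → ℂ) (hu : ∀ x, ‖u x‖ ≤ 1) :
    ‖𝔼 x ∈ s, u x * 𝔼 y ∈ t, f x y‖ ^ 2 ≤
      ‖𝔼 p ∈ t ×ˢ t, 𝔼 x ∈ s, f x p.1 * conj (f x p.2)‖ := by
  have h1 : ‖𝔼 x ∈ s, u x * 𝔼 y ∈ t, f x y‖ ≤ 𝔼 x ∈ s, 1 * ‖𝔼 y ∈ t, f x y‖ :=
    (RCLike.norm_expect_le (K := ℂ)).trans (expect_le_expect fun x _ => by
      rw [norm_mul]
      exact mul_le_mul_of_nonneg_right (hu x) (norm_nonneg _))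
  have h2 := expect_mul_sq_le_sq_mul_sq s (fun _ => (1 : ℝ)) fun x => ‖𝔼 y ∈ t, f x y‖
  rw [expect_const hs, one_pow, one_mul] at h2
  have h3 : 𝔼 p ∈ t ×ˢ t, 𝔼 x ∈ s, f x p.1 * conj (f x p.2) =
      ((𝔼 x ∈ s, ‖𝔼 y ∈ t, f x y‖ ^ 2 : ℝ) : ℂ) := by
    rw [expect_comm, Complex.ofReal_expect]
    refine expect_congr rfl fun x _ => ?_
    rw [expect_product, Complex.ofReal_pow, ← Complex.mul_conj', conj_exp, expect_mul_expect]
  rw [h3, Complex.norm_real]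
  exact ((pow_le_pow_left₀ (norm_nonneg _) h1 2).trans h2).trans (le_abs_self _)

variable {Q : ℕ} [Fact Q.Prime]

theorem mul_le1 {a b : ℂ} (ha : ‖a‖ ≤ 1) (hb : ‖b‖ ≤ 1) : ‖a * b‖ ≤ 1 := by
  rw [norm_mul]
  exact mul_le_one₀ ha (norm_nonneg _) hb

theorem conj_le1 {a : ℂ} (ha : ‖a‖ ≤ 1) : ‖conj a‖ ≤ 1 := by rwa [Complex.norm_conj]

theorem pars {T : ℕ} (T1 : 1 ≤ T) (hT : T ≤ Q) :
    ∑ c : ZMod Q, ‖𝔼 s ∈ rg T, ch (c * (s : ZMod Q))‖ ^ 2 = Q / T := by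
  have T0 : (T : ℂ) ≠ 0 := Nat.cast_ne_zero.2 (by omega)
  have cT : (rg T).card = T := by simp [rg]
  apply Complex.ofReal_injective
  have h1 : ∀ c : ZMod Q, ((‖𝔼 s ∈ rg T, ch (c * (s : ZMod Q))‖ ^ 2 : ℝ) : ℂ) =
      (∑ s ∈ rg T, ∑ t ∈ rg T, ch (c * ((s : ZMod Q) - (t : ZMod Q)))) / T ^ 2 := fun c => by
    rw [Complex.ofReal_pow, ← Complex.mul_conj', conj_exp, expect_eq_sum_div_card,
      expect_eq_sum_div_card, cT, div_mul_div_comm, sum_mul_sum, ← sq]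
    refine congrArg (· / _) (sum_congr rfl fun s _ => sum_congr rfl fun t _ => ?_)
    rw [← ch_neg, ← ch_add, mul_sub, sub_eq_add_neg]
  have h2 : ∀ s ∈ rg T, ∑ t ∈ rg T, ∑ c : ZMod Q, ch (c * ((s : ZMod Q) - (t : ZMod Q))) = Q := fun s hs => by
    rw [sum_eq_single_of_mem s hs fun t ht hne => ?_, sum_ch, if_pos (sub_self _)]
    rw [sum_ch, if_neg fun h => hne ?_]
    have h3 := (ZMod.intCast_eq_intCast_iff_dvd_sub _ _ _).1 (sub_eq_zero.1 h)
    have h4 := mem_Ico.1 hs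
    have h5 := mem_Ico.1 ht
    have := Int.eq_zero_of_abs_lt_dvd h3 (abs_lt.2 ⟨by omega, by omega⟩)
    omega
  rw [Complex.ofReal_sum, sum_congr rfl fun c _ => h1 c, ← sum_div, sum_comm,
    sum_congr rfl fun s hs => sum_comm.trans (h2 s hs), sum_const, cT, nsmul_eq_mul]
  push_cast
  field_simp

theorem conv {β : Type} (S : Finset β) (D : β → ZMod Q) (K : ZMod Q → ℝ) :
    ∑ b ∈ S, ∑ b' ∈ S, K (D b - D b') = ∑ v, ∑ w, ((S.filter fun b => D b = v).card : ℝ) *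
      ((S.filter fun b => D b = w).card * K (v - w)) := by
  have h : ∀ φ : ZMod Q → ℝ, ∑ b ∈ S, φ (D b) =
      ∑ v, ((S.filter fun b => D b = v).card : ℝ) * φ v := fun φ => by
    rw [← sum_fiberwise' S D φ]
    exact sum_congr rfl fun v _ => by rw [sum_const, nsmul_eq_mul]
  rw [h fun v => ∑ b' ∈ S, K (v - D b')]
  exact sum_congr rfl fun v _ => by rw [h fun w => K (v - w), mul_sum]

theorem dom {β : Type} (S : Finset β) (D : β → ZMod Q) {K : ZMod Q → ℝ} (K0 : ∀ v, 0 ≤ K v) :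
    ∑ b ∈ S, ∑ b' ∈ S, K (D b - D b') ≤
      (∑ c, K c) * ∑ b ∈ S, ∑ b' ∈ S, if D b - D b' = 0 then (1 : ℝ) else 0 := by
  rw [conv S D K, conv S D fun c => if c = 0 then 1 else 0]
  have key : ∀ r : ZMod Q → ℝ, ∑ v, ∑ w, r v * (r w * K (v - w)) ≤
      (∑ c, K c) * ∑ v, ∑ w, r v * (r w * if v - w = 0 then (1 : ℝ) else 0) := fun r => by
    have e1 : ∀ v, ∑ w, r v * (r w * if v - w = 0 then (1 : ℝ) else 0) = r v ^ 2 := fun v => by
      simp [sub_eq_zero, sq]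
    have e2 : ∀ v, ∑ w, K (v - w) = ∑ c, K c := fun v => (Equiv.subLeft v).sum_comp K
    have e3 : ∀ w, ∑ v, K (v - w) = ∑ c, K c := fun w => (Equiv.subRight w).sum_comp K
    have a1 : ∑ v, ∑ w, r v ^ 2 * K (v - w) = (∑ c, K c) * ∑ v, r v ^ 2 := by
      rw [mul_sum]
      exact sum_congr rfl fun v _ => by rw [← mul_sum, e2, mul_comm]
    have a2 : ∑ v, ∑ w, r w ^ 2 * K (v - w) = (∑ c, K c) * ∑ v, r v ^ 2 := by
      rw [sum_comm, mul_sum]
      exact sum_congr rfl fun v _ => by rw [← mul_sum, e3, mul_comm]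
    have a3 : ∑ v, ∑ w, 2 * (r v * (r w * K (v - w))) ≤
        ∑ v, ∑ w, (r v ^ 2 * K (v - w) + r w ^ 2 * K (v - w)) :=
      sum_le_sum fun v _ => sum_le_sum fun w _ => by
        nlinarith [mul_nonneg (sq_nonneg (r v - r w)) (K0 (v - w))]
    simp only [sum_add_distrib, ← mul_sum (a := (2 : ℝ))] at a3
    rw [sum_congr rfl fun v _ => e1 v]
    linarith
  exact key fun v => ((S.filter fun b => D b = v).card : ℝ)

end Box3A

open Box3A

theorem box3 : BOX3 := by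
  classical
  intro Q _ α β A B T δ u F G ξ T1 TQ δ0 δ1 hu hF hG h
  rcases A.eq_empty_or_nonempty with rfl | nA
  · simp
  rcases B.eq_empty_or_nonempty with rfl | nB
  · simp
  have nT : (rg T).Nonempty := ⟨0, mem_Ico.2 ⟨le_rfl, by omega⟩⟩
  let f1 : ℤ × β → α → ℂ := fun x a => u a x.2 * F x.1 a * ch (ξ a x.2 * (x.1 : ZMod Q))
  let D : α × α → β → ZMod Q := fun p b => ξ p.1 b - ξ p.2 b
  let f2 : (α × α) × ℤ → β → ℂ := fun y b =>
    u y.1.1 b * conj (u y.1.2 b) * ch (D y.1 b * (y.2 : ZMod Q))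
  have q0 : 𝔼 s ∈ rg T, 𝔼 a ∈ A, 𝔼 b ∈ B, u a b * F s a * G s b * ch (ξ a b * (s : ZMod Q)) =
      𝔼 x ∈ rg T ×ˢ B, G x.1 x.2 * 𝔼 a ∈ A, f1 x a := by
    rw [expect_product]
    refine expect_congr rfl fun s _ => ?_
    rw [expect_comm]
    refine expect_congr rfl fun b _ => ?_
    rw [mul_expect]
    exact expect_congr rfl fun a _ => by simp only [f1]; ring
  have q1 : 𝔼 p ∈ A ×ˢ A, 𝔼 x ∈ rg T ×ˢ B, f1 x p.1 * conj (f1 x p.2) =
      𝔼 y ∈ (A ×ˢ A) ×ˢ rg T, F y.2 y.1.1 * conj (F y.2 y.1.2) * 𝔼 b ∈ B, f2 y b := by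
    rw [expect_product (A ×ˢ A)]
    refine expect_congr rfl fun p _ => ?_
    rw [expect_product]
    refine expect_congr rfl fun s _ => ?_
    rw [mul_expect]
    refine expect_congr rfl fun b _ => ?_
    simp only [f1, f2, D, map_mul, ← ch_neg, sub_mul, sub_eq_add_neg (ξ p.1 b * _), ch_add]
    ring
  let K : ZMod Q → ℝ := fun c => ‖𝔼 s ∈ rg T, ch (c * (s : ZMod Q))‖
  let S : α × α → Finset β := fun p => B.filter fun b => u p.1 b ≠ 0 ∧ u p.2 b ≠ 0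
  let m : (α × α) × β × β → ℝ := fun z =>
    if z.2.1 ∈ S z.1 ∧ z.2.2 ∈ S z.1 then K (D z.1 z.2.1 - D z.1 z.2.2) else 0
  have q2 : ‖𝔼 q ∈ B ×ˢ B, 𝔼 y ∈ (A ×ˢ A) ×ˢ rg T, f2 y q.1 * conj (f2 y q.2)‖ ≤
      𝔼 z ∈ (A ×ˢ A) ×ˢ B ×ˢ B, 1 * m z := by
    rw [expect_product (A ×ˢ A) (B ×ˢ B), expect_comm (A ×ˢ A)]
    refine (RCLike.norm_expect_le (K := ℂ)).trans (expect_le_expect fun q hq => ?_)
    rw [expect_product]
    refine (RCLike.norm_expect_le (K := ℂ)).trans (expect_le_expect fun p _ => ?_)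
    have e : 𝔼 s ∈ rg T, f2 (p, s) q.1 * conj (f2 (p, s) q.2) =
        u p.1 q.1 * conj (u p.2 q.1) * conj (u p.1 q.2 * conj (u p.2 q.2)) *
          𝔼 s ∈ rg T, ch ((D p q.1 - D p q.2) * (s : ZMod Q)) := by
      rw [mul_expect]
      refine expect_congr rfl fun s _ => ?_
      simp only [f2, map_mul, ← ch_neg, sub_mul, sub_eq_add_neg (D p q.1 * _), ch_add]
      ring
    rw [e, one_mul, norm_mul]
    simp only [m]
    split_ifs with hc
    · exact mul_le_of_le_one_left (norm_nonneg _) (mul_le1 (mul_le1 (hu _ _) (conj_le1 (hu _ _)))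
        (conj_le1 (mul_le1 (hu _ _) (conj_le1 (hu _ _)))))
    · have hq' := mem_product.1 hq
      simp only [S, mem_filter, hq'.1, hq'.2, true_and, not_and_or, not_not] at hc
      rcases hc with (hc | hc) | hc | hc <;> simp [hc]
  have s1 := cs2 (nT.product nB) A (fun x => G x.1 x.2) f1 fun x => hG _ _
  have s2 := cs2 ((nA.product nA).product nT) B (fun y => F y.2 y.1.1 * conj (F y.2 y.1.2)) f2
    fun y => mul_le1 (hF _ _) (conj_le1 (hF _ _))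
  have s3 := expect_mul_sq_le_sq_mul_sq ((A ×ˢ A) ×ˢ B ×ˢ B) (fun _ => (1 : ℝ)) m
  rw [expect_const ((nA.product nA).product (nB.product nB)), one_pow, one_mul] at s3
  rw [q0] at h
  rw [q1] at s1
  have t1 := (pow_le_pow_left₀ δ0.le h 2).trans s1
  have t2 := ((pow_le_pow_left₀ (by positivity) t1 2).trans s2).trans q2
  have t3 := (pow_le_pow_left₀ (by positivity) t2 2).trans s3
  have a0 : (0 : ℝ) < A.card := Nat.cast_pos.2 nA.card_pos
  have b0 : (0 : ℝ) < B.card := Nat.cast_pos.2 nB.card_pos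
  have T0 : (0 : ℝ) < T := Nat.cast_pos.2 T1
  have Q0 : (0 : ℝ) < Q := Nat.cast_pos.2 (by omega)
  rw [expect_eq_sum_div_card, le_div_iff₀ (Nat.cast_pos.2
    ((nA.product nA).product (nB.product nB)).card_pos), card_product, card_product,
    card_product] at t3
  have res : ∀ (p : α × α) (φ : β → β → ℝ),
      ∑ q ∈ B ×ˢ B, (if q.1 ∈ S p ∧ q.2 ∈ S p then φ q.1 q.2 else 0) =
        ∑ b ∈ S p, ∑ b' ∈ S p, φ b b' := fun p φ => by
    rw [← sum_filter, ← sum_product']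
    refine sum_congr ?_ fun _ _ => rfl
    ext q
    simp only [mem_filter, mem_product, S]
    tauto
  have t4 : ∑ z ∈ (A ×ˢ A) ×ˢ B ×ˢ B, m z ^ 2 ≤ Q / T * ((((A ×ˢ A) ×ˢ B ×ˢ B).filter fun p =>
      u p.1.1 p.2.1 ≠ 0 ∧ u p.1.2 p.2.1 ≠ 0 ∧ u p.1.1 p.2.2 ≠ 0 ∧ u p.1.2 p.2.2 ≠ 0 ∧
      ξ p.1.1 p.2.1 + ξ p.1.2 p.2.2 = ξ p.1.2 p.2.1 + ξ p.1.1 p.2.2).card : ℝ) := by
    rw [card_filter, Nat.cast_sum, sum_product, sum_product (A ×ˢ A), mul_sum]
    refine sum_le_sum fun p _ => ?_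
    have h1 := dom (S p) (D p) (K := fun c => K c ^ 2) fun v => sq_nonneg _
    rw [pars T1 TQ, ← res p, ← res p] at h1
    refine le_trans (sum_congr rfl fun q _ => ?_).le (h1.trans (mul_le_mul_of_nonneg_left
      (sum_le_sum fun q hq => ?_) (by positivity)))
    · simp only [m]
      split_ifs <;> simp
    · by_cases hc : (q.1 ∈ S p ∧ q.2 ∈ S p) ∧ D p q.1 - D p q.2 = 0
      · have h2 := (mem_filter.1 hc.1.1).2
        have h3 := (mem_filter.1 hc.1.2).2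
        rw [if_pos hc.1, if_pos hc.2, if_pos ⟨h2.1, h2.2, h3.1, h3.2, by
          linear_combination hc.2⟩, Nat.cast_one]
      · refine le_trans ?_ (Nat.cast_nonneg _)
        split_ifs with c1 c2
        exacts [absurd ⟨c1, c2⟩ hc, le_rfl, le_rfl]
  have t5 := t3.trans t4
  rw [div_mul_eq_mul_div, le_div_iff₀ T0] at t5
  rw [div_mul_eq_mul_div, div_le_iff₀ (by positivity)]
  push_cast at t5
  have t6 : 0 ≤ δ ^ 8 * T * ((A.card : ℝ) ^ 2 * (B.card : ℝ) ^ 2) := by positivity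
  convert_to δ ^ 8 * T * ((A.card : ℝ) ^ 2 * (B.card : ℝ) ^ 2) ≤ _
  nlinarith

end

end Vale.Agent.P057L
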