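import Vale.Agent.P057L.Exd

/-! From energy along two copies to sets on which all parallelograms are respected. -/

set_option linter.all false

open Finset
open scoped BigOperators

namespace Vale.Agent.P057L

noncomputable section

namespace ChA

open ExdA

variable {j q : ℕ} {H : Type} [AddCommGroup H]

theorem Pr_mono {φ : Pt j q → H} {Ω E : Finset (Pt j q)} {i : Fin j} {l l' : Fin q}
    (h : Pr φ Ω i l l') (e : E ⊆ Ω) : Pr φ E i l l' :=
  fun W a b w0 w1 w2 w3 => h W a b (e w0) (e w1) (e w2) (e w3)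

theorem ens_mono {φ : Pt j q → H} {Ω E : Finset (Pt j q)} (N : ℕ) (i : Fin j) (l l' : Fin q)
    (e : E ⊆ Ω) : ens φ E N i l l' ≤ ens φ Ω N i l l' := by
  classical
  refine div_le_div_of_nonneg_right (Nat.cast_le.2 (card_le_card fun p hp => ?_)) (by positivity)
  obtain ⟨h1, w0, w1, w2, w3, w4⟩ := mem_filter.1 hp
  exact mem_filter.2 ⟨mem_product.2 ⟨e w0, (mem_product.1 h1).2⟩, e w0, e w1, e w2, e w3, w4⟩

open Classical in
/-- the fibrewise form -/
theorem fib (hG : EXG) : ∃ C : ℕ, ∀ (Y M : ℝ) (n N Q : ℕ) [Fact Q.Prime] (ι X : Type) [Fintype ι]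
    [DecidableEq ι] (B : Finset X) (S : X → Finset (Vz n)) (g : X → Vz n → ι → ZMod Q),
    (C : ℝ) ≤ Y → (n : ℝ) ≤ Y → 1 ≤ N → (∀ x, S x ⊆ bz n N) → (B.card : ℝ) * N ^ n ≤ M →
    Real.exp (-Y) * (M * (N : ℝ) ^ (2 * n)) ≤ ∑ x ∈ B, (((S x ×ˢ sz n N ×ˢ sz n N).filter
      fun p => Pg (g x) (S x) p.1 p.2.1 p.2.2).card : ℝ) →
    ∃ S' : X → Finset (Vz n), (∀ x, S' x ⊆ S x ∧ R6 (g x) (S' x)) ∧
      Real.exp (-Y ^ C) * M ≤ ∑ x ∈ B, ((S' x).card : ℝ) := by
  obtain ⟨C, hC⟩ := hG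
  refine ⟨2 * C + 4, fun Y M q N Q _ ι X _ _ B S g hY hq hN hS cB tot => ?_⟩
  have C0 : (0 : ℝ) ≤ C := Nat.cast_nonneg _
  push_cast at hY
  have N0 : (0 : ℝ) < N := Nat.cast_pos.2 hN
  have M0 : 0 ≤ M := le_trans (by positivity) cB
  set e : X → Finset (Vz q × Vz q × Vz q) := fun x =>
    (S x ×ˢ sz q N ×ˢ sz q N).filter fun p => Pg (g x) (S x) p.1 p.2.1 p.2.2 with he
  have ce : ∀ x, ((e x).card : ℝ) ≤ 4 ^ q * N ^ (3 * q) := fun x => by
    have h1 : (S x).card ≤ N ^ q := (card_le_card (hS x)).trans (bas.1 q N).1.le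
    have h2 : (e x).card ≤ N ^ q * ((2 * N) ^ q * (2 * N) ^ q) := by
      refine (card_filter_le _ _).trans ?_
      rw [card_product, card_product]
      exact Nat.mul_le_mul h1 (Nat.mul_le_mul (bas.1 q N).2 (bas.1 q N).2)
    refine (Nat.cast_le.2 h2).trans_eq ?_
    push_cast
    rw [show (4 : ℝ) = 2 * 2 by norm_num, mul_pow, mul_pow]
    ring
  let G : Finset X := B.filter fun x => Real.exp (-(Y + 1)) * (N : ℝ) ^ (3 * q) ≤ (e x).card
  have ex : ∀ x, ∃ S' : Finset (Vz q), (S' ⊆ S x ∧ R6 (g x) S') ∧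
      (x ∈ G → Real.exp (-(Y + 1) ^ C) * (N : ℝ) ^ q ≤ S'.card) := fun x => by
    by_cases hx : x ∈ G
    · obtain ⟨S', h⟩ := hC (Y + 1) q N Q ι (g x) (S x) (by linarith) (by linarith) hN
        (hS x) (by convert (mem_filter.1 hx).2)
      exact ⟨S', ⟨h.1, h.2.2⟩, fun _ => h.2.1⟩
    · exact ⟨∅, ⟨empty_subset _, fun s t hs => absurd (hs 0) (notMem_empty _)⟩,
        fun h => absurd h hx⟩
  choose S' hS' hS'' using ex
  refine ⟨S', hS', ?_⟩
  have half : Real.exp (-(Y + 1)) ≤ Real.exp (-Y) / 2 := by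
    rw [neg_add, Real.exp_add, Real.exp_neg 1, ← div_eq_mul_inv]
    exact div_le_div_of_nonneg_left (Real.exp_pos _).le two_pos
      (by linarith [Real.add_one_le_exp 1])
  have cG : Real.exp (-(Y + 1)) * M ≤ 4 ^ q * (G.card * N ^ q) := by
    have h1 : ∑ x ∈ B, ((e x).card : ℝ) ≤ G.card * (4 ^ q * N ^ (3 * q)) +
        B.card * (Real.exp (-(Y + 1)) * (N : ℝ) ^ (3 * q)) := by
      rw [← sum_filter_add_sum_filter_not B
        fun x => Real.exp (-(Y + 1)) * (N : ℝ) ^ (3 * q) ≤ (e x).card]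
      refine add_le_add ((sum_le_card_nsmul _ _ _ fun x _ => ce x).trans_eq (nsmul_eq_mul _ _))
        ((sum_le_card_nsmul _ _ _ fun x hx => (not_le.1 (mem_filter.1 hx).2).le).trans ?_)
      rw [nsmul_eq_mul]
      exact mul_le_mul_of_nonneg_right (Nat.cast_le.2 (card_filter_le _ _)) (by positivity)
    have h2 := mul_le_mul_of_nonneg_right cB
      (show 0 ≤ Real.exp (-(Y + 1)) * (N : ℝ) ^ (2 * q) by positivity)
    have h3 := mul_le_mul_of_nonneg_right half (show 0 ≤ M * N ^ (2 * q) by positivity)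
    have e3 : (N : ℝ) ^ (3 * q) = N ^ q * N ^ (2 * q) := by ring
    have h0 := tot.trans h1
    rw [e3] at h0
    refine le_of_mul_le_mul_right ?_ (show 0 < (N : ℝ) ^ (2 * q) by positivity)
    linarith
  have h2 : G.card * (Real.exp (-(Y + 1) ^ C) * (N : ℝ) ^ q) ≤ ∑ x ∈ B, ((S' x).card : ℝ) := by
    rw [← nsmul_eq_mul]
    exact (card_nsmul_le_sum G (fun x => ((S' x).card : ℝ)) _ fun x hx => hS'' x hx).trans
      (sum_le_sum_of_subset_of_nonneg (filter_subset _ _) fun _ _ _ => Nat.cast_nonneg _)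
  have h3 : (4 : ℝ) ^ q ≤ Real.exp (2 * Y) := by
    refine (pow_le_pow_left₀ (by norm_num) (show (4 : ℝ) ≤ Real.exp 2 by
      have := Real.add_one_le_exp 1
      rw [show (2 : ℝ) = 1 + 1 by norm_num, Real.exp_add]
      nlinarith) q).trans ?_
    rw [← Real.exp_nat_mul]
    exact Real.exp_le_exp.2 (by linarith)
  have h4 : Real.exp (-Y ^ (2 * C + 4)) * Real.exp (2 * Y) ≤
      Real.exp (-(Y + 1) ^ C) * Real.exp (-(Y + 1)) := by
    rw [← Real.exp_add, ← Real.exp_add]
    exact Real.exp_le_exp.2 (by linarith [pw1 (show 4 ≤ Y by linarith) C])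
  have h5 := mul_le_mul_of_nonneg_left (cG.trans (mul_le_mul_of_nonneg_right h3
    (by positivity))) (Real.exp_pos (-(Y + 1) ^ C)).le
  have h6 := mul_le_mul_of_nonneg_right h4 M0
  have h7 := mul_le_mul_of_nonneg_left h2 (Real.exp_pos (2 * Y)).le
  refine le_of_mul_le_mul_right ?_ (Real.exp_pos (2 * Y))
  linarith

/-- the base point of the plane -/
def pj (i : Fin j) (l l' : Fin q) (W : Pt j q) : Pt j q :=
  fun k m => if k = i ∧ (m = l ∨ m = l') then 0 else W k m

theorem e1_app (i k : Fin j) (l m : Fin q) (a : ℤ) :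
    e1 i l a k m = if k = i ∧ m = l then a else 0 := by
  by_cases hk : k = i
  · subst hk
    simp [e1, Pi.single_apply]
  · simp [e1, hk]

theorem e1_add (i : Fin j) (l : Fin q) (a b : ℤ) : e1 i l (a + b) = e1 i l a + e1 i l b := by
  simp [e1, Pi.single_add]

theorem pj1 (i : Fin j) (l l' : Fin q) (W : Pt j q) (a : ℤ) :
    pj i l l' (W + e1 i l a) = pj i l l' W := by
  funext k m
  simp only [pj, Pi.add_apply, e1_app]
  split_ifs with h1 h2
  exacts [rfl, absurd ⟨h2.1, Or.inl h2.2⟩ h1, add_zero _]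

theorem pj2 (i : Fin j) (l l' : Fin q) (W : Pt j q) (a : ℤ) :
    pj i l l' (W + e1 i l' a) = pj i l l' W := by
  funext k m
  simp only [pj, Pi.add_apply, e1_app]
  split_ifs with h1 h2
  exacts [rfl, absurd ⟨h2.1, Or.inr h2.2⟩ h1, add_zero _]

theorem pj_pj (i : Fin j) (l l' : Fin q) (W : Pt j q) : pj i l l' (pj i l l' W) = pj i l l' W := by
  funext k m
  simp only [pj]
  split_ifs <;> rfl

theorem pj_ext {i : Fin j} {l l' : Fin q} {W W' : Pt j q} (h : pj i l l' W = pj i l l' W')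
    (h1 : W i l = W' i l) (h2 : W i l' = W' i l') : W = W' := by
  funext k m
  have := congrFun (congrFun h k) m
  simp only [pj] at this
  split_ifs at this with c
  · obtain ⟨rfl, rfl | rfl⟩ := c
    exacts [h1, h2]
  · exact this

theorem mem_bp {N : ℕ} {W : Pt j q} : W ∈ bp j q N ↔ ∀ k m, W k m ∈ rg N := by
  simp [bp, bz]

theorem two {H : Type} [CommRing H] {N : ℕ} (hN : 1 ≤ N) {ψ : Pt j q → H} {U : Finset (Pt j q)} {i : Fin j} {l l' : Fin q}
    (hl : l ≠ l') (hU : U ⊆ bp j q N) {Y : ℝ} (h : Real.exp (-Y) ≤ ens ψ U N i l l') :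
    ∃ E ⊆ U, Dn E N Y ∧ Pr ψ E i l l' := by
  classical
  have N0 : (0 : ℝ) < N := Nat.cast_pos.2 hN
  let T : Pt j q → Finset (ℤ × ℤ) := fun W =>
    (sy N ×ˢ sy N).filter fun p => Pg ψ U W (e1 i l p.1) (e1 i l' p.2)
  let B := U.image (pj i l l')
  have ex : ∀ x, ∃ b, x ∈ B → pj i l l' b = x ∧
      ∀ W ∈ U, pj i l l' W = x → (T W).card ≤ (T b).card := fun x => by
    by_cases hx : x ∈ B
    · obtain ⟨W, hW, e⟩ := mem_image.1 hx
      obtain ⟨b, hb, hm⟩ := exists_max_image (U.filter fun W => pj i l l' W = x)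
        (fun W => (T W).card) ⟨W, mem_filter.2 ⟨hW, e⟩⟩
      exact ⟨b, fun _ => ⟨(mem_filter.1 hb).2, fun W hW e => hm W (mem_filter.2 ⟨hW, e⟩)⟩⟩
    · exact ⟨0, fun h => absurd h hx⟩
  choose β hβ using ex
  have inj : ∀ {W : Pt j q} {a b a' b' : ℤ},
      W + e1 i l a + e1 i l' b = W + e1 i l a' + e1 i l' b' → a = a' ∧ b = b' := fun e =>
    ⟨by simpa [e1_app, hl] using congrFun (congrFun e i) l,
      by simpa [e1_app, hl.symm] using congrFun (congrFun e i) l'⟩
  let E := U.filter fun W => ∃ p ∈ T (β (pj i l l' W)), W = β (pj i l l' W) + e1 i l p.1 + e1 i l' p.2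
  refine ⟨E, filter_subset _ _, ⟨(filter_subset _ _).trans hU, ?_⟩, fun W a b w0 w1 w2 w3 => ?_⟩
  · have h1 : ((U ×ˢ sy N ×ˢ sy N).filter fun p =>
        Pg ψ U p.1 (e1 i l p.2.1) (e1 i l' p.2.2)).card = ∑ W ∈ U, (T W).card := by
      simp only [T, card_filter]
      rw [sum_product]
    have h2 : ∑ W ∈ U, (T W).card ≤ ∑ x ∈ B, N ^ 2 * (T (β x)).card := by
      rw [← sum_fiberwise_of_maps_to (t := B) (g := pj i l l') fun W hW => mem_image_of_mem _ hW]
      refine sum_le_sum fun x hx => (sum_le_card_nsmul _ _ _ fun W hW =>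
        (hβ x hx).2 W (mem_filter.1 hW).1 (mem_filter.1 hW).2).trans (Nat.mul_le_mul_right _ ?_)
      refine (card_le_card_of_injOn (t := rg N ×ˢ rg N) (fun W => (W i l, W i l')) (fun W hW => ?_)
        fun W hW W' hW' e => ?_).trans (by simp [rg, sq])
      · have := mem_bp.1 (hU (mem_filter.1 hW).1)
        exact mem_product.2 ⟨this _ _, this _ _⟩
      · exact pj_ext ((mem_filter.1 hW).2.trans (mem_filter.1 hW').2.symm) (congrArg Prod.fst e)
          (congrArg Prod.snd e)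
    have h3 : ∑ x ∈ B, (T (β x)).card ≤ E.card := by
      rw [← card_sigma]
      have k : ∀ x ∈ B, ∀ a b, pj i l l' (β x + e1 i l a + e1 i l' b) = x := fun x hx a b => by
        rw [pj2, pj1, (hβ x hx).1]
      refine card_le_card_of_injOn (fun p => β p.1 + e1 i l p.2.1 + e1 i l' p.2.2) ?_ ?_
      · rintro ⟨x, p⟩ hp
        obtain ⟨hx, hp⟩ := mem_sigma.1 hp
        refine mem_filter.2 ⟨(mem_filter.1 hp).2.2.2.2.1, ?_⟩
        rw [k x hx]
        exact ⟨p, hp, rfl⟩
      · rintro ⟨x, a, b⟩ hp ⟨x', a', b'⟩ hp' e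
        have e' : β x + e1 i l a + e1 i l' b = β x' + e1 i l a' + e1 i l' b' := e
        have e2 : x = x' := by
          rw [← k x (mem_sigma.1 hp).1 a b, e', k x' (mem_sigma.1 hp').1]
        subst e2
        obtain ⟨rfl, rfl⟩ := inj e'
        rfl
    rw [← mul_sum] at h2
    have h4 := (le_div_iff₀ (by positivity)).1 h
    have h5 : (((U ×ˢ sy N ×ˢ sy N).filter fun p =>
        Pg ψ U p.1 (e1 i l p.2.1) (e1 i l' p.2.2)).card : ℝ) ≤ N ^ 2 * E.card := by
      exact_mod_cast h1.le.trans (h2.trans (Nat.mul_le_mul_left _ h3))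
    refine le_of_mul_le_mul_right ?_ (show 0 < (N : ℝ) ^ 2 by positivity)
    rw [pow_add] at h4
    have h6 := h4.trans (by convert h5)
    linarith
  · obtain ⟨⟨a0, b0⟩, p0, e0⟩ := (mem_filter.1 w0).2
    obtain ⟨⟨a1, b1⟩, p1, e1'⟩ := (mem_filter.1 w1).2
    obtain ⟨⟨a2, b2⟩, p2, e2⟩ := (mem_filter.1 w2).2
    obtain ⟨⟨a3, b3⟩, p3, e3⟩ := (mem_filter.1 w3).2
    simp only [pj1, pj2] at p1 p2 p3 e1' e2 e3
    generalize β (pj i l l' W) = z at *
    have r0 := (mem_filter.1 p0).2.2.2.2.2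
    have r1 := (mem_filter.1 p1).2.2.2.2.2
    have r2 := (mem_filter.1 p2).2.2.2.2.2
    have r3 := (mem_filter.1 p3).2.2.2.2.2
    simp only at e0 r0 r1 r2 r3
    obtain ⟨rfl, rfl⟩ : a0 + a = a1 ∧ b0 = b1 := inj (W := z) (by rw [← e1', e0, e1_add]; abel)
    obtain ⟨rfl, rfl⟩ : a0 = a2 ∧ b0 + b = b2 := inj (W := z) (by rw [← e2, e0, e1_add]; abel)
    obtain ⟨rfl, rfl⟩ : a0 + a = a3 ∧ b0 + b = b3 :=
      inj (W := z) (by rw [← e3, e0, e1_add, e1_add]; abel)
    rw [← e0] at r0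
    rw [← e1'] at r1
    rw [← e2] at r2
    rw [← e3] at r3
    linear_combination r0 + r3 - r1 - r2

end ChA

open ChA ExdA

theorem ch (hG : EXG) : CH := by
  classical
  intro j
  obtain ⟨C, hC⟩ := fib hG
  refine ⟨C + 1, fun Y q N Q _ ψ U i l l' hY hN hU h => ?_⟩
  have C0 : (0 : ℝ) ≤ C := Nat.cast_nonneg _
  push_cast at hY
  have Y1 : 1 ≤ Y := by linarith
  have N0 : (0 : ℝ) < N := Nat.cast_pos.2 hN
  rcases ne_or_eq l l' with hl | rfl
  · obtain ⟨E, e1, e2, e3⟩ := two hN hl hU h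
    exact ⟨E, e1, Dn_mono e2 (le_self_pow₀ Y1 (by omega)), e3⟩
  let B := (bp j q N).image (pj i l l)
  let S : Pt j q → Finset (Vz 1) := fun x => (bz 1 N).filter fun y => x + e1 i l (y 0) ∈ U
  have hB : ∀ x ∈ B, pj i l l x = x ∧ x i l = 0 := fun x hx => by
    obtain ⟨W, -, rfl⟩ := mem_image.1 hx
    exact ⟨pj_pj _ _ _ _, by simp [pj]⟩
  have dec : ∀ W : Pt j q, pj i l l W + e1 i l (W i l) = W := fun W =>
    pj_ext (l := l) (l' := l) (by rw [pj1, pj_pj]) (by simp [pj, e1_app]) (by simp [pj, e1_app])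
  have cf : ∀ (T : Pt j q → Finset (Vz 1)) (F : Finset (Pt j q)),
      (∀ x ∈ B, ∀ y ∈ T x, x + e1 i l (y 0) ∈ F) → ∑ x ∈ B, (T x).card ≤ F.card := fun T F hF => by
    rw [← card_sigma]
    refine card_le_card_of_injOn (fun p => p.1 + e1 i l (p.2 0))
      (fun p hp => hF _ (mem_sigma.1 hp).1 _ (mem_sigma.1 hp).2) ?_
    rintro ⟨x, y⟩ hp ⟨x', y'⟩ hp' e
    have e' : x + e1 i l (y 0) = x' + e1 i l (y' 0) := e
    have e2 : x = x' := by
      rw [← (hB x (mem_sigma.1 hp).1).1, ← pj1 i l l x, e', pj1, (hB x' (mem_sigma.1 hp').1).1]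
    subst e2
    have e3 : y = y' := funext fun k => by
      rw [Subsingleton.elim k 0]
      simpa [e1_app] using congrFun (congrFun e' i) l
    rw [e3]
  have mS : ∀ (W : Pt j q) (y : Vz 1), pj i l l W + e1 i l (y 0) ∈ U → y ∈ S (pj i l l W) :=
    fun W y hy => mem_filter.2 ⟨Fintype.mem_piFinset.2 fun k => by
      rw [Subsingleton.elim k 0]
      simpa [pj, e1_app] using mem_bp.1 (hU hy) i l, hy⟩
  obtain ⟨S', hS', cS⟩ := hC Y ((N : ℝ) ^ (j * q)) 1 N Q Unit (Pt j q) B S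
    (fun x y _ => ψ (x + e1 i l (y 0))) (by linarith) (by simpa using Y1) hN
    (fun x => filter_subset _ _) (by
      have := cf (fun _ => bz 1 N) (bp j q N) fun x hx y hy => by
        obtain ⟨W, hW, rfl⟩ := mem_image.1 hx
        refine mem_bp.2 fun k m => ?_
        by_cases c : k = i ∧ m = l
        · simpa [pj, e1_app, c] using Fintype.mem_piFinset.1 hy 0
        · simpa [pj, e1_app, c] using mem_bp.1 hW k m
      rw [sum_const, smul_eq_mul, (bas.1 1 N).1, bas.2.1] at this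
      exact_mod_cast this) (by
      rw [← pow_add]
      refine ((le_div_iff₀ (by positivity)).1 h).trans ?_
      rw [← Nat.cast_sum, Nat.cast_le, ← card_sigma]
      refine card_le_card_of_injOn
        (fun p => ⟨pj i l l p.1, (fun _ => p.1 i l, fun _ => p.2.1, fun _ => p.2.2)⟩) ?_ ?_
      · rintro ⟨W, a, b⟩ hp
        obtain ⟨h1, w0, w1, w2, w3, w4⟩ := mem_filter.1 hp
        have u1 : ∀ a, pj i l l W + e1 i l (W i l + a) = W + e1 i l a := fun a => by
          rw [e1_add, ← add_assoc, dec]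
        have u3 : pj i l l W + e1 i l (W i l + a + b) = W + e1 i l a + e1 i l b := by
          rw [e1_add, ← add_assoc, u1]
        have m0 : (fun _ => W i l) ∈ S (pj i l l W) := mS _ _ (by rw [dec]; exact w0)
        have h2 := mem_product.1 (mem_product.1 h1).2
        refine mem_sigma.2 ⟨mem_image_of_mem _ (hU w0), mem_filter.2 ⟨mem_product.2
          ⟨m0, mem_product.2 ⟨Fintype.mem_piFinset.2 fun _ => h2.1,
            Fintype.mem_piFinset.2 fun _ => h2.2⟩⟩, m0, mS _ _ ((u1 a).symm ▸ w1),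
          mS _ _ ((u1 b).symm ▸ w2), mS _ _ (u3.symm ▸ w3), funext fun _ => ?_⟩⟩
        simp only [Pi.add_apply]
        rw [dec, u3, u1, u1]
        exact w4
      · rintro ⟨W, a, b⟩ - ⟨W', a', b'⟩ - h
        simp only [Sigma.mk.injEq, heq_eq_eq, Prod.mk.injEq] at h
        have h0 := congrFun h.2.1 0
        exact Prod.ext (pj_ext h.1 h0 h0) (Prod.ext (congrFun h.2.2.1 0) (congrFun h.2.2.2 0)))
  let E := U.filter fun W => (fun _ => W i l) ∈ S' (pj i l l W)
  refine ⟨E, filter_subset _ _, Dn_mono ⟨(filter_subset _ _).trans hU, cS.trans ?_⟩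
    (pow_le_pow_right₀ Y1 (Nat.le_succ C)), fun W a b w0 w1 w2 w3 => ?_⟩
  · exact_mod_cast cf S' E fun x hx y hy => mem_filter.2 ⟨(mem_filter.1 ((hS' x).1 hy)).2, by
      rw [pj1, (hB x hx).1]
      convert hy using 1
      funext k
      simp [e1_app, (hB x hx).2, Subsingleton.elim k 0]⟩
  · have k0 := (mem_filter.1 w0).2
    have k1 := (mem_filter.1 w1).2
    have k2 := (mem_filter.1 w2).2
    have k3 := (mem_filter.1 w3).2
    simp only [pj1] at k1 k2 k3
    have dec' : ∀ V : Pt j q, pj i l l V = pj i l l W → pj i l l W + e1 i l (V i l) = V :=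
      fun V e => by rw [← e, dec]
    have := congrFun ((hS' (pj i l l W)).2
      ![fun _ => W i l, fun _ => (W + e1 i l a + e1 i l b) i l, fun _ => W i l, fun _ => W i l,
        fun _ => W i l, fun _ => W i l]
      ![fun _ => (W + e1 i l a) i l, fun _ => (W + e1 i l b) i l, fun _ => W i l, fun _ => W i l,
        fun _ => W i l, fun _ => W i l]
      (fun c => by fin_cases c <;> assumption) (fun c => by fin_cases c <;> assumption) (by
        funext k
        simp [Fin.sum_univ_succ, e1_app]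
        ring)) ()
    simp only [Fin.sum_univ_succ, Matrix.cons_val_zero, Matrix.cons_val_succ, Pi.add_apply,
      Finset.sum_apply, univ_unique, sum_singleton, Finset.univ_eq_empty, sum_empty] at this
    have d1 := dec' (W + e1 i l a) (pj1 _ _ _ _ _)
    have d2 := dec' (W + e1 i l b) (pj1 _ _ _ _ _)
    have d3 := dec' (W + e1 i l a + e1 i l b) (by rw [pj1, pj1])
    simp only [Pi.add_apply] at d1 d2 d3
    rw [d1, d2, d3, dec] at this
    linear_combination this

theorem cov (hC : CH) : COV := by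
  classical
  intro j
  obtain ⟨C, hC⟩ := hC j
  refine ⟨C, fun Y q N Q _ ψ i l l' hY hN => ?_⟩
  have N0 : (0 : ℝ) < N := Nat.cast_pos.2 hN
  have key : ∀ (n : ℕ) (R : Finset (Pt j q)), R ⊆ bp j q N →
      (R.card : ℝ) < (n + 1) * (Real.exp (-Y ^ C) * (N : ℝ) ^ (j * q)) →
      ∃ col : Pt j q → ℕ, (∀ W, col W ≤ n) ∧
        (∀ m, m ≠ 0 → Pr ψ (R.filter fun W => col W = m) i l l') ∧
        ens ψ (R.filter fun W => col W = 0) N i l l' < Real.exp (-Y) := fun n => by
    have triv : ∀ (n : ℕ) (R : Finset (Pt j q)), ens ψ R N i l l' < Real.exp (-Y) →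
        ∃ col : Pt j q → ℕ, (∀ W, col W ≤ n) ∧
          (∀ m, m ≠ 0 → Pr ψ (R.filter fun W => col W = m) i l l') ∧
          ens ψ (R.filter fun W => col W = 0) N i l l' < Real.exp (-Y) := fun n R h =>
      ⟨fun _ => 0, fun _ => Nat.zero_le _,
        fun m hm W _ _ w0 => absurd (mem_filter.1 w0).2.symm hm,
        (ens_mono N i l l' (filter_subset _ _)).trans_lt h⟩
    induction n with
    | zero =>
      intro R hR hc
      refine triv 0 R (not_le.1 fun h => ?_)
      obtain ⟨E, e1, e2, -⟩ := hC Y q N Q ψ R i l l' hY hN hR h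
      have := e2.2.trans (Nat.cast_le.2 (card_le_card e1))
      simp only [Nat.cast_zero, zero_add, one_mul] at hc
      linarith
    | succ n ih =>
      intro R hR hc
      by_cases h : ens ψ R N i l l' < Real.exp (-Y)
      · exact triv _ R h
      obtain ⟨E, e1, e2, e3⟩ := hC Y q N Q ψ R i l l' hY hN hR (not_lt.1 h)
      obtain ⟨col, c1, c2, c3⟩ := ih (R \ E) (sdiff_subset.trans hR) (by
        rw [card_sdiff_of_subset e1, Nat.cast_sub (card_le_card e1)]
        push_cast at hc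
        linarith [e2.2])
      have sub : ∀ m, m ≠ n + 1 → (R.filter fun W => (if W ∈ E then n + 1 else col W) = m) ⊆
          (R \ E).filter fun W => col W = m := fun m hm W hW => by
        obtain ⟨h1, h2⟩ := mem_filter.1 hW
        split_ifs at h2 with c
        exacts [absurd h2.symm hm, mem_filter.2 ⟨mem_sdiff.2 ⟨h1, c⟩, h2⟩]
      refine ⟨fun W => if W ∈ E then n + 1 else col W, fun W => ?_, fun m hm => ?_,
        (ens_mono N i l l' (sub 0 (by omega))).trans_lt c3⟩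
      · have := c1 W
        beta_reduce
        split_ifs <;> omega
      · by_cases hm' : m = n + 1
        · refine Pr_mono e3 fun W hW => ?_
          have h2 := (mem_filter.1 hW).2
          have := c1 W
          beta_reduce at h2
          split_ifs at h2 with c
          exacts [c, by omega]
        · exact Pr_mono (c2 m hm) (sub m hm')
  obtain ⟨col, c1, c2, c3⟩ := key ⌊Real.exp (Y ^ C)⌋₊ (bp j q N) Subset.rfl (by
    have h1 := mul_lt_mul_of_pos_right (Nat.lt_floor_add_one (Real.exp (Y ^ C)))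
      (show 0 < Real.exp (-Y ^ C) * (N : ℝ) ^ (j * q) by positivity)
    rw [← mul_assoc, ← Real.exp_add, add_neg_cancel, Real.exp_zero, one_mul] at h1
    rw [bas.2.1]
    exact_mod_cast h1)
  exact ⟨col, fun W => (Nat.cast_le.2 (c1 W)).trans (Nat.floor_le (Real.exp_pos _).le), c2,
    fun U hU h => (ens_mono N i l l' fun W hW => mem_filter.2 ⟨hU hW, h W hW⟩).trans_lt c3⟩

end

end Vale.Agent.P057L
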