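import Vale.Agent.P057L.Defs
import Vale.Agent.P057Z.Ke.Nm

/-! Row COVR: short relations control the vertical vectors. -/

set_option linter.all false

open Finset
open scoped BigOperators

namespace Vale.Agent.P057L

open Vale.Agent.P057Z

namespace Covr

theorem zd_sub {α H : Type} [Fintype α] [AddCommGroup H] (v w : α → ℤ) (θ : α → H) :
    zd (v - w) θ = zd v θ - zd w θ := by
  simp only [zd, Pi.sub_apply, sub_smul, sum_sub_distrib]

theorem zd_zero {α H : Type} [Fintype α] [AddCommGroup H] (θ : α → H) : zd 0 θ = 0 := by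
  simp only [zd, Pi.zero_apply, zero_smul, sum_const_zero]

variable {Q : ℕ} [Fact Q.Prime]

/-- the average over a box -/
theorem box_le {q : ℕ} (T : ℕ) (hT : 1 ≤ T) (a : Fin q → ZMod Q) (δ : ℝ) (hδ : 0 < δ) :
    ‖𝔼 y ∈ Fintype.piFinset (fun _ : Fin q => range T), ch (∑ l, (y l : ZMod Q) * a l)‖ ≤ 1 ∧
    ∀ l, 1 / (δ * T) < nm (a l) →
      ‖𝔼 y ∈ Fintype.piFinset (fun _ : Fin q => range T), ch (∑ l, (y l : ZMod Q) * a l)‖ ≤ δ := by
  have hT0 : (0 : ℝ) < T := by exact_mod_cast hT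
  have e : ‖𝔼 y ∈ Fintype.piFinset (fun _ : Fin q => range T), ch (∑ l, (y l : ZMod Q) * a l)‖ =
      ∏ l, (‖∑ t ∈ range T, ch ((t : ZMod Q) * a l)‖ / T) := by
    simp only [Ke.ch_sum]
    rw [expect_eq_sum_div_card, ← prod_univ_sum (fun _ : Fin q => range T)
      (fun l t => ch ((t : ZMod Q) * a l)), norm_div, norm_prod, Complex.norm_natCast,
      Fintype.card_piFinset, prod_div_distrib]
    simp
  have h1 : ∀ l, ‖∑ t ∈ range T, ch ((t : ZMod Q) * a l)‖ / T ≤ 1 := fun l => by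
    rw [div_le_one hT0]
    refine (norm_sum_le _ _).trans (le_of_eq ?_)
    simp [Ke.norm_ch]
  rw [e]
  refine ⟨prod_le_one (fun _ _ => by positivity) fun l _ => h1 l, fun l hl => ?_⟩
  rw [← mul_prod_erase _ _ (mem_univ l)]
  have h2 : ∏ i ∈ univ.erase l, (‖∑ t ∈ range T, ch ((t : ZMod Q) * a i)‖ / T) ≤ 1 :=
    prod_le_one (fun _ _ => by positivity) fun l _ => h1 l
  refine (mul_le_of_le_one_right (by positivity) h2).trans ?_
  have h3 := Ke.geom_le T (a l)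
  rw [div_lt_iff₀ (by positivity)] at hl
  rw [div_le_iff₀ hT0]
  have h4 := norm_nonneg (∑ t ∈ range T, ch ((t : ZMod Q) * a l))
  have h5 : 0 < δ * T := by positivity
  nlinarith [mul_le_mul_of_nonneg_right hl.le h4, mul_le_mul_of_nonneg_right h3 h5.le]

theorem pair_eq {α : Type} (P : Finset α) (f : α → ZMod Q) (β : ZMod Q) :
    𝔼 p ∈ P ×ˢ P, ch (β + f p.1 - f p.2) = ch β * ((‖𝔼 y ∈ P, ch (f y)‖ ^ 2 : ℝ) : ℂ) := by
  rw [← Complex.normSq_eq_norm_sq, ← Complex.mul_conj, expect_product, map_expect,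
    expect_mul_expect, mul_expect]
  refine expect_congr rfl fun x _ => ?_
  rw [mul_expect]
  refine expect_congr rfl fun y _ => ?_
  rw [sub_eq_add_neg, Ke.ch_add, Ke.ch_add, Ke.ch_neg, mul_assoc]

theorem lift (Z : ℤ) : ∃ m : ℤ, |(Z : ℝ) / Q - m| = nm (Z : ZMod Q) := by
  obtain ⟨z, h1, h2⟩ := Ke.exists_int (Z : ZMod Q)
  have hQ : (0 : ℝ) < Q := Ke.Qpos
  obtain ⟨m, hm⟩ := (ZMod.intCast_eq_intCast_iff_dvd_sub z Z Q).1 h1
  refine ⟨m, ?_⟩
  have h3 : (Z : ℝ) - z = Q * m := by exact_mod_cast hm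
  have h4 : (Z : ℝ) / Q - m = z / Q := by
    field_simp
    linarith
  rw [h4, abs_div, h2, abs_of_pos hQ, mul_div_cancel_left₀ _ hQ.ne']

theorem near (hK : KER) {q : ℕ} {κ : Type} [Fintype κ] [DecidableEq κ] (γ : κ → Fin q → ZMod Q)
    (T K0 : ℕ) (hT : 1 ≤ T) (τ δ : ℝ) (hτ : 0 < τ) (h1 : τ * (4 * Fintype.card κ + 4) ≤ 1)
    (h2 : (4 * Fintype.card κ + 8) / τ ^ 2 ≤ K0) (hδ : 0 < δ)
    (h3 : 4 * δ * (K0 : ℝ) ^ Fintype.card κ ≤ 1) (v : κ → ℤ)
    (hv : ∀ k ∈ Sm κ K0, (∀ l, nm (∑ r, (k r : ZMod Q) * γ r l) ≤ 1 / (δ * T)) → k ⬝ᵥ v = 0)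
    (x : ℕ) : ∃ (y : Vz q) (m : κ → ℤ), (∀ l, |(y l : ℝ)| ≤ T) ∧
      ∀ r, |(∑ l, ((γ r l).val : ℝ) / Q * y l) + x * v r / Q - m r| ≤ τ := by
  classical
  set P := Fintype.piFinset (fun _ : Fin q => range T) with hP
  have hPn : P.Nonempty := ⟨fun _ => 0, Fintype.mem_piFinset.2 fun _ => mem_range.2 hT⟩
  have h := hK Q κ _ (P ×ˢ P) (fun p r => (x : ZMod Q) * v r +
    ∑ l, γ r l * ((p.1 l : ZMod Q) - p.2 l)) τ δ K0 (hPn.product hPn) hτ h1 h2 hδ.le h3 (by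
      intro k hk
      have e : ∀ p : (Fin q → ℕ) × (Fin q → ℕ), (cs Q k ⬝ᵥ fun r => (x : ZMod Q) * v r +
          ∑ l, γ r l * ((p.1 l : ZMod Q) - p.2 l)) = (x : ZMod Q) * ((k ⬝ᵥ v : ℤ) : ZMod Q) +
          (∑ l, (p.1 l : ZMod Q) * ∑ r, (k r : ZMod Q) * γ r l) -
          ∑ l, (p.2 l : ZMod Q) * ∑ r, (k r : ZMod Q) * γ r l := by
        intro p
        rw [add_sub_assoc, ← sum_sub_distrib]
        simp only [dotProduct, cs, mul_add, sum_add_distrib, Int.cast_sum, Int.cast_mul, mul_sum,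
          ← sum_sub_distrib]
        congr 1
        · exact sum_congr rfl fun r _ => by ring
        · rw [sum_comm]
          exact sum_congr rfl fun l _ => sum_congr rfl fun r _ => by ring
      simp only [e]
      rw [pair_eq P (fun y => ∑ l, (y l : ZMod Q) * ∑ r, (k r : ZMod Q) * γ r l)]
      obtain ⟨g1, g2⟩ := box_le T hT (fun l => ∑ r, (k r : ZMod Q) * γ r l) δ hδ
      rw [← hP] at g1 g2
      by_cases hs : ∀ l, nm (∑ r, (k r : ZMod Q) * γ r l) ≤ 1 / (δ * T)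
      · rw [hv k hk hs, Int.cast_zero, mul_zero, Ke.ch_zero, one_mul, Complex.ofReal_re]
        exact le_trans (by linarith) (sq_nonneg _)
      · push Not at hs
        obtain ⟨l, hl⟩ := hs
        refine neg_le_of_abs_le ((Complex.abs_re_le_norm _).trans ?_)
        rw [norm_mul, Ke.norm_ch, one_mul, Complex.norm_real, Real.norm_of_nonneg (sq_nonneg _),
          sq]
        exact (mul_le_of_le_one_left (norm_nonneg _) g1).trans (g2 l hl))
  have h4 : (0 : ℝ) < δ * (P ×ˢ P).card :=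
    mul_pos hδ (by exact_mod_cast card_pos.2 (hPn.product hPn))
  obtain ⟨p, hp⟩ := card_pos.1 (Nat.cast_pos.1 (h4.trans_le h))
  simp only [mem_filter, mem_product] at hp
  obtain ⟨⟨p1, p2⟩, hp⟩ := hp
  choose m hm using fun r => lift (Q := Q)
    (x * v r + ∑ l, ((γ r l).val : ℤ) * ((p.1 l : ℤ) - p.2 l))
  refine ⟨fun l => (p.1 l : ℤ) - p.2 l, m, fun l => ?_, fun r => ?_⟩
  · have a1 : (p.1 l : ℝ) ≤ T := by exact_mod_cast (mem_range.1 (Fintype.mem_piFinset.1 p1 l)).le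
    have a2 : (p.2 l : ℝ) ≤ T := by exact_mod_cast (mem_range.1 (Fintype.mem_piFinset.1 p2 l)).le
    have a3 : (0 : ℝ) ≤ p.1 l := Nat.cast_nonneg _
    have a4 : (0 : ℝ) ≤ p.2 l := Nat.cast_nonneg _
    push_cast
    rw [abs_le]
    constructor <;> linarith
  · have a1 := hm r
    have a2 := hp r
    push_cast at a1 ⊢
    simp only [ZMod.natCast_val, ZMod.cast_id', id_eq] at a1
    rw [← a1] at a2
    refine le_trans (le_of_eq ?_) a2
    congr 1
    rw [add_div, sum_div, add_comm]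
    congr 2
    refine sum_congr rfl fun l _ => ?_
    simp only [ZMod.natCast_val]
    ring

theorem path {q T : ℕ} {κ : Type} [Fintype κ] (γ : κ → Fin q → ZMod Q) (ρ : ℝ) (hρ : 0 ≤ ρ)
    (v : κ → ℤ) (hv : ∀ r, |(v r : ℝ)| / Q ≤ ρ / 4)
    (h : ∀ x : ℕ, ∃ (y : Vz q) (m : κ → ℤ), (∀ l, |(y l : ℝ)| ≤ ρ * T / 2) ∧
      ∀ r, |(∑ l, ((γ r l).val : ℝ) / Q * y l) + x * v r / Q - m r| ≤ ρ / 4)
    (H : Type) [AddCommGroup H] (θ : Fin q → H) (c : κ → H)
    (h0 : ∀ y m, Sl γ T ρ y m → zd y θ + zd m c = 0) : zd v c = 0 := by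
  have hQ : (0 : ℝ) < Q := Ke.Qpos
  have key : ∀ (x : ℕ) (y : Vz q) (m : κ → ℤ), (∀ l, |(y l : ℝ)| ≤ ρ * T / 2) →
      (∀ r, |(∑ l, ((γ r l).val : ℝ) / Q * y l) + x * v r / Q - m r| ≤ ρ / 4) →
      zd y θ + zd m c = 0 := by
    intro x
    induction x with
    | zero =>
      intro y m a1 a2
      have : 0 ≤ ρ * T := by positivity
      refine h0 y m ⟨fun l => (a1 l).trans (by linarith), fun r => ?_⟩
      have a3 := a2 r
      rw [Nat.cast_zero, zero_mul, zero_div, add_zero] at a3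
      linarith
    | succ x ih =>
      intro y m a1 a2
      obtain ⟨y', m', b1, b2⟩ := h x
      have b3 := ih y' m' b1 b2
      have b4 := h0 (y - y') (m - m') ⟨fun l => ?_, fun r => ?_⟩
      · rw [zd_sub, zd_sub] at b4
        have b5 : zd y θ + zd m c =
            (zd y θ - zd y' θ + (zd m c - zd m' c)) + (zd y' θ + zd m' c) := by abel
        rw [b5, b4, b3, add_zero]
      · rw [Pi.sub_apply]
        push_cast
        exact (abs_sub _ _).trans (by linarith [a1 l, b1 l])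
      · have e : (∑ l, ((γ r l).val : ℝ) / Q * ((y - y') l : ℤ)) - ((m - m') r : ℤ) =
            ((∑ l, ((γ r l).val : ℝ) / Q * y l) + ((x + 1 : ℕ) : ℝ) * v r / Q - m r) -
            ((∑ l, ((γ r l).val : ℝ) / Q * y' l) + x * v r / Q - m' r) - v r / Q := by
          simp only [Pi.sub_apply, Int.cast_sub, mul_sub, sum_sub_distrib]
          push_cast
          ring
        rw [e]
        have b5 := hv r
        rw [← abs_of_pos hQ, ← abs_div] at b5
        refine (abs_sub _ _).trans ?_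
        have b6 := (abs_sub _ _).trans (add_le_add (a2 r) (b2 r))
        linarith
  have h1 := key Q 0 v (fun l => by simp; positivity) (fun r => by
    simp only [Pi.zero_apply, Int.cast_zero, mul_zero, sum_const_zero, zero_add]
    rw [mul_div_cancel_left₀ _ hQ.ne', sub_self, abs_zero]
    positivity)
  rwa [zd_zero, zero_add] at h1

theorem num (Y ρ : ℝ) (R T : ℕ) (hY8 : (8 : ℝ) ≤ Y) (hR : (R : ℝ) ≤ Y) (hρ : Real.exp (-Y) ≤ ρ)
    (hρ1 : ρ ≤ 1) (hT : Y ^ 8 ≤ Real.log T) :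
    ∃ (T' K0 : ℕ) (τ δ : ℝ), 1 ≤ T' ∧ (T' : ℝ) ≤ ρ * T / 2 ∧ 0 < τ ∧ τ ≤ ρ / 4 ∧
      τ * (4 * R + 4) ≤ 1 ∧ (4 * R + 8) / τ ^ 2 ≤ K0 ∧ 1 ≤ K0 ∧ (K0 : ℝ) ≤ Real.exp (Y ^ 8) ∧
      0 < δ ∧ 4 * δ * (K0 : ℝ) ^ R ≤ 1 ∧ 1 / (δ * T') ≤ Real.exp (Y ^ 8) / T := by
  have hR0 : (0 : ℝ) ≤ R := Nat.cast_nonneg _
  have hρ0 : 0 < ρ := (Real.exp_pos _).trans_le hρ
  have hE : 5 * Y ≤ Real.exp Y := by
    have := Real.quadratic_le_exp_of_nonneg (show 0 ≤ Y by linarith)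
    nlinarith
  have hE0 := Real.exp_pos Y
  have hρE : 1 ≤ ρ * Real.exp Y := by
    rw [Real.exp_neg, inv_le_iff_one_le_mul₀ hE0] at hρ
    exact hρ
  have hY3 : Y ^ 3 ≤ Y ^ 8 := pow_le_pow_right₀ (by linarith) (by norm_num)
  have hY2 : 6 * Y ^ 2 + 2 * Y ≤ Y ^ 3 := by nlinarith [sq_nonneg Y]
  have hT0 : (0 : ℝ) < T := by
    rcases Nat.eq_zero_or_pos T with rfl | h
    · rw [Nat.cast_zero, Real.log_zero] at hT
      have : 0 < Y ^ 8 := by positivity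
      linarith
    · exact_mod_cast h
  have hT4 : 4 ≤ ρ * T := by
    have h1 : Real.exp Y * Real.exp Y ≤ T := by
      rw [← Real.exp_add, ← Real.le_log_iff_exp_le hT0]
      nlinarith [sq_nonneg Y]
    nlinarith [mul_le_mul_of_nonneg_left h1 hρ0.le]
  set T' := ⌊ρ * T / 2⌋₊ with hT'
  have t1 : (T' : ℝ) ≤ ρ * T / 2 := Nat.floor_le (by positivity)
  have t2 : ρ * T / 4 ≤ T' := by
    have := Nat.lt_floor_add_one (ρ * T / 2)
    linarith
  have t3 : 1 ≤ T' := by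
    have : (1 : ℝ) ≤ T' := by linarith
    exact_mod_cast this
  set τ := ρ / (4 * R + 4) with hτ
  have hτ0 : 0 < τ := by positivity
  set K0 := ⌈(4 * R + 8 : ℝ) / τ ^ 2⌉₊ with hK0
  have k1 : 1 ≤ K0 := Nat.ceil_pos.2 (by positivity)
  have k0 : (0 : ℝ) < K0 := by exact_mod_cast k1
  have k2 : (K0 : ℝ) ≤ Real.exp (6 * Y) := by
    have h1 := Nat.ceil_lt_add_one (show 0 ≤ (4 * R + 8 : ℝ) / τ ^ 2 by positivity)
    have h2 : 1 / τ ≤ Real.exp Y ^ 2 := by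
      rw [hτ, one_div_div, div_le_iff₀ hρ0]
      nlinarith
    have h3 : (4 * R + 8 : ℝ) / τ ^ 2 ≤ Real.exp Y * (Real.exp Y ^ 2) ^ 2 := by
      rw [div_eq_mul_one_div, ← one_div_pow]
      exact mul_le_mul (by linarith) (pow_le_pow_left₀ (by positivity) h2 2) (by positivity)
        hE0.le
    have h4 : 1 ≤ Real.exp Y ^ 5 := one_le_pow₀ (by linarith)
    have h5 : Real.exp (6 * Y) = Real.exp Y ^ 5 * Real.exp Y := by
      rw [← pow_succ, ← Real.exp_nat_mul]; norm_num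
    have h6 : Real.exp Y * (Real.exp Y ^ 2) ^ 2 = Real.exp Y ^ 5 := by ring
    rw [h5]
    nlinarith
  set δ : ℝ := 1 / (4 * (K0 : ℝ) ^ R) with hδ
  have hδ0 : 0 < δ := by positivity
  have d1 : 1 / (δ * T') ≤ Real.exp (Y ^ 8) / T := by
    have h1 : (K0 : ℝ) ^ R ≤ Real.exp (6 * Y ^ 2) := by
      calc (K0 : ℝ) ^ R ≤ Real.exp (6 * Y) ^ R := pow_le_pow_left₀ k0.le k2 _
        _ = Real.exp (R * (6 * Y)) := (Real.exp_nat_mul _ _).symm
        _ ≤ _ := Real.exp_le_exp.2 (by nlinarith)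
    have h2 : Real.exp (6 * Y ^ 2) * (Real.exp Y * Real.exp Y) ≤ Real.exp (Y ^ 8) := by
      rw [← Real.exp_add, ← Real.exp_add]
      exact Real.exp_le_exp.2 (by linarith)
    have h3 : (T : ℝ) * 4 ≤ Real.exp Y * Real.exp Y * T' := by
      have h4 : (T : ℝ) ≤ Real.exp Y * (4 * T') := by
        nlinarith [mul_le_mul_of_nonneg_left t2 hE0.le]
      have h5 : (0 : ℝ) ≤ Real.exp Y * T' := by positivity
      nlinarith
    have h6 : (0 : ℝ) < T' := by exact_mod_cast t3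
    have h7 : 1 / (δ * T') = (K0 : ℝ) ^ R * 4 / T' := by rw [hδ]; field_simp
    rw [h7, div_le_div_iff₀ h6 hT0]
    calc (K0 : ℝ) ^ R * 4 * T = (K0 : ℝ) ^ R * (T * 4) := by ring
      _ ≤ Real.exp (6 * Y ^ 2) * (Real.exp Y * Real.exp Y * T') :=
        mul_le_mul h1 h3 (by positivity) (by positivity)
      _ = Real.exp (6 * Y ^ 2) * (Real.exp Y * Real.exp Y) * T' := by ring
      _ ≤ _ := mul_le_mul_of_nonneg_right h2 h6.le
  refine ⟨T', K0, τ, δ, t3, t1, hτ0, ?_, ?_, Nat.le_ceil _, k1,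
    k2.trans (Real.exp_le_exp.2 (by nlinarith [sq_nonneg Y])), hδ0, ?_, d1⟩
  · exact div_le_div_of_nonneg_left hρ0.le (by norm_num) (by linarith)
  · rw [hτ, div_mul_cancel₀ _ (by positivity)]; exact hρ1
  · rw [hδ]; exact le_of_eq (by field_simp)

end Covr

theorem covr (hK : KER) (hC : CRQ) : COVR := by
  refine ⟨8, fun Y ρ q T Q _ κ _ _ γ hY hq hR hρ hρ1 hT hTQ => ?_⟩
  classical
  have hρ0 : 0 < ρ := (Real.exp_pos _).trans_le hρ
  obtain ⟨T', K0, τ, δ, t3, t1, hτ0, hτ1, hτ2, k3, k1, k2, hδ0, hδ1, d1⟩ :=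
    Covr.num Y ρ (Fintype.card κ) T (by exact_mod_cast hY) hR hρ hρ1 hT
  let A0 : Finset (κ → ℤ) := (Sm κ K0).filter
    fun k => ∀ l, nm (∑ r, (k r : ZMod Q) * γ r l) ≤ 1 / (δ * T')
  let A : Type := {k : κ → ℤ // k ∈ A0}
  letI : Fintype A := FinsetCoe.fintype A0
  have hA : ∀ (a : A) r, |a.1 r| ≤ K0 := fun a r =>
    abs_le.2 (mem_Icc.1 (Fintype.mem_piFinset.1 (mem_filter.1 a.2).1 r))
  obtain ⟨t, sel, w, D0, ht, hD0, -, -, -, hD⟩ := hC κ A (fun a => a.1) K0 k1 hA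
  let e := Fintype.equivFin κ
  refine ⟨fun i => if h : (e i : ℕ) < t then (sel ⟨e i, h⟩).1 else 0, fun i r => ?_,
    fun i l => ?_, fun v hv hb H _ θ c h0 => ?_⟩
  · beta_reduce
    split_ifs with h
    · have h1 : |((sel ⟨e i, h⟩).1 r : ℝ)| ≤ K0 := by exact_mod_cast hA _ r
      exact h1.trans k2
    · simp [Real.exp_nonneg]
  · beta_reduce
    split_ifs with h
    · exact ((mem_filter.1 (sel ⟨e i, h⟩).2).2 l).trans d1
    · simp only [Pi.zero_apply, Int.cast_zero, zero_mul, sum_const_zero, Ke.nm_zero]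
      positivity
  · have hQ1 : (1 : ℝ) ≤ Q := by exact_mod_cast (Fact.out : Q.Prime).one_le
    refine Covr.path γ ρ hρ0.le v (fun r => ?_) (fun x => ?_) H θ c h0
    · rw [div_le_div_iff₀ (by linarith) (by norm_num)]
      refine abs_le_of_sq_le_sq' ?_ (by positivity) |>.2
      have h1 := hv r
      have h2 : ρ ^ 2 * Q ≤ ρ ^ 2 * Q * Q := le_mul_of_one_le_right (by positivity) hQ1
      rw [mul_pow, sq_abs]
      linarith [show (ρ * Q) ^ 2 = ρ ^ 2 * Q * Q by ring]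
    · obtain ⟨y, m, a1, a2⟩ := Covr.near hK γ T' K0 t3 τ δ hτ0 hτ2 k3 hδ0 hδ1 v (fun k hk hs => by
          have h1 := congrArg (· ⬝ᵥ v) (hD ⟨k, mem_filter.2 ⟨hk, hs⟩⟩)
          simp only [smul_dotProduct, sum_dotProduct] at h1
          rw [sum_eq_zero, smul_eq_mul, mul_eq_zero] at h1
          · exact h1.resolve_left hD0
          · intro i _
            have h2 := hb (e.symm ⟨i, i.2.trans_le ht⟩)
            simp only [Equiv.apply_symm_apply, i.2, dif_pos] at h2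
            rw [h2, smul_zero]) x
      exact ⟨y, m, fun l => (a1 l).trans t1, fun r => (a2 r).trans hτ1⟩

end Vale.Agent.P057L
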