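import Vale.Agent.P057L.Defs
import Vale.Agent.P057Z.Ke.Cr

/-! A subfamily with a small dual family, over the integers. -/

set_option linter.all false

open Finset
open scoped BigOperators

namespace Vale.Agent.P057L

namespace CrqA

theorem cramerQ {I : Type*} [Fintype I] {j : ℕ} (k : Fin j → I → ℤ)
    {K0 : ℕ} (hK : 1 ≤ K0) (hk : ∀ a i, |k a i| ≤ K0)
    (hli : LinearIndependent ℚ (fun a i => ((k a i : ℤ) : ℚ))) :
    ∃ (D : ℤ) (W : Fin j → I → ℤ), ((D : ℤ) : ℚ) ≠ 0 ∧
      |D| ≤ ((j.factorial * K0 ^ j : ℕ) : ℤ) ∧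
      (∀ l i, |W l i| ≤ ((j.factorial * K0 ^ j : ℕ) : ℤ)) ∧
      ∀ a l, ∑ i, k a i * W l i = if a = l then D else 0 := by
  classical
  let A : Matrix (Fin j) I ℚ := Matrix.of fun a i => ((k a i : ℤ) : ℚ)
  obtain ⟨s, hs, hdet⟩ := P057Z.Ke.exists_cols A hli
  let M : Matrix (Fin j) (Fin j) ℤ := Matrix.of fun a b => k a (s b)
  have hM : ∀ a b, |M a b| ≤ (K0 : ℤ) := fun a b => hk a (s b)
  have hbd : ∀ N : Matrix (Fin j) (Fin j) ℤ, (∀ a b, |N a b| ≤ (K0 : ℤ)) →
      |N.det| ≤ ((j.factorial * K0 ^ j : ℕ) : ℤ) := by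
    intro N hN
    have h := Matrix.det_le (A := N) (abv := AbsoluteValue.abs) (x := (K0 : ℤ)) hN
    simpa using h
  refine ⟨M.det, fun l i => ∑ b, if s b = i then M.adjugate b l else 0, ?_, hbd M hM, ?_, ?_⟩
  · have h1 : ((M.det : ℤ) : ℚ) = (A.submatrix id s).det := by
      have h2 := RingHom.map_det (Int.castRingHom ℚ) M
      rw [eq_intCast] at h2
      rw [h2]
      rfl
    rw [h1]
    exact hdet
  · intro l i
    have hadj : ∀ b, |M.adjugate b l| ≤ ((j.factorial * K0 ^ j : ℕ) : ℤ) := by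
      intro b
      rw [Matrix.adjugate_apply]
      refine hbd _ fun a c => ?_
      rw [Matrix.updateRow_apply]
      split_ifs with h
      · rw [Pi.single_apply]
        split_ifs
        · rw [abs_one]
          exact_mod_cast hK
        · rw [abs_zero]
          positivity
      · exact hM a c
    show |∑ b, if s b = i then M.adjugate b l else 0| ≤ _
    by_cases hi : ∃ b, s b = i
    · obtain ⟨b, rfl⟩ := hi
      rw [Finset.sum_eq_single b (fun c _ hc => if_neg fun h => hc (hs h))
        (fun h => (h (Finset.mem_univ _)).elim), if_pos rfl]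
      exact hadj b
    · rw [Finset.sum_eq_zero fun b _ => if_neg fun h => hi ⟨b, h⟩, abs_zero]
      positivity
  · intro a l
    have h1 : ∑ i, k a i * (∑ b, if s b = i then M.adjugate b l else 0) =
        ∑ b, M a b * M.adjugate b l := by
      simp_rw [Finset.mul_sum]
      rw [Finset.sum_comm]
      refine Finset.sum_congr rfl fun b _ => ?_
      rw [Finset.sum_eq_single (s b) (fun i _ hi => by rw [if_neg (Ne.symm hi), mul_zero])
        (fun h => (h (Finset.mem_univ _)).elim), if_pos rfl]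
      rfl
    rw [h1, ← Matrix.mul_apply, Matrix.mul_adjugate, Matrix.smul_apply, Matrix.one_apply]
    split_ifs <;> simp

end CrqA

theorem crq : CRQ := by
  classical
  intro κ α _ _ _ f Hh H1 hf
  obtain ⟨ι, a, -, hsp, hli⟩ := exists_linearIndependent' ℚ (fun a r => ((f a r : ℤ) : ℚ))
  have : Finite ι := hli.finite
  have : Fintype ι := Fintype.ofFinite ι
  let e := (Fintype.equivFin ι).symm
  have hle : Fintype.card ι ≤ Fintype.card κ := by simpa using hli.fintype_card_le_finrank
  obtain ⟨D, W, hD, bD, bW, hW⟩ := CrqA.cramerQ (fun i => f (a (e i))) H1 (fun i r => hf _ r)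
    (hli.comp e e.injective)
  have hb : (((Fintype.card ι).factorial * Hh ^ Fintype.card ι : ℕ) : ℤ) ≤
      ((Fintype.card κ).factorial * Hh ^ Fintype.card κ : ℕ) :=
    Nat.cast_le.2 (Nat.mul_le_mul (Nat.factorial_le hle) (Nat.pow_le_pow_right H1 hle))
  refine ⟨_, fun i => a (e i), W, D, hle, fun h => hD (by simp [h]), bD.trans hb,
    fun i r => (bW i r).trans hb, hW, fun b => ?_⟩
  have hm : (fun r => ((f b r : ℤ) : ℚ)) ∈
      Submodule.span ℚ (Set.range fun i r => ((f (a (e i)) r : ℤ) : ℚ)) := by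
    have h1 : (Set.range fun i r => ((f (a (e i)) r : ℤ) : ℚ)) =
        Set.range ((fun a r => ((f a r : ℤ) : ℚ)) ∘ a) :=
      e.surjective.range_comp ((fun a r => ((f a r : ℤ) : ℚ)) ∘ a)
    rw [h1, hsp]
    exact Submodule.subset_span ⟨b, rfl⟩
  obtain ⟨c, hc⟩ := (Submodule.mem_span_range_iff_exists_fun ℚ).1 hm
  have hc' : ∀ r, ((f b r : ℤ) : ℚ) = ∑ i, c i * f (a (e i)) r := fun r => by
    simpa using (congrFun hc r).symm
  have h2 : ∀ i, ((W i ⬝ᵥ f b : ℤ) : ℚ) = D * c i := fun i => by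
    have h3 : ∀ l, ∑ r, ((f (a (e l)) r : ℤ) : ℚ) * W i r = if l = i then (D : ℚ) else 0 :=
      fun l => by
        have := congrArg (Int.cast : ℤ → ℚ) (hW l i)
        push_cast at this
        exact this
    calc ((W i ⬝ᵥ f b : ℤ) : ℚ) = ∑ r, (W i r : ℚ) * ∑ l, c l * f (a (e l)) r := by
          simp only [dotProduct, Int.cast_sum, Int.cast_mul, hc']
      _ = ∑ l, c l * ∑ r, ((f (a (e l)) r : ℤ) : ℚ) * W i r := by
          simp only [mul_sum]
          rw [sum_comm]
          exact sum_congr rfl fun l _ => sum_congr rfl fun r _ => by ring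
      _ = D * c i := by
          simp only [h3]
          simp [mul_comm]
  funext r
  apply Int.cast_injective (α := ℚ)
  simp only [Pi.smul_apply, smul_eq_mul, Finset.sum_apply, Int.cast_mul, Int.cast_sum, h2, hc' r,
    mul_sum, mul_assoc]

end Vale.Agent.P057L
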