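import Vale.Agent.P057L.Bas

/-! Two applications of the inequality of Cauchy and Schwarz. -/

set_option linter.all false

open Finset
open scoped BigOperators

namespace Vale.Agent.P057L

namespace Cs2

theorem pairs {α β : Type} [DecidableEq β] (T : Finset α) (B : Finset β) (f : α → β) (hf : ∀ t ∈ T, f t ∈ B) :
    T.card ^ 2 ≤ B.card * ((T ×ˢ T).filter fun p => f p.1 = f p.2).card := by
  rw [card_eq_sum_card_fiberwise (f := f) (t := B) hf,
    card_eq_sum_card_fiberwise (f := fun p => f p.1) (t := B)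
      (s := (T ×ˢ T).filter fun p => f p.1 = f p.2)
      fun p hp => hf _ (mem_product.1 (mem_filter.1 hp).1).1]
  refine sq_sum_le_card_mul_sum_sq.trans (Nat.mul_le_mul_left _ (sum_le_sum fun b _ => ?_))
  rw [sq, ← card_product]
  refine card_le_card fun p hp => ?_
  simp only [mem_product, mem_filter] at hp ⊢
  exact ⟨⟨⟨hp.1.1, hp.2.1⟩, hp.1.2.trans hp.2.2.symm⟩, hp.1.2⟩

open Classical in
theorem step {G A : Type} [AddCommGroup G] [AddCommGroup A] (ε : A →+ G) (E B : Finset G)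
    (D : Finset A) (hB : ∀ x ∈ E, ∀ a ∈ D, x + ε a ∈ B) (hD : ∀ x ∈ E, ∀ a, x + ε a ∈ E → a ∈ D)
    (R R' : G → A → A → Prop)
    (h : ∀ x c b b', x + ε (b - b') ∈ E → R x c b → R (x + ε (b - b')) c b' → R' x (b - b') c)
    (S S' : Finset (G × A × A)) (hS : ∀ p ∈ S, p ∈ E ×ˢ D ×ˢ D ∧ R p.1 p.2.1 p.2.2)
    (hS' : ∀ p ∈ E ×ˢ D ×ˢ D, R' p.1 p.2.1 p.2.2 → p ∈ S') :
    S.card ^ 2 ≤ B.card * D.card * D.card * S'.card := by
  refine (pairs _ (B ×ˢ D) (fun p => (p.1 + ε p.2.2, p.2.1)) fun p hp => ?_).trans ?_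
  · have hp := hS p hp
    simp only [mem_product] at hp ⊢
    exact ⟨hB _ hp.1.1 _ hp.1.2.2, hp.1.2.1⟩
  rw [card_product, mul_assoc (B.card * D.card), ← card_product D]
  refine Nat.mul_le_mul_left _ (card_le_card_of_injOn
    (fun p => (p.1.2.2, p.1.1, p.1.2.2 - p.2.2.2, p.1.2.1)) ?_ ?_)
  · rintro ⟨⟨x, c, b⟩, x', c', b'⟩ hp
    obtain ⟨k1, k2⟩ := mem_filter.1 (mem_coe.1 hp)
    have k3 := hS _ (mem_product.1 k1).1
    have k4 := hS _ (mem_product.1 k1).2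
    simp only [mem_product, Prod.mk.injEq] at k2 k3 k4
    obtain ⟨h7, rfl⟩ := k2
    obtain ⟨⟨h1, h2, h3⟩, h4⟩ := k3
    obtain ⟨⟨h5, -, -⟩, h6⟩ := k4
    obtain rfl : x' = x + ε (b - b') := by rw [map_sub, ← add_sub_assoc, h7, add_sub_cancel_right]
    exact mem_coe.2 (mem_product.2 ⟨h3, hS' _ (mem_product.2 ⟨h1, mem_product.2
      ⟨hD x h1 _ h5, h2⟩⟩) (h _ _ _ _ h5 h4 h6)⟩)
  · rintro ⟨⟨x, c, b⟩, x', c', b'⟩ hp ⟨⟨y, d, e⟩, y', d', e'⟩ hq k
    have h1 := (mem_filter.1 (mem_coe.1 hp)).2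
    have h2 := (mem_filter.1 (mem_coe.1 hq)).2
    simp only [Prod.mk.injEq] at h1 h2 k
    obtain ⟨rfl, rfl, k, rfl⟩ := k
    obtain rfl := sub_right_injective k
    obtain rfl := add_right_cancel (h1.1.symm.trans h2.1)
    rw [← h1.2, ← h2.2]

theorem box (j q N : ℕ) (i : Fin j) : ∃ B : Finset (Pt j q), B.card ≤ 3 ^ q * N ^ (j * q) ∧
    ∀ x ∈ bp j q N, ∀ a ∈ sz q N, x + ev i a ∈ B := by
  classical
  refine ⟨Fintype.piFinset (Function.update (fun _ => bz q N) i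
    (Fintype.piFinset fun _ => Ico (-(N : ℤ)) (2 * N))), le_of_eq ?_, fun x hx a ha => ?_⟩
  · rw [Fintype.card_piFinset, ← (bas.2.1 j q N), bp, Fintype.card_piFinset,
      ← mul_prod_erase _ _ (mem_univ i), ← mul_prod_erase _ _ (mem_univ i), ← mul_assoc]
    congr 1
    · rw [Function.update_self, (bas.1 q N).1, ← mul_pow, Fintype.card_piFinset, prod_const,
        card_univ, Fintype.card_fin, Int.card_Ico]
      congr 1
      omega
    · exact prod_congr rfl fun k hk => by rw [Function.update_of_ne (ne_of_mem_erase hk)]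
  · rw [Fintype.mem_piFinset]
    intro k
    have h1 := Fintype.mem_piFinset.1 hx k
    by_cases h : k = i
    · subst h
      rw [Function.update_self, Fintype.mem_piFinset]
      intro l
      have h2 := mem_Ico.1 (Fintype.mem_piFinset.1 h1 l)
      have h3 := mem_Ioo.1 (Fintype.mem_piFinset.1 ha l)
      simp only [ev, Pi.add_apply, Pi.single_eq_same, mem_Ico]
      omega
    · simpa [ev, h] using h1

end Cs2

open Cs2 in
theorem cs2 : CS2 := by
  classical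
  refine ⟨12, fun Y j q N H _ ψ g2 g3 g4 E i hY hq hN hE h => ?_⟩
  have hY' : (12 : ℝ) ≤ Y := by exact_mod_cast hY
  obtain ⟨B, b1, b2⟩ := box j q N i
  let ε : Vz q →+ Pt j q := AddMonoidHom.single (fun _ => Vz q) i
  have hB : ∀ x ∈ E, ∀ a ∈ sz q N, x + ε a ∈ B := fun x hx => b2 x (hE hx)
  have hD : ∀ x ∈ E, ∀ a, x + ε a ∈ E → a ∈ sz q N := fun x hx a ha =>
    Fintype.mem_piFinset.2 fun l => by
      have h1 := mem_Ico.1 (Fintype.mem_piFinset.1 (Fintype.mem_piFinset.1 (hE hx) i) l)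
      have h2 := mem_Ico.1 (Fintype.mem_piFinset.1 (Fintype.mem_piFinset.1 (hE ha) i) l)
      simp only [ε, AddMonoidHom.single_apply, Pi.add_apply, Pi.single_eq_same] at h2
      exact mem_Ioo.2 (by omega)
  let S1 := (E ×ˢ sz q N ×ˢ sz q N).filter fun p => ψ p.1 = g2 (p.1 + ε p.2.1) +
    g3 (p.1 + ε p.2.2) + g4 (p.1 + ε p.2.1 + ε p.2.2)
  let S2 := (E ×ˢ sz q N ×ˢ sz q N).filter fun p => p.1 + ε p.2.1 ∈ E ∧
    ψ p.1 - ψ (p.1 + ε p.2.1) = g2 (p.1 + ε p.2.2) - g2 (p.1 + ε p.2.1 + ε p.2.2)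
  have s1 := step ε E B _ hB hD
    (fun x a b => ψ x = g2 (x + ε a) + g3 (x + ε b) + g4 (x + ε a + ε b))
    (fun x α a => x + ε α ∈ E ∧ ψ x - ψ (x + ε α) = g2 (x + ε a) - g2 (x + ε α + ε a))
    (fun x c b b' k k1 k2 => ⟨k, by
      rw [k1, k2, show x + ε (b - b') + ε c + ε b' = x + ε c + ε b by rw [map_sub]; abel,
        show x + ε (b - b') + ε b' = x + ε b by rw [map_sub]; abel]
      abel⟩) S1 S2 (fun p hp => mem_filter.1 hp) fun p hp k => mem_filter.2 ⟨hp, k⟩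
  have s0 : (E.card : ℝ) * (Real.exp (-Y) * (N : ℝ) ^ (2 * q)) ≤ S1.card := by
    rw [card_filter, sum_product, Nat.cast_sum, ← nsmul_eq_mul]
    refine card_nsmul_le_sum _ _ _ fun x hx => (h x hx).trans_eq ?_
    rw [card_filter]
    rfl
  have s4 : B.card * (sz q N).card * (sz q N).card ≤ 12 ^ q * N ^ (j * q + 2 * q) :=
    (Nat.mul_le_mul (Nat.mul_le_mul b1 (bas.1 q N).2) (bas.1 q N).2).trans_eq (by
      rw [show 12 = 3 * 2 * 2 by norm_num]
      simp only [mul_pow]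
      ring)
  have s5 := (Nat.pow_le_pow_left (s1.trans (Nat.mul_le_mul_right _ s4)) 2)
  rw [mul_pow, ← pow_mul] at s5
  unfold env
  generalize hS : @Finset.filter _ _ (_) (E ×ˢ sz q N ×ˢ sz q N) = S3
  have s2 := step ε E B _ hB hD
    (fun x α a => x + ε α ∈ E ∧ ψ x - ψ (x + ε α) = g2 (x + ε a) - g2 (x + ε α + ε a))
    (fun x β α => x ∈ E → Pg ψ E x (ε β) (ε α)) (fun x c b b' k k1 k2 hx => ⟨hx, k, k1.1, k2.1, by
      have k3 := k2.2
      rw [show x + ε (b - b') + ε c + ε b' = x + ε c + ε b by rw [map_sub]; abel,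
        show x + ε (b - b') + ε b' = x + ε b by rw [map_sub]; abel, ← k1.2,
        sub_eq_sub_iff_add_eq_add] at k3
      exact k3.symm⟩) S2 S3 (fun p hp => mem_filter.1 hp) fun p hp k => by
        rw [← hS, mem_filter]
        exact ⟨hp, k (mem_product.1 hp).1⟩
  have s6 := s5.trans (Nat.mul_le_mul_left _ (s2.trans (Nat.mul_le_mul_right _ s4)))
  have s8 := (Nat.cast_le (α := ℝ)).2 s6
  rw [Nat.cast_pow] at s8
  have s7 := (pow_le_pow_left₀ (by positivity) s0 (2 * 2)).trans s8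
  push_cast at s7
  have n0 : (0 : ℝ) < N := by exact_mod_cast hN
  have e1 : ((12 : ℝ) ^ q) ^ 3 ≤ Real.exp (8 * Y) := by
    have a1 : (12 : ℝ) ^ 3 ≤ Real.exp 1 ^ 8 :=
      le_trans (by norm_num) (pow_le_pow_left₀ (by norm_num) Real.exp_one_gt_d9.le 8)
    rw [← pow_mul, mul_comm, pow_mul]
    refine (pow_le_pow_left₀ (by norm_num) a1 q).trans ?_
    rw [← Real.exp_nat_mul, ← Real.exp_nat_mul]
    exact Real.exp_le_exp.2 (by push_cast; linarith)
  have e2 : Real.exp (-Y ^ 12) * Real.exp (8 * Y) ≤ Real.exp (-Y) ^ 4 := by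
    rw [← Real.exp_add, ← Real.exp_nat_mul]
    refine Real.exp_le_exp.2 ?_
    push_cast
    nlinarith [pow_le_pow_right₀ (by linarith : 1 ≤ Y) (show 2 ≤ 12 by norm_num)]
  rw [le_div_iff₀ (by positivity)]
  refine le_of_mul_le_mul_left (le_trans ?_ (s7.trans_eq (by ring)))
    (show 0 < ((12 : ℝ) ^ q * N ^ (j * q + 2 * q)) ^ 3 by positivity)
  calc _ = Real.exp (-Y ^ 12) * (12 ^ q) ^ 3 * (E.card * (N : ℝ) ^ (2 * q)) ^ 4 := by
        rw [pow_add]
        field_simp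
    _ ≤ Real.exp (-Y) ^ 4 * (E.card * (N : ℝ) ^ (2 * q)) ^ 4 :=
        mul_le_mul_of_nonneg_right
          ((mul_le_mul_of_nonneg_left e1 (by positivity)).trans e2) (by positivity)
    _ = _ := by ring

end Vale.Agent.P057L
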