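import Vale.Agent.P057L.Win
import Vale.Agent.P057Z.Ke.Nm

/-! A large correlation with a product form gives energy along two copies. -/

set_option linter.all false

open Finset
open scoped BigOperators Classical

namespace Vale.Agent.P057L

open Vale.Agent.P057Z Vale.Agent.P057Z.Ke

namespace Drp1

theorem nexp {α : Type} (s : Finset α) (f : α → ℂ) (h : ∀ a, ‖f a‖ ≤ 1) : ‖𝔼 a ∈ s, f a‖ ≤ 1 := by
  rw [expect_eq_sum_div_card, norm_div, Complex.norm_natCast]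
  refine div_le_one_of_le₀ ((norm_sum_le _ _).trans ?_) (Nat.cast_nonneg _)
  exact (sum_le_card_nsmul _ _ 1 fun a _ => h a).trans_eq (by simp)

theorem shift (T N : ℕ) (t : ℤ) (h0 : 0 ≤ t) (h1 : t ≤ N) (f : ℤ → ℂ) :
    ∑ s ∈ rg T, f (s + t) = ∑ s ∈ rg (T + N), if s - t ∈ rg T then f s else 0 := by
  rw [← sum_filter]
  refine sum_nbij' (fun s => s + t) (fun s => s - t) (fun s hs => ?_)
    (fun s hs => (mem_filter.mp hs).2) (fun s _ => by simp) (fun s _ => by simp) fun _ _ => rfl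
  refine mem_filter.mpr ⟨?_, by simpa using hs⟩
  have := mem_Ico.mp hs
  refine mem_Ico.mpr ?_
  push_cast
  omega

variable {j q : ℕ}

theorem e1_add (i : Fin j) (l : Fin q) (a b : ℤ) : e1 i l (a + b) = e1 i l a + e1 i l b := by
  unfold e1
  rw [Pi.single_add, Pi.single_add]

theorem e1_bd {N : ℕ} (i : Fin j) (l : Fin q) {a : ℤ} (ha : a ∈ rg N) (k : Fin j) (m : Fin q) :
    0 ≤ e1 i l a k m ∧ e1 i l a k m ≤ N := by
  have := mem_Ico.mp ha
  unfold e1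
  by_cases h : k = i
  · subst h
    rw [Pi.single_eq_same, Pi.single_apply]
    split_ifs <;> omega
  · rw [Pi.single_eq_of_ne h]
    exact ⟨le_rfl, Int.natCast_nonneg N⟩

/-- the enlarged box -/
noncomputable def X (j q N : ℕ) : Finset (Pt j q) :=
  Fintype.piFinset fun _ => Fintype.piFinset fun _ => Ico (-(2 * N : ℤ)) N

theorem card_X (N : ℕ) : ((X j q N).card : ℝ) = (3 * N) ^ (j * q) := by
  have : (Ico (-(2 * N : ℤ)) N).card = 3 * N := by
    rw [Int.card_Ico]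
    omega
  rw [X, Win.cp, Win.cp, this, ← pow_mul, mul_comm q j]
  push_cast
  rfl

theorem move {N : ℕ} {U : Finset (Pt j q)} (hU : U ⊆ bp j q N) (Φ : Pt j q → ℂ) (i : Fin j)
    (l l' : Fin q) {a b : ℤ} (ha : a ∈ rg N) (hb : b ∈ rg N) :
    ∑ W ∈ U, Φ W = ∑ W ∈ X j q N, if W + e1 i l a + e1 i l' b ∈ U then
      Φ (W + e1 i l a + e1 i l' b) else 0 := by
  rw [← sum_filter]
  refine sum_nbij' (fun W => W - e1 i l' b - e1 i l a) (fun W => W + e1 i l a + e1 i l' b)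
    (fun W hW => mem_filter.mpr ⟨?_, by simpa using hW⟩) (fun W hW => (mem_filter.mp hW).2)
    (fun W _ => by simp) (fun W _ => by simp) fun W _ => by simp
  refine Fintype.mem_piFinset.mpr fun k => Fintype.mem_piFinset.mpr fun m => mem_Ico.mpr ?_
  have h1 := mem_Ico.mp (Fintype.mem_piFinset.mp (Fintype.mem_piFinset.mp (hU hW) k) m)
  have h2 := e1_bd i l ha k m
  have h3 := e1_bd i l' hb k m
  simp only [Pi.sub_apply]
  omega

variable {Q : ℕ} [Fact Q.Prime]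

/-- the quadruples in one plane -/
noncomputable def cnt (ψ : Pt j q → ZMod Q) (U : Finset (Pt j q)) (N : ℕ) (i : Fin j)
    (l l' : Fin q) (W : Pt j q) : Finset ((ℤ × ℤ) × ℤ × ℤ) :=
  ((rg N ×ˢ rg N) ×ˢ rg N ×ˢ rg N).filter fun p =>
    Pg ψ U (W + e1 i l p.1.1 + e1 i l' p.2.1) (e1 i l (p.1.2 - p.1.1)) (e1 i l' (p.2.2 - p.2.1))

theorem tot (ψ : Pt j q → ZMod Q) (U : Finset (Pt j q)) {N : ℕ} (hN : (0 : ℝ) < N) (i : Fin j)
    (l l' : Fin q) : ∑ W ∈ X j q N, ((cnt ψ U N i l l' W).card : ℝ) ≤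
      ens ψ U N i l l' * (N : ℝ) ^ (j * q + 2) * N ^ 2 := by
  have hs : ∀ a ∈ rg N, ∀ b ∈ rg N, b - a ∈ sy N := fun a ha b hb => by
    have := mem_Ico.mp ha
    have := mem_Ico.mp hb
    exact mem_Ioo.mpr (by omega)
  rw [ens, div_mul_cancel₀ _ (pow_pos hN _).ne', ← Nat.cast_sum, ← Nat.cast_pow, ← Nat.cast_mul,
    Nat.cast_le, ← card_sigma, show N ^ 2 = (rg N ×ˢ rg N).card by
      rw [card_product, Win.c1, sq], ← card_product]
  refine card_le_card_of_injOn (fun p => ((p.1 + e1 i l p.2.1.1 + e1 i l' p.2.2.1,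
    p.2.1.2 - p.2.1.1, p.2.2.2 - p.2.2.1), p.2.1.1, p.2.2.1)) ?_ ?_
  · rintro ⟨W, ⟨a, a'⟩, b, b'⟩ hp
    obtain ⟨h1, h2⟩ := mem_filter.mp (mem_sigma.mp (mem_coe.mp hp)).2
    obtain ⟨h3, h4⟩ := mem_product.mp h1
    obtain ⟨ha, ha'⟩ := mem_product.mp h3
    obtain ⟨hb, hb'⟩ := mem_product.mp h4
    exact mem_coe.mpr (mem_product.mpr ⟨mem_filter.mpr ⟨mem_product.mpr ⟨h2.1,
      mem_product.mpr ⟨hs a ha a' ha', hs b hb b' hb'⟩⟩, h2⟩, mem_product.mpr ⟨ha, hb⟩⟩)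
  · rintro ⟨W, ⟨a, a'⟩, b, b'⟩ _ ⟨V, ⟨c, c'⟩, d, d'⟩ _ e
    simp only [Prod.mk.injEq] at e
    obtain ⟨⟨e1, e2, e3⟩, rfl, rfl⟩ := e
    obtain rfl : a' = c' := sub_left_injective e2
    obtain rfl : b' = d' := sub_left_injective e3
    obtain rfl : W = V := add_right_cancel (add_right_cancel e1)
    rfl

theorem plane (hB : BOX3) {Bd : ℝ} {N T : ℕ} (ψ : Pt j q → ZMod Q) (U : Finset (Pt j q))
    (u : Pt j q → ℂ) (G : Pt j q → ℤ → ℝ) (i : Fin j) (l l' : Fin q) (hT : 1 ≤ T) (hTN : T ≤ N)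
    (hQ : 2 * N ≤ Q) (B0 : 0 < Bd) (hu : ∀ W, ‖u W‖ ≤ 1) (hG : Fac G Bd i l l') (W : Pt j q) :
    ∃ δ : ℝ, 0 ≤ δ ∧ δ ^ 8 * N / (8 * Q) * (N : ℝ) ^ 4 ≤ (cnt ψ U N i l l' W).card ∧
      ‖∑ a ∈ rg N, ∑ b ∈ rg N, if W + e1 i l a + e1 i l' b ∈ U then
        u (W + e1 i l a + e1 i l' b) * 𝔼 s ∈ rg T, (G (W + e1 i l a + e1 i l' b) s : ℂ) *
          ch (ψ (W + e1 i l a + e1 i l' b) * (s : ZMod Q)) else 0‖ * T ≤
        Bd ^ 2 * (2 * N) * N ^ 2 * δ := by
  obtain ⟨σ, A, B, hσ, hA, hB', hF⟩ := hG W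
  have T0 : (0 : ℝ) < T := by exact_mod_cast hT
  have TN : (T : ℝ) ≤ N := by exact_mod_cast hTN
  have N0 : (0 : ℝ) < N := T0.trans_le TN
  let ξ : ℤ → ℤ → ZMod Q := fun a b => ψ (W + e1 i l a + e1 i l' b)
  let v : ℤ → ℤ → ℂ := fun a b => if W + e1 i l a + e1 i l' b ∈ U then
    u (W + e1 i l a + e1 i l' b) * ch (-(ξ a b * ((σ * a : ℤ) : ZMod Q))) else 0
  let F : ℤ → ℤ → ℂ := fun s a => if s - σ * a ∈ rg T then ((A s a / Bd : ℝ) : ℂ) else 0
  let G' : ℤ → ℤ → ℂ := fun s b => ((B s b / Bd : ℝ) : ℂ)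
  have nd : ∀ x : ℝ, |x| ≤ Bd → ‖((x / Bd : ℝ) : ℂ)‖ ≤ 1 := fun x hx => by
    rw [Complex.norm_real, Real.norm_eq_abs, abs_div, abs_of_pos B0]
    exact (div_le_one B0).mpr hx
  have hv : ∀ a b, ‖v a b‖ ≤ 1 := fun a b => by
    simp only [v]
    split_ifs
    · rw [norm_mul, norm_ch, mul_one]
      exact hu _
    · simp
  have hF' : ∀ s a, ‖F s a‖ ≤ 1 := fun s a => by
    simp only [F]
    split_ifs
    · exact nd _ (hA s a)
    · simp
  have hG' : ∀ s b, ‖G' s b‖ ≤ 1 := fun s b => nd _ (hB' s b)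
  set Z := 𝔼 s ∈ rg (T + N), 𝔼 a ∈ rg N, 𝔼 b ∈ rg N,
    v a b * F s a * G' s b * ch (ξ a b * (s : ZMod Q)) with hZ
  refine ⟨‖Z‖, norm_nonneg _, ?_, ?_⟩
  · rcases (norm_nonneg Z).eq_or_lt with h | h
    · rw [← h]
      simp
    have z1 : ‖Z‖ ≤ 1 := nexp _ _ fun s => nexp _ _ fun a => nexp _ _ fun b => by
      rw [norm_mul, norm_mul, norm_mul, norm_ch, mul_one]
      exact mul_le_one₀ (mul_le_one₀ (hv a b) (norm_nonneg _) (hF' s a)) (norm_nonneg _) (hG' s b)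
    have k := hB Q ℤ ℤ (rg N) (rg N) (T + N) ‖Z‖ v F G' ξ (by omega) (by omega) h z1 hv hF' hG'
      le_rfl
    rw [Win.c1] at k
    refine le_trans ?_ (k.trans (Nat.cast_le.mpr (card_le_card fun p hp => ?_)))
    · rw [← pow_add]
      push_cast
      gcongr
      linarith
    · obtain ⟨h1, h2, h3, h4, h5, h6⟩ := mem_filter.mp hp
      have m : ∀ a b, v a b ≠ 0 → W + e1 i l a + e1 i l' b ∈ U := fun a b h => by
        by_contra c
        exact h (if_neg c)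
      have s1 : ∀ (l : Fin q) (a a' : ℤ), e1 i l (a' - a) = e1 i l a' - e1 i l a := fun l a a' => by
        rw [eq_sub_iff_add_eq, ← e1_add, sub_add_cancel]
      have a1 : W + e1 i l p.1.1 + e1 i l' p.2.1 + e1 i l (p.1.2 - p.1.1) =
          W + e1 i l p.1.2 + e1 i l' p.2.1 := by rw [s1]; abel
      have a2 : ∀ a, W + e1 i l a + e1 i l' p.2.1 + e1 i l' (p.2.2 - p.2.1) =
          W + e1 i l a + e1 i l' p.2.2 := fun a => by rw [s1]; abel
      refine mem_filter.mpr ⟨h1, ?_⟩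
      unfold Pg
      rw [a1, a2, a2]
      exact ⟨m _ _ h2, m _ _ h3, m _ _ h4, m _ _ h5, h6⟩
  · have e : ∀ a ∈ rg N, ∀ b ∈ rg N, (if W + e1 i l a + e1 i l' b ∈ U then
        u (W + e1 i l a + e1 i l' b) * 𝔼 s ∈ rg T, (G (W + e1 i l a + e1 i l' b) s : ℂ) *
          ch (ψ (W + e1 i l a + e1 i l' b) * (s : ZMod Q)) else 0) * T =
        (Bd : ℂ) ^ 2 * ∑ s ∈ rg (T + N), v a b * F s a * G' s b * ch (ξ a b * (s : ZMod Q)) := by
      intro a ha b _
      have ha' := mem_Ico.mp ha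
      have T1 : (T : ℂ) ≠ 0 := by exact_mod_cast T0.ne'
      have B1 : (Bd : ℂ) ≠ 0 := by exact_mod_cast B0.ne'
      by_cases c : W + e1 i l a + e1 i l' b ∈ U
      · have k := shift T N (σ * a) (by rcases hσ with h | h <;> rw [h] <;> omega)
          (by rcases hσ with h | h <;> rw [h] <;> omega)
          fun s => v a b * ((A s a / Bd : ℝ) : ℂ) * G' s b * ch (ξ a b * (s : ZMod Q))
        have k2 : ∑ s ∈ rg (T + N), v a b * F s a * G' s b * ch (ξ a b * (s : ZMod Q)) =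
            ∑ s ∈ rg T, v a b * ((A (s + σ * a) a / Bd : ℝ) : ℂ) * G' (s + σ * a) b *
              ch (ξ a b * ((s + σ * a : ℤ) : ZMod Q)) := by
          rw [k]
          refine sum_congr rfl fun s _ => ?_
          simp only [F]
          split_ifs <;> simp
        rw [k2, if_pos c, expect_eq_sum_div_card, Win.c1, mul_assoc, div_mul_cancel₀ _ T1, mul_sum,
          mul_sum]
        refine sum_congr rfl fun s _ => ?_
        have k3 : ch (ψ (W + e1 i l a + e1 i l' b) * (s : ZMod Q)) =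
            ch (-(ξ a b * ((σ * a : ℤ) : ZMod Q))) * ch (ξ a b * ((s + σ * a : ℤ) : ZMod Q)) := by
          rw [← ch_add, Int.cast_add]
          congr 1
          simp only [ξ]
          ring
        rw [hF, k3]
        simp only [v, G', if_pos c]
        push_cast
        field_simp
      · simp only [v, if_neg c, zero_mul, sum_const_zero, mul_zero]
    have N1 : (N : ℂ) ≠ 0 := by exact_mod_cast N0.ne'
    have N2 : ((T + N : ℕ) : ℂ) ≠ 0 := by exact_mod_cast (by omega : T + N ≠ 0)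
    have e2 : ∑ a ∈ rg N, ∑ b ∈ rg N, ∑ s ∈ rg (T + N),
        v a b * F s a * G' s b * ch (ξ a b * (s : ZMod Q)) = ((T + N : ℕ) : ℂ) * N ^ 2 * Z := by
      rw [hZ]
      simp only [expect_eq_sum_div_card, Win.c1, ← sum_div]
      rw [sum_comm (s := rg (T + N))]
      simp only [sum_comm (s := rg (T + N))]
      field_simp
    rw [← Complex.norm_natCast T, ← norm_mul, sum_mul, sum_congr rfl fun a ha => by
      rw [sum_mul, sum_congr rfl (e a ha), ← mul_sum], ← mul_sum, e2]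
    simp only [norm_mul, norm_pow, Complex.norm_natCast, Complex.norm_real,
      Real.norm_of_nonneg B0.le]
    push_cast
    rw [← mul_assoc, ← mul_assoc]
    gcongr
    linarith

theorem num {Y : ℝ} (hY : ((14 * j + 30 : ℕ) : ℝ) ≤ Y) (hq : (q : ℝ) ≤ Y) :
    2 ^ 11 * (3 ^ (j * q)) ^ 7 * Real.exp Y ^ 17 ≤ Real.exp (Y ^ (14 * j + 30)) := by
  have j0 : (0 : ℝ) ≤ j := Nat.cast_nonneg j
  push_cast at hY
  have a1 : (2 : ℝ) ≤ Real.exp 1 := by linarith [Real.add_one_le_exp (1 : ℝ)]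
  have a2 : (3 : ℝ) ≤ Real.exp 2 := by linarith [Real.add_one_le_exp (2 : ℝ)]
  calc _ ≤ Real.exp 1 ^ 11 * (Real.exp 2 ^ (j * q)) ^ 7 * Real.exp Y ^ 17 := by gcongr
    _ ≤ _ := by
      simp only [← Real.exp_nat_mul, ← Real.exp_add]
      refine Real.exp_le_exp.mpr (le_trans ?_ (pow_le_pow_right₀ (by linarith) (by omega : 2 ≤ _)))
      push_cast
      nlinarith [mul_le_mul_of_nonneg_left hq j0, mul_le_mul_of_nonneg_right hY (by linarith : 0 ≤ Y)]

end Drp1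

open Drp1 in
theorem drp1 (hB : BOX3) : DRP1 := by
  refine fun j => ⟨14 * j + 30, ?_⟩
  intro Y Bd q N T Q _ ψ U u G i l l' hY hq hT hTN hNT hQ hQN B0 hU hu hG h
  have T0 : (0 : ℝ) < T := by exact_mod_cast hT
  have N0 : (0 : ℝ) < N := T0.trans_le (by exact_mod_cast hTN)
  have Q0 : (0 : ℝ) < Q := Qpos
  have E0 := Real.exp_pos Y
  choose δ d0 d1 d2 using plane hB ψ U u G i l l' hT hTN hQ B0 hu hG
  set Φ : Pt j q → ℂ := fun W => u W * 𝔼 s ∈ rg T, (G W s : ℂ) * ch (ψ W * (s : ZMod Q)) with hΦ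
  have h1 : (N : ℂ) ^ 2 * ∑ W ∈ U, Φ W = ∑ W ∈ X j q N, ∑ a ∈ rg N, ∑ b ∈ rg N,
      if W + e1 i l a + e1 i l' b ∈ U then Φ (W + e1 i l a + e1 i l' b) else 0 := by
    have k : ∀ a ∈ rg N, ∑ W ∈ X j q N, ∑ b ∈ rg N, (if W + e1 i l a + e1 i l' b ∈ U then
        Φ (W + e1 i l a + e1 i l' b) else 0) = N * ∑ W ∈ U, Φ W := fun a ha => by
      rw [sum_comm, sum_congr rfl fun b hb => (move hU Φ i l l' ha hb).symm, sum_const, Win.c1,
        nsmul_eq_mul]
    rw [sum_comm, sum_congr rfl k, sum_const, Win.c1, nsmul_eq_mul]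
    ring
  have h2 : (N : ℝ) ^ 2 * ‖∑ W ∈ U, Φ W‖ * T ≤ Bd ^ 2 * (2 * N) * N ^ 2 * ∑ W ∈ X j q N, δ W := by
    have k := congrArg norm h1
    rw [norm_mul, norm_pow, Complex.norm_natCast] at k
    rw [k, mul_sum]
    refine (mul_le_mul_of_nonneg_right (norm_sum_le _ _) T0.le).trans ?_
    rw [sum_mul]
    exact sum_le_sum fun W _ => d2 W
  have h3 : (N : ℝ) ^ (j * q) ≤ 2 * Real.exp Y ^ 2 * ∑ W ∈ X j q N, δ W := by
    rw [Real.exp_neg, mul_assoc, inv_mul_le_iff₀ E0] at h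
    have a1 := mul_le_mul_of_nonneg_left h2 (sq_nonneg (Real.exp Y))
    have a2 := mul_le_mul h hNT N0.le (by positivity)
    have a3 := mul_le_mul_of_nonneg_left a2 (sq_nonneg (N : ℝ))
    refine le_of_mul_le_mul_left ?_ (by positivity : 0 < Bd ^ 2 * (N : ℝ) ^ 3)
    linarith
  have h4 := pow_sum_le_card_mul_sum_pow (s := X j q N) (fun W _ => d0 W) 7
  have h5 := (sum_le_sum (s := X j q N) fun W _ => d1 W).trans (tot ψ U N0 i l l')
  rw [← sum_mul, ← sum_div, ← sum_mul] at h5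
  rw [card_X, mul_pow] at h4
  have e0 : 0 ≤ ens ψ U N i l l' := by unfold ens; positivity
  have S0 : 0 ≤ ∑ W ∈ X j q N, δ W ^ 8 := sum_nonneg fun W _ => pow_nonneg (d0 W) _
  have h6 : ∑ W ∈ X j q N, δ W ^ 8 ≤ 8 * Real.exp Y * (ens ψ U N i l l' * (N : ℝ) ^ (j * q)) := by
    rw [div_mul_eq_mul_div, div_le_iff₀ (by positivity)] at h5
    refine le_of_mul_le_mul_right ((le_of_eq_of_le (by ring) h5).trans
      ((mul_le_mul_of_nonneg_left (mul_le_mul_of_nonneg_left hQN (by norm_num : (0 : ℝ) ≤ 8))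
        (by positivity)).trans_eq (by ring))) (pow_pos N0 5)
  have h7 := (pow_le_pow_left₀ (by positivity) h3 8).trans_eq (mul_pow _ _ _)
  have h8 := h7.trans (mul_le_mul_of_nonneg_left
    (h4.trans (mul_le_mul_of_nonneg_left h6 (by positivity))) (by positivity))
  rw [Real.exp_neg, inv_le_iff_one_le_mul₀' (Real.exp_pos _)]
  refine le_trans ?_ (mul_le_mul_of_nonneg_right (num hY hq) e0)
  refine le_of_mul_le_mul_right (le_of_eq_of_le (one_mul _) (h8.trans_eq ?_))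
    (by positivity : 0 < ((N : ℝ) ^ (j * q)) ^ 8)
  ring

end Vale.Agent.P057L
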