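import Vale.Agent.P057L.Bas

/-! From energy to exact homomorphisms: fibrewise, one class after the other. -/

set_option linter.all false

open Finset
open scoped BigOperators

namespace Vale.Agent.P057L

noncomputable section

namespace ExdA

variable {j q : ℕ} {H : Type} [AddCommGroup H]

theorem Dn_mono {Ω : Finset (Pt j q)} {N : ℕ} {Y Y' : ℝ} (h : Dn Ω N Y) (e : Y ≤ Y') : Dn Ω N Y' :=
  ⟨h.1, (mul_le_mul_of_nonneg_right (Real.exp_le_exp.2 (neg_le_neg e)) (by positivity)).trans h.2⟩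

theorem MHi_mono {φ : Pt j q → H} {Ω E : Finset (Pt j q)} {i : Fin j} (h : MHi φ Ω i) (e : E ⊆ Ω) :
    MHi φ E i := fun W s t hs ht => h W s t (fun a => e (hs a)) fun a => e (ht a)

theorem card_fib (i : Fin j) (X : Finset (Pt j q)) (T : Pt j q → Finset (Vz q))
    (F : Finset (Pt j q)) (h0 : ∀ x ∈ X, x i = 0)
    (h : ∀ x ∈ X, ∀ y ∈ T x, Function.update x i y ∈ F) : ∑ x ∈ X, (T x).card ≤ F.card := by
  rw [← card_sigma]
  refine card_le_card_of_injOn (fun p => Function.update p.1 i p.2)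
    (fun p hp => h _ (mem_sigma.1 hp).1 _ (mem_sigma.1 hp).2) ?_
  rintro ⟨x, y⟩ hp ⟨x', y'⟩ hp' e
  have e' : Function.update x i y = Function.update x' i y' := e
  have e1 : y = y' := by simpa using congrFun e' i
  have e2 : x = x' := funext fun k => by
    by_cases hk : k = i
    · rw [hk, h0 x (mem_sigma.1 hp).1, h0 x' (mem_sigma.1 hp').1]
    · simpa [hk] using congrFun e' k
  subst e1 e2
  rfl

theorem upd (W : Pt j q) (i : Fin j) (a : Vz q) :
    Function.update (Function.update W i 0) i (W i + a) = W + ev i a := by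
  funext k
  by_cases hk : k = i
  · subst hk
    simp [ev]
  · simp [ev, hk]

theorem pw1 {Y : ℝ} (h : 4 ≤ Y) (C : ℕ) : 3 * Y + 1 + (Y + 1) ^ C ≤ Y ^ (2 * C + 4) := by
  have h1 : (Y + 1) ^ C ≤ Y ^ (2 * C + 2) := by
    refine (pow_le_pow_left₀ (by linarith) (show Y + 1 ≤ Y ^ 2 by nlinarith) C).trans ?_
    rw [← pow_mul]
    exact pow_le_pow_right₀ (by linarith) (by omega)
  have h2 : Y ^ 2 ≤ Y ^ (2 * C + 2) := pow_le_pow_right₀ (by linarith) (by omega)
  have h3 : 3 * Y + 1 ≤ Y ^ 2 := by nlinarith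
  have h4 : Y ^ (2 * C + 4) = Y ^ (2 * C + 2) * Y ^ 2 := by ring
  have h5 : 0 ≤ Y ^ (2 * C + 2) := by positivity
  nlinarith

end ExdA

open ExdA

theorem exd (hG : EXG) : EXD := by
  classical
  intro j
  obtain ⟨C, hC⟩ := hG
  refine ⟨2 * C + 4, fun Y q N Q _ ι _ _ φ Ω i hY hq hN hΩ hE => ?_⟩
  have C0 : (0 : ℝ) ≤ C := Nat.cast_nonneg _
  push_cast at hY
  have N0 : (0 : ℝ) < N := Nat.cast_pos.2 hN
  let S : Pt j q → Finset (Vz q) := fun x => (bz q N).filter fun y => Function.update x i y ∈ Ω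
  let g : Pt j q → Vz q → ι → ZMod Q := fun x y => φ (Function.update x i y)
  let e : Pt j q → Finset (Vz q × Vz q × Vz q) := fun x =>
    (S x ×ˢ sz q N ×ˢ sz q N).filter fun p => Pg (g x) (S x) p.1 p.2.1 p.2.2
  have mS : ∀ x y, Function.update x i y ∈ Ω → y ∈ S x := fun x y h => mem_filter.2
    ⟨by simpa using Fintype.mem_piFinset.1 (hΩ h) i, h⟩
  let B : Finset (Pt j q) := (bp j q N).image fun W => Function.update W i 0
  have B0 : ∀ x ∈ B, x i = 0 := fun x hx => by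
    obtain ⟨W, -, rfl⟩ := mem_image.1 hx
    simp
  have cB : (B.card : ℝ) * N ^ q ≤ N ^ (j * q) := by
    have := card_fib i B (fun _ => bz q N) (bp j q N) B0 fun x hx y hy => by
      obtain ⟨W, hW, rfl⟩ := mem_image.1 hx
      refine Fintype.mem_piFinset.2 fun k => ?_
      by_cases hk : k = i
      · subst hk
        simpa using hy
      · simpa [hk] using Fintype.mem_piFinset.1 hW k
    rw [sum_const, smul_eq_mul, (bas.1 q N).1, bas.2.1] at this
    exact_mod_cast this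
  have tot : Real.exp (-Y) * (N : ℝ) ^ (j * q + 2 * q) ≤ ∑ x ∈ B, ((e x).card : ℝ) := by
    refine ((le_div_iff₀ (by positivity)).1 hE).trans ?_
    rw [← Nat.cast_sum, Nat.cast_le, ← card_sigma]
    refine card_le_card_of_injOn (fun p => ⟨Function.update p.1 i 0, (p.1 i, p.2)⟩) ?_ ?_
    · rintro ⟨W, a, b⟩ hp
      obtain ⟨h1, w0, w1, w2, w3, w4⟩ := mem_filter.1 hp
      have u0 : Function.update (Function.update W i 0) i (W i) = W := by simp
      have u3 : Function.update (Function.update W i 0) i (W i + a + b) = W + ev i a + ev i b := by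
        rw [add_assoc, upd, add_assoc]
        simp [ev, Pi.single_add]
      have m0 : W i ∈ S (Function.update W i 0) := mS _ _ (by rw [u0]; exact w0)
      refine mem_sigma.2 ⟨mem_image_of_mem _ (hΩ w0), mem_filter.2 ⟨mem_product.2
        ⟨m0, (mem_product.1 h1).2⟩, m0, mS _ _ (by rw [upd]; exact w1),
        mS _ _ (by rw [upd]; exact w2), mS _ _ (by rw [u3]; exact w3), ?_⟩⟩
      simp only [g]
      rw [u0, u3, upd, upd]
      exact w4
    · rintro ⟨W, a⟩ - ⟨W', a'⟩ - h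
      simp only [Sigma.mk.injEq, heq_eq_eq, Prod.mk.injEq] at h
      refine Prod.ext (funext fun k => ?_) h.2.2
      by_cases hk : k = i
      · rw [hk]
        exact h.2.1
      · simpa [hk] using congrFun h.1 k
  have ce : ∀ x, ((e x).card : ℝ) ≤ 4 ^ q * N ^ (3 * q) := fun x => by
    have h1 : (S x).card ≤ N ^ q := (card_filter_le _ _).trans (bas.1 q N).1.le
    have h2 : (e x).card ≤ N ^ q * ((2 * N) ^ q * (2 * N) ^ q) := by
      refine (card_filter_le _ _).trans ?_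
      rw [card_product, card_product]
      exact Nat.mul_le_mul h1 (Nat.mul_le_mul (bas.1 q N).2 (bas.1 q N).2)
    refine (Nat.cast_le.2 h2).trans_eq ?_
    push_cast
    rw [show (4 : ℝ) = 2 * 2 by norm_num, mul_pow, mul_pow]
    ring
  let G : Finset (Pt j q) := B.filter fun x => Real.exp (-(Y + 1)) * (N : ℝ) ^ (3 * q) ≤ (e x).card
  have ex : ∀ x, ∃ S' : Finset (Vz q), x ∈ G → S' ⊆ S x ∧
      Real.exp (-(Y + 1) ^ C) * (N : ℝ) ^ q ≤ S'.card ∧ R6 (g x) S' := fun x => by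
    by_cases hx : x ∈ G
    · obtain ⟨S', h⟩ := hC (Y + 1) q N Q ι (g x) (S x) (by linarith) (by linarith) hN
        (filter_subset _ _) (by convert (mem_filter.1 hx).2)
      exact ⟨S', fun _ => h⟩
    · exact ⟨∅, fun h => absurd h hx⟩
  choose S' hS' using ex
  have half : Real.exp (-(Y + 1)) ≤ Real.exp (-Y) / 2 := by
    rw [neg_add, Real.exp_add, Real.exp_neg 1, ← div_eq_mul_inv]
    exact div_le_div_of_nonneg_left (Real.exp_pos _).le two_pos
      (by linarith [Real.add_one_le_exp 1])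
  have cG : Real.exp (-(Y + 1)) * (N : ℝ) ^ (j * q) ≤ 4 ^ q * (G.card * N ^ q) := by
    have h1 : ∑ x ∈ B, ((e x).card : ℝ) ≤ G.card * (4 ^ q * N ^ (3 * q)) +
        B.card * (Real.exp (-(Y + 1)) * (N : ℝ) ^ (3 * q)) := by
      rw [← sum_filter_add_sum_filter_not B
        fun x => Real.exp (-(Y + 1)) * (N : ℝ) ^ (3 * q) ≤ (e x).card]
      refine add_le_add ((sum_le_card_nsmul _ _ _ fun x _ => ce x).trans_eq (nsmul_eq_mul _ _))
        ((sum_le_card_nsmul _ _ _ fun x hx => (not_le.1 (mem_filter.1 hx).2).le).trans ?_)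
      rw [nsmul_eq_mul]
      exact mul_le_mul_of_nonneg_right (Nat.cast_le.2 (card_filter_le _ _)) (by positivity)
    have h2 := mul_le_mul_of_nonneg_right cB
      (show 0 ≤ Real.exp (-(Y + 1)) * (N : ℝ) ^ (2 * q) by positivity)
    have h3 := mul_le_mul_of_nonneg_right half
      (show 0 ≤ (N : ℝ) ^ (j * q) * N ^ (2 * q) by positivity)
    have e3 : (N : ℝ) ^ (3 * q) = N ^ q * N ^ (2 * q) := by ring
    rw [pow_add] at tot
    rw [e3] at h1
    refine le_of_mul_le_mul_right ?_ (show 0 < (N : ℝ) ^ (2 * q) by positivity)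
    linarith
  let E : Finset (Pt j q) := Ω.filter fun W =>
    Function.update W i 0 ∈ G ∧ W i ∈ S' (Function.update W i 0)
  refine ⟨E, filter_subset _ _, ⟨(filter_subset _ _).trans hΩ, ?_⟩, fun W s t hs ht h => ?_⟩
  · have h1 := card_fib i G S' E (fun x hx => B0 x (mem_filter.1 hx).1) fun x hx y hy => by
      have u : Function.update (Function.update x i y) i 0 = x := by
        rw [Function.update_idem, ← B0 x (mem_filter.1 hx).1, Function.update_eq_self]
      refine mem_filter.2 ⟨(mem_filter.1 ((hS' x hx).1 hy)).2, ?_⟩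
      rw [u, Function.update_self]
      exact ⟨hx, hy⟩
    have h2 : G.card * (Real.exp (-(Y + 1) ^ C) * (N : ℝ) ^ q) ≤ E.card := by
      rw [← nsmul_eq_mul]
      refine (card_nsmul_le_sum G (fun x => ((S' x).card : ℝ)) _ fun x hx => (hS' x hx).2.1).trans ?_
      exact_mod_cast h1
    have h3 : (4 : ℝ) ^ q ≤ Real.exp (2 * Y) := by
      refine (pow_le_pow_left₀ (by norm_num) (show (4 : ℝ) ≤ Real.exp 2 by
        have := Real.add_one_le_exp 1
        rw [show (2 : ℝ) = 1 + 1 by norm_num, Real.exp_add]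
        nlinarith) q).trans ?_
      rw [← Real.exp_nat_mul]
      exact Real.exp_le_exp.2 (by linarith)
    have h4 : Real.exp (-Y ^ (2 * C + 4)) * Real.exp (2 * Y) ≤
        Real.exp (-(Y + 1) ^ C) * Real.exp (-(Y + 1)) := by
      rw [← Real.exp_add, ← Real.exp_add]
      exact Real.exp_le_exp.2 (by linarith [pw1 (show 4 ≤ Y by linarith) C])
    have h5 := mul_le_mul_of_nonneg_left (cG.trans (mul_le_mul_of_nonneg_right h3
      (by positivity))) (Real.exp_pos (-(Y + 1) ^ C)).le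
    have h6 := mul_le_mul_of_nonneg_right h4 (show 0 ≤ (N : ℝ) ^ (j * q) by positivity)
    have h7 := mul_le_mul_of_nonneg_left h2 (Real.exp_pos (2 * Y)).le
    refine le_of_mul_le_mul_right ?_ (Real.exp_pos (2 * Y))
    linarith
  · have k : ∀ y, Function.update W i y ∈ E →
        Function.update W i 0 ∈ G ∧ y ∈ S' (Function.update W i 0) := fun y hy => by
      simpa using (mem_filter.1 hy).2
    have := (hS' _ (k _ (hs 0)).1).2.2 s t (fun a => (k _ (hs a)).2) (fun a => (k _ (ht a)).2) h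
    simpa [g] using this

theorem seq (hD : EXD) : SEQ := by
  classical
  intro j
  obtain ⟨C, hC⟩ := hD j
  have key : ∀ s : Finset (Fin j), ∃ C : ℕ, ∀ (Y : ℝ) (q N Q A : ℕ) [Fact Q.Prime] (ι : Type)
      [Fintype ι] [DecidableEq ι] (φ : Pt j q → ι → ZMod Q) (Ω : Finset (Pt j q)), (C : ℝ) ≤ Y →
      (q : ℝ) ≤ Y → (A : ℝ) ≤ Y → 1 ≤ N → Dn Ω N Y →
      (∀ E ⊆ Ω, ∀ i, Real.exp (-Y) * ((E.card : ℝ) / (N : ℝ) ^ (j * q)) ^ A ≤ env φ E N i) →
      ∃ E ⊆ Ω, Dn E N (Y ^ C) ∧ ∀ i ∈ s, MHi φ E i := fun s => by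
    induction s using Finset.induction_on with
    | empty =>
      exact ⟨1, fun Y q N Q A _ ι _ _ φ Ω _ _ _ _ h _ =>
        ⟨Ω, Subset.rfl, by rwa [pow_one], fun i hi => absurd hi (notMem_empty i)⟩⟩
    | insert i s _ ih =>
      obtain ⟨D, hD⟩ := ih
      refine ⟨(D + 2) * C + D + C + 2, fun Y q N Q A _ ι _ _ φ Ω hY hq hA hN h he => ?_⟩
      have C0 : (0 : ℝ) ≤ C := Nat.cast_nonneg _
      have D0 : (0 : ℝ) ≤ D := Nat.cast_nonneg _
      have p0 : (0 : ℝ) ≤ (D + 2) * C := by positivity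
      push_cast at hY
      have Y1 : 1 ≤ Y := by linarith
      obtain ⟨E, e1, e2, e3⟩ := hD Y q N Q A ι φ Ω (by linarith) hq hA hN h he
      have y1 : Y ≤ Y ^ (D + 1) := le_self_pow₀ Y1 (by omega)
      have y2 : 2 * Y ^ (D + 1) ≤ Y ^ (D + 2) := by
        rw [pow_succ Y (D + 1), mul_comm]
        exact mul_le_mul_of_nonneg_left (by linarith) (by positivity)
      have y3 : A * Y ^ D ≤ Y ^ (D + 1) := by
        rw [pow_succ']
        exact mul_le_mul_of_nonneg_right hA (by positivity)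
      obtain ⟨E', f1, f2, f3⟩ := hC (Y ^ (D + 2)) q N Q ι φ E i (by linarith) (by linarith) hN e2.1
        (le_trans (by
          have h1 : Real.exp (-Y ^ D) ≤ (E.card : ℝ) / (N : ℝ) ^ (j * q) :=
            (le_div_iff₀ (by positivity)).2 e2.2
          refine le_trans ?_ (mul_le_mul_of_nonneg_left
            (pow_le_pow_left₀ (Real.exp_pos _).le h1 A) (Real.exp_pos _).le)
          rw [← Real.exp_nat_mul, ← Real.exp_add]
          exact Real.exp_le_exp.2 (by linarith)) (he E e1 i))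
      refine ⟨E', f1.trans e1, Dn_mono f2 ?_, fun k hk => ?_⟩
      · rw [← pow_mul]
        exact pow_le_pow_right₀ Y1 (by omega)
      · rcases mem_insert.1 hk with rfl | hk
        exacts [f3, MHi_mono (e3 k hk) f1]
  obtain ⟨D, hD⟩ := key univ
  refine ⟨D, fun Y q N Q A _ ι _ _ φ Ω a b c d e f => ?_⟩
  obtain ⟨E, e1, e2, e3⟩ := hD Y q N Q A ι φ Ω a b c d e f
  exact ⟨E, e1, e2, fun i => e3 i (mem_univ i)⟩

theorem vec (hV : VEN) (hS : SEQ) : VEC := by
  intro j
  obtain ⟨C, hC⟩ := hV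
  obtain ⟨D, hD⟩ := hS j
  refine ⟨(C + 3) * D + C + D + 3, fun Y q N Q _ ι _ _ φ Ω hY q1 hq hN h hP => ?_⟩
  have C0 : (0 : ℝ) ≤ C := Nat.cast_nonneg _
  have D0 : (0 : ℝ) ≤ D := Nat.cast_nonneg _
  have p0 : (0 : ℝ) ≤ (C + 3) * D := by positivity
  push_cast at hY
  have Y1 : 1 ≤ Y := by linarith
  have y1 : Y ≤ Y ^ (C + 3) := le_self_pow₀ Y1 (by omega)
  have y2 : Y ^ C ≤ Y ^ (C + 3) := pow_le_pow_right₀ Y1 (by omega)
  have y3 : Y ^ 3 ≤ Y ^ (C + 3) := pow_le_pow_right₀ Y1 (by omega)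
  have y4 : (((q + 1) ^ 2 : ℕ) : ℝ) ≤ Y ^ 3 := by
    have q0 : (0 : ℝ) ≤ q := Nat.cast_nonneg _
    have Y3 : 3 ≤ Y := by linarith
    push_cast
    refine (pow_le_pow_left₀ (by linarith) (show (q : ℝ) + 1 ≤ Y + 1 by linarith) 2).trans ?_
    nlinarith [mul_nonneg (show 0 ≤ Y - 3 by linarith) (sq_nonneg Y)]
  obtain ⟨E, e1, e2, e3⟩ := hD (Y ^ (C + 3)) q N Q ((q + 1) ^ 2) ι φ Ω (by linarith) (by linarith)
    (by linarith) hN (Dn_mono h y1) fun E hE i =>
      (mul_le_mul_of_nonneg_right (Real.exp_le_exp.2 (neg_le_neg y2)) (by positivity)).trans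
        (hC Y j q N _ φ E i (by linarith) q1 hq hN (hE.trans h.1) fun l l' W a b w0 w1 w2 w3 =>
          hP i l l' W a b (hE w0) (hE w1) (hE w2) (hE w3))
  refine ⟨E, e1, Dn_mono e2 ?_, e3⟩
  rw [← pow_mul]
  exact pow_le_pow_right₀ Y1 (by omega)

end

end Vale.Agent.P057L
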