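import Vale.Agent.P057L.Bas
import Vale.Agent.P057Z.Fr.Core
import Vale.Agent.P057Z.Fr.List
import Vale.Agent.P057Z.Fr.Plu
import Vale.Agent.P057Z.Fr.Csl
import Vale.Agent.P057Z.Fr.Sep
import Vale.Agent.P057Z.Fr.Rnd

/-! From energy to an exact Freiman homomorphism. -/

set_option linter.all false

open Finset
open scoped BigOperators

namespace Vale.Agent.P057L

open Vale.Agent.P057Z Vale.Agent.P057Z.Fr

namespace Exg

open Classical in
/-- the popular values -/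
theorem popular {G H : Type} [AddCommGroup G] [AddCommGroup H] [Fintype H] (g : G → H)
    (S D : Finset G) : ∃ ζ : G → H,
    ((S ×ˢ D ×ˢ D).filter fun p => Pg g S p.1 p.2.1 p.2.2).card ≤
      ((S ×ˢ S).filter fun q => g q.1 + g q.2 = ζ (q.1 + q.2)).card * S.card := by
  let ρ : G → H → Finset (G × G) := fun c v =>
    (S ×ˢ S).filter fun q => q.1 + q.2 = c ∧ g q.1 + g q.2 = v
  have h : ∀ c, ∃ v, ∀ w, (ρ c w).card ≤ (ρ c v).card := fun c => by
    obtain ⟨v, -, hv⟩ := exists_max_image univ (fun w => (ρ c w).card) ⟨0, mem_univ _⟩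
    exact ⟨v, fun w => hv w (mem_univ _)⟩
  choose ζ hζ using h
  refine ⟨ζ, ?_⟩
  have a1 : ((S ×ˢ D ×ˢ D).filter fun p => Pg g S p.1 p.2.1 p.2.2).card ≤
      ((S ×ˢ S).sigma fun p => ρ (p.1 + p.2) (g p.1 + g p.2)).card := by
    refine card_le_card_of_injOn
      (fun p => ⟨(p.1, p.1 + p.2.1 + p.2.2), (p.1 + p.2.1, p.1 + p.2.2)⟩) (fun p hp => ?_) ?_
    · obtain ⟨h1, h2, h3, h4, h5⟩ := (mem_filter.1 (mem_coe.1 hp)).2
      refine mem_coe.2 (mem_sigma.2 ⟨mem_product.2 ⟨h1, h4⟩,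
        mem_filter.2 ⟨mem_product.2 ⟨h2, h3⟩, ?_, h5.symm⟩⟩)
      simp only
      abel
    · rintro ⟨x, a, b⟩ - ⟨x', a', b'⟩ - h
      simp only [Sigma.mk.injEq, Prod.mk.injEq, heq_eq_eq] at h
      obtain ⟨⟨rfl, -⟩, h2, h3⟩ := h
      rw [add_left_cancel h2, add_left_cancel h3]
  rw [card_sigma] at a1
  refine a1.trans ((sum_le_sum fun p _ => hζ _ _).trans ?_)
  rw [← card_sigma, ← card_product]
  refine card_le_card_of_injOn (fun p => (p.2, p.1.1)) (fun p hp => ?_) ?_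
  · obtain ⟨h1, h2⟩ := mem_sigma.1 (mem_coe.1 hp)
    obtain ⟨h3, h4, h5⟩ := mem_filter.1 h2
    exact mem_coe.2 (mem_product.2 ⟨mem_filter.2 ⟨h3, by rw [h4, h5]⟩, (mem_product.1 h1).1⟩)
  · rintro ⟨⟨x, y⟩, q⟩ hp ⟨⟨x', y'⟩, q'⟩ hp' h
    have h1 := (mem_filter.1 (mem_sigma.1 (mem_coe.1 hp)).2).2.1
    have h2 := (mem_filter.1 (mem_sigma.1 (mem_coe.1 hp')).2).2.1
    simp only [Prod.mk.injEq] at h h1 h2
    obtain ⟨rfl, rfl⟩ := h
    rw [add_left_cancel (h1.symm.trans h2)]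

theorem sn_zero {Q m : ℕ} [Fact Q.Prime] {z : V Q m} (h : sn z < 1 / Q) : z = 0 := by
  funext i
  have h1 := (nm_le_sn z i).trans_lt h
  unfold nm at h1
  rw [div_lt_div_iff_of_pos_right Qpos, ← Int.cast_abs] at h1
  have h2 : |(z i).valMinAbs| < 1 := by exact_mod_cast h1
  exact (ZMod.valMinAbs_eq_zero _).1 (Int.abs_lt_one_iff.1 h2)

theorem mem_bz {n N : ℕ} {x : Vz n} : x ∈ bz n N ↔ ∀ i, 0 ≤ x i ∧ x i < N := by
  simp [bz, rg]

theorem mem_sz {n N : ℕ} {x : Vz n} : x ∈ sz n N ↔ ∀ i, -(N : ℤ) < x i ∧ x i < N := by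
  simp [sz, sy]

open Classical in
theorem main {Y : ℝ} {n N Q m : ℕ} [Fact Q.Prime] (g ζ : Vz n → V Q m) (S : Finset (Vz n))
    (hY : 1 ≤ Y) (hn : (n : ℝ) ≤ Y) (hN : 1 ≤ N) (hS : S ⊆ bz n N)
    (h : (N : ℝ) ^ n * N ^ n ≤
      Real.exp Y * ((S ×ˢ S).filter fun q => g q.1 + g q.2 = ζ (q.1 + q.2)).card) :
    ∃ S' ⊆ S, (N : ℝ) ^ n ≤ Real.exp (21000 * Y) * S'.card ∧ R6 g S' := by
  set K := Real.exp Y with hK
  have K1 : 1 ≤ K := Real.one_le_exp (by linarith)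
  have cb : ∀ T : ℕ, ((bz n T).card : ℝ) = (T : ℝ) ^ n := fun T => by
    exact_mod_cast (bas.1 n T).1
  have p1 : (0 : ℝ) < (N : ℝ) ^ n := by positivity
  have n1 : (bz n N).Nonempty := by
    rw [← card_pos]
    exact_mod_cast (cb N ▸ p1 : (0 : ℝ) < (bz n N).card)
  have q0 : (0 : ℝ) < 1 / Q := one_div_pos.2 Qpos
  obtain ⟨A, hA, B, hB, cA, cB, hU, hfew⟩ := list (Vz n) (V Q m) sn sz_sn (bz n N) (bz n N) g g ζ
    (fun a b => a ∈ S ∧ b ∈ S ∧ g a + g b = ζ (a + b)) K 0 K1 n1 n1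
    (fun a b k => by rw [k.2.2, sub_self, sz_sn.zero]) (by
      rw [cb]
      refine h.trans (mul_le_mul_of_nonneg_left (Nat.cast_le.2 (card_le_card fun q hq => ?_))
        (by positivity))
      obtain ⟨k1, k2⟩ := mem_filter.1 hq
      obtain ⟨k3, k4⟩ := mem_product.1 k1
      exact mem_filter.2 ⟨mem_product.2 ⟨hS k3, hS k4⟩, k3, k4, k2⟩)
  rw [cb] at cA cB
  have pA : (0 : ℝ) < A.card := num_pos p1 (Nat.cast_nonneg _) cA
  have pB : (0 : ℝ) < B.card := num_pos p1 (Nat.cast_nonneg _) cB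
  have X1 : ∀ a ∈ bz n N, ∀ b ∈ bz n N, a + b ∈ bz n (2 * N) := fun a ha b hb =>
    mem_bz.2 fun i => by
      have := mem_bz.1 ha i
      have := mem_bz.1 hb i
      simp only [Pi.add_apply]
      omega
  have cX : ((bz n (2 * N)).card : ℝ) = 2 ^ n * N ^ n := by rw [cb]; push_cast; rw [mul_pow]
  have cZ : ((sz n N).card : ℝ) ≤ 2 ^ n * N ^ n := by
    rw [← mul_pow]
    exact_mod_cast (bas.1 n N).2
  have e7 : (7 : ℝ) ^ n * K ≤ Real.exp (3 * Y) := by
    have a1 : (7 : ℝ) ≤ Real.exp 2 := by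
      rw [show (2 : ℝ) = 1 + 1 by norm_num, Real.exp_add]
      nlinarith [Real.exp_one_gt_d9]
    calc (7 : ℝ) ^ n * K ≤ Real.exp 2 ^ n * K := by gcongr
      _ = Real.exp (n * 2 + Y) := by rw [← Real.exp_nat_mul, Real.exp_add]
      _ ≤ _ := Real.exp_le_exp.2 (by linarith)
  set K' := Real.exp (3 * Y) with hK'
  have f0 : ∀ c, Few sn (3072 * K ^ 5 * 2 ^ n * 2 ^ n) 0 (Fib2 g g A B c) := fun c => by
    refine (hfew B subset_rfl _ (sz n N) X1 (fun b' hb' b hb => mem_sz.2 fun i => by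
      have := mem_bz.1 hb' i
      have := mem_bz.1 (hB hb) i
      simp only [Pi.sub_apply]
      omega) c).mono ?_ (by norm_num) fun _ k => k
    rw [cb N, cX, div_le_iff₀ (by positivity)]
    calc _ ≤ 3072 * K ^ 5 * (2 ^ n * N ^ n) * (2 ^ n * N ^ n) := by gcongr
      _ = _ := by ring
  have f1 : ∀ c, Few sn ((294912 * K' ^ 6) ^ 7) 0 (Fib g B (6 + 1) c) := fun c => by
    refine (plu (Vz n) (V Q m) sn sz_sn A B _ {0} {0} g g _ 0 0 7
      (by rw [← card_pos]; exact_mod_cast pA) (singleton_nonempty _) le_rfl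
      (fun a ha b hb => X1 a (hA ha) b (hB hb))
      (fun u hu => by rw [mem_singleton.1 hu, sz_sn.zero])
      (fun u hu y hy => by rwa [sn_zero (hy.trans_lt q0), add_zero])
      (by simp) f0 c).mono (pow_le_pow_left₀ (by positivity) ?_ 7) (by norm_num) fun _ k => k
    rw [div_le_iff₀ pA, cX]
    have a1 : (2 : ℝ) ^ n ≤ 7 ^ n := by gcongr; norm_num
    have a2 : (1 : ℝ) ≤ 7 ^ n := one_le_pow₀ (by norm_num)
    calc 2 * (3072 * K ^ 5 * 2 ^ n * 2 ^ n) * (2 ^ n * N ^ n)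
        ≤ 2 * (3072 * K ^ 5 * 7 ^ n * 7 ^ n) * (7 ^ n * (6 * K * A.card)) * (7 ^ n) ^ 3 :=
          le_trans (by gcongr) (le_mul_of_one_le_right (by positivity) (one_le_pow₀ a2))
      _ = 36864 * (7 ^ n * K) ^ 6 * A.card := by ring
      _ ≤ _ := by gcongr; norm_num
  have f2 : Few sn (Real.exp (270 * (3 * Y))) 0 (Rel g B 6) := by
    refine (csl (Vz n) (V Q m) sn sz_sn B B (bz n (7 * N)) g _ 0 6 subset_rfl
      (by rw [← card_pos]; exact_mod_cast pB) le_rfl (fun b hb s hs => mem_bz.2 fun i => ?_)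
      f1).mono (le_trans ?_ (num_M2 _ (by linarith))) (by norm_num) fun _ k => k
    · have := mem_bz.1 (hB hb) i
      have a1 := fun l => mem_bz.1 (hB (hs l)) i
      have := a1 0
      have := a1 1
      have := a1 2
      have := a1 3
      have := a1 4
      have := a1 5
      simp only [Pi.add_apply, Fin.sum_univ_six]
      omega
    · rw [div_le_iff₀ pB, cb, mul_assoc]
      refine mul_le_mul_of_nonneg_left ?_ (by positivity)
      push_cast
      rw [mul_pow]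
      calc (7 : ℝ) ^ n * N ^ n ≤ 7 ^ n * (4 * K * B.card) := by gcongr
        _ = 4 * (7 ^ n * K) * B.card := by ring
        _ ≤ _ := by gcongr; norm_num
  obtain ⟨t, t1, t2⟩ := num_t (3 * Y) (by linarith)
  obtain ⟨S', s1, s2, s3⟩ := rnd sep Q m (Vz n) g B _ 0 (Q + 8) t (by omega) le_rfl (by norm_num)
    t1 f2
  refine ⟨S', fun s hs => (hU s (s1 hs)).elim fun _ k => k.2.1, ?_, fun s u hs hu k => ?_⟩
  · have a1 : (B.card : ℝ) ≤ 1200 ^ t * S'.card := by exact_mod_cast s2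
    have a2 : K ≤ K' := Real.exp_le_exp.2 (by linarith)
    calc (N : ℝ) ^ n ≤ 16 * K' * (1200 ^ t * S'.card) := cB.trans (by gcongr; norm_num)
      _ = 16 * K' * 1200 ^ t * S'.card := by ring
      _ ≤ _ := mul_le_mul_of_nonneg_right (t2.trans_eq (by ring_nf)) (by positivity)
  · refine sub_eq_zero.1 (sn_zero ((s3 _ ⟨s, u, hs, hu, k, rfl⟩).trans_lt ?_))
    rw [add_zero]
    exact one_div_lt_one_div_of_lt Qpos (by push_cast; linarith)

end Exg

theorem exg : EXG := by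
  classical
  refine ⟨21000, fun Y n N Q _ ι _ _ g S hY hn hN hS h => ?_⟩
  have hY' : (21000 : ℝ) ≤ Y := by exact_mod_cast hY
  let e := Fintype.equivFin ι
  obtain ⟨ζ, hζ⟩ := Exg.popular g S (sz n N)
  have cS : (S.card : ℝ) ≤ (N : ℝ) ^ n := by
    exact_mod_cast (card_le_card hS).trans_eq (bas.1 n N).1
  obtain ⟨S', s1, s2, s3⟩ := Exg.main (Y := Y) (fun x i => g x (e.symm i))
    (fun x i => ζ x (e.symm i)) S (by linarith) hn hN hS (by
      have a1 := h.trans (Nat.cast_le.2 (by convert hζ))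
      rw [Nat.cast_mul, Real.exp_neg, inv_mul_le_iff₀ (Real.exp_pos _),
        show 3 * n = n + n + n by ring, pow_add, pow_add, ← mul_assoc] at a1
      refine le_of_mul_le_mul_right (a1.trans ?_) (show 0 < (N : ℝ) ^ n by positivity)
      gcongr with q
      exact fun k => funext fun i => congrFun k (e.symm i))
  refine ⟨S', s1, ?_, fun s t hs ht k => funext fun i => ?_⟩
  · rw [Real.exp_neg, inv_mul_le_iff₀ (Real.exp_pos _)]
    refine s2.trans (mul_le_mul_of_nonneg_right (Real.exp_le_exp.2 ?_) (by positivity))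
    exact le_trans (by nlinarith) (pow_le_pow_right₀ (by linarith) (show 2 ≤ 21000 by norm_num))
  · simpa using congrFun (s3 s t hs ht k) (e i)

end Vale.Agent.P057L
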