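import Vale.Agent.P057L.Num

/-! Factorisation through the intersection of the spans. -/

set_option linter.all false

open Finset
open scoped BigOperators

namespace Vale.Agent.P057L

open Vale.Agent.P057Z

noncomputable section

/-- an integral multiple of the projection along the span -/
theorem fact_proj (h : CRQ) {Y : ℝ} {R : ℕ} {α : Type} [Fintype α] (f : α → Fin R → ℤ)
    (hY : 4 ≤ Y) (hR : (R : ℝ) ≤ Y) (hf : ∀ a r, |(f a r : ℝ)| ≤ Real.exp Y) :
    ∃ (D : ℤ) (v : Fin R → Fin R → ℤ), D ≠ 0 ∧ |(D : ℝ)| ≤ Real.exp (Y ^ 3) ∧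
      (∀ l r, |(v l r : ℝ)| ≤ Real.exp (Y ^ 3)) ∧ (∀ a l, f a ⬝ᵥ v l = 0) ∧
      ∀ x : Fin R → ℤ, D • x - (fun l => v l ⬝ᵥ x) ∈ Submodule.span ℤ (Set.range f) := by
  have e1 : 1 ≤ Real.exp Y := Real.one_le_exp (by linarith)
  have e2 : Y ≤ Real.exp Y := by linarith [Real.add_one_le_exp Y]
  obtain ⟨t, sel, w, D, ht, D0, hD, hw, -, hs⟩ := h (Fin R) α f ⌊Real.exp Y⌋₊
    (Nat.le_floor (by simpa using e1)) (fun a r => by
      have h1 : ((f a r).natAbs : ℝ) ≤ Real.exp Y := by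
        rw [Nat.cast_natAbs, Int.cast_abs]
        exact hf a r
      have h2 := Nat.le_floor h1
      rw [← Int.natCast_natAbs]
      exact_mod_cast h2)
  rw [Fintype.card_fin] at ht hD hw
  have hF : ((R.factorial * ⌊Real.exp Y⌋₊ ^ R : ℕ) : ℝ) ≤ Real.exp (2 * Y ^ 2) := by
    have a : (R.factorial : ℝ) ≤ (R : ℝ) ^ R := by exact_mod_cast Nat.factorial_le_pow R
    have b : (R : ℝ) ^ R ≤ Real.exp Y ^ R := pow_le_pow_left₀ (by positivity) (hR.trans e2) R
    have c : (⌊Real.exp Y⌋₊ : ℝ) ^ R ≤ Real.exp Y ^ R :=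
      pow_le_pow_left₀ (by positivity) (Nat.floor_le (by positivity)) R
    have d : Real.exp Y ^ R ≤ Real.exp (Y ^ 2) := by
      rw [← Real.exp_nat_mul]
      exact Real.exp_le_exp.2 (by nlinarith)
    rw [Nat.cast_mul, Nat.cast_pow, two_mul, Real.exp_add]
    exact mul_le_mul (a.trans (b.trans d)) (c.trans d) (by positivity) (by positivity)
  have cst : ∀ z : ℤ, |z| ≤ ((R.factorial * ⌊Real.exp Y⌋₊ ^ R : ℕ) : ℤ) →
      |(z : ℝ)| ≤ Real.exp (2 * Y ^ 2) := by
    intro z hz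
    refine le_trans ?_ hF
    rw [← Int.cast_abs, ← Int.cast_natCast]
    exact Int.cast_le.2 hz
  have key : ∀ (x : Fin R → ℤ) (l : Fin R),
      (D • Pi.single l (1 : ℤ) - ∑ b, f (sel b) l • w b) ⬝ᵥ x =
        D * x l - ∑ b, (w b ⬝ᵥ x) * f (sel b) l := by
    intro x l
    rw [sub_dotProduct, smul_dotProduct, single_dotProduct, sum_dotProduct, one_mul, smul_eq_mul]
    congr 1
    exact sum_congr rfl fun b _ => by rw [smul_dotProduct, smul_eq_mul, mul_comm]
  have h3 : 2 * Y ^ 2 + (2 * Y + 1) ≤ Y ^ 3 := by nlinarith [sq_nonneg Y]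
  refine ⟨D, fun l => D • Pi.single l (1 : ℤ) - ∑ b, f (sel b) l • w b, D0,
    (cst D hD).trans (Real.exp_le_exp.2 (by linarith)), fun l r => ?_, fun a l => ?_, fun x => ?_⟩
  · have a : |((D • Pi.single l (1 : ℤ) : Fin R → ℤ) r : ℝ)| ≤ Real.exp (2 * Y ^ 2) := by
      rw [Pi.smul_apply, smul_eq_mul, Pi.single_apply]
      split_ifs
      · rw [mul_one]
        exact cst D hD
      · simp [Real.exp_nonneg]
    have b : |((∑ b, f (sel b) l • w b : Fin R → ℤ) r : ℝ)| ≤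
        Y * (Real.exp Y * Real.exp (2 * Y ^ 2)) := by
      rw [Finset.sum_apply, Int.cast_sum]
      refine (abs_sum_le_sum_abs _ _).trans ((sum_le_card_nsmul _ _
        (Real.exp Y * Real.exp (2 * Y ^ 2)) fun b _ => ?_).trans ?_)
      · rw [Pi.smul_apply, smul_eq_mul, Int.cast_mul, abs_mul]
        exact mul_le_mul (hf _ _) (cst _ (hw b r)) (abs_nonneg _) (by positivity)
      · rw [card_univ, Fintype.card_fin, nsmul_eq_mul]
        refine mul_le_mul_of_nonneg_right (le_trans ?_ hR) (by positivity)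
        exact_mod_cast ht
    show |(((D • Pi.single l (1 : ℤ) - ∑ b, f (sel b) l • w b : Fin R → ℤ) r : ℤ) : ℝ)| ≤ _
    rw [Pi.sub_apply, Int.cast_sub]
    refine (abs_sub _ _).trans ((add_le_add a b).trans
      (le_trans ?_ (Real.exp_le_exp.2 h3)))
    have c : 1 + Y * Real.exp Y ≤ Real.exp (2 * Y + 1) := by
      rw [two_mul, Real.exp_add, Real.exp_add]
      have : (2 : ℝ) ≤ Real.exp 1 := by linarith [Real.add_one_le_exp (1 : ℝ)]
      nlinarith [mul_le_mul_of_nonneg_right e2 (by positivity : 0 ≤ Real.exp Y),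
        mul_le_mul e1 e1 zero_le_one (by positivity : 0 ≤ Real.exp Y)]
    rw [Real.exp_add]
    nlinarith [Real.exp_pos (2 * Y ^ 2)]
  · rw [dotProduct_comm, key]
    have := congrFun (hs a) l
    rw [Pi.smul_apply, Finset.sum_apply, smul_eq_mul] at this
    rw [this, sub_eq_zero]
    rfl
  · have e : D • x - (fun l => (D • Pi.single l (1 : ℤ) - ∑ b, f (sel b) l • w b) ⬝ᵥ x) =
        ∑ b, (w b ⬝ᵥ x) • f (sel b) := by
      funext l
      rw [Pi.sub_apply, key, Pi.smul_apply, smul_eq_mul, sub_sub_cancel, Finset.sum_apply]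
      rfl
    rw [e]
    exact Submodule.sum_mem _ fun b _ => Submodule.smul_mem _ _ (Submodule.subset_span ⟨_, rfl⟩)

theorem fact_unit {Q : ℕ} [Fact Q.Prime] {D : ℤ} (D0 : D ≠ 0) (h : |(D : ℝ)| < Q) :
    (D : ZMod Q) ≠ 0 := by
  intro e
  rw [ZMod.intCast_zmod_eq_zero_iff_dvd] at e
  have h1 : |D| < (Q : ℤ) := by
    rw [← Int.cast_abs, ← Int.cast_natCast] at h
    exact Int.cast_lt.1 h
  exact D0 (Int.eq_zero_of_abs_lt_dvd e h1)

theorem fact (h : CRQ) : FACT := by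
  intro j
  refine ⟨j + 10, fun Y R α _ β hY hR hβ => ?_⟩
  have j0 : (0 : ℝ) ≤ j := by positivity
  have hY' : (j : ℝ) + 10 ≤ Y := by exact_mod_cast hY
  have Y1 : 1 ≤ Y := by linarith
  choose D v D0 hD hv ho hs using fun i => fact_proj h (β i) (by linarith) hR (hβ i)
  have Y3 : Y ≤ Y ^ 3 := le_pw Y1 (by norm_num)
  obtain ⟨E, u, E0, hE, hu, huo, hus⟩ := fact_proj h (fun p : Fin j × Fin R => v p.1 p.2)
    (Y := Y ^ 3) (by linarith) (hR.trans Y3) (fun p r => hv p.1 p.2 r)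
  rw [← pow_mul] at hE
  simp only [← pow_mul] at hu
  have p1 : Y ^ 3 ≤ Y ^ (3 * 3) := pw_le Y1 (by norm_num)
  have p2 : (j : ℝ) * Y ^ 3 ≤ Y ^ (3 * 3) :=
    (mul_pw_le (by linarith) (by linarith) 3).trans (pw_le Y1 (by norm_num))
  have p3 : 2 * Y ^ (3 * 3) ≤ Y ^ (j + 10) :=
    (mul_pw_le (by linarith) (by linarith) _).trans (pw_le Y1 (by omega))
  have p4 : 0 < Y ^ (3 * 3) := by positivity
  have hP : |((∏ i, D i : ℤ) : ℝ)| ≤ Real.exp (Y ^ (3 * 3)) := by
    rw [Int.cast_prod, abs_prod]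
    refine (prod_le_prod (fun i _ => abs_nonneg _) fun i _ => hD i).trans ?_
    rw [prod_const, card_univ, Fintype.card_fin, ← Real.exp_nat_mul]
    exact Real.exp_le_exp.2 p2
  refine ⟨fun s => (∏ i, D i) • u s, fun s r => ?_, fun i s => ?_, fun Q _ ι c hQ hc => ?_⟩
  · show |(((∏ i, D i) * u s r : ℤ) : ℝ)| ≤ _
    rw [Int.cast_mul, abs_mul]
    refine (mul_le_mul hP (hu s r) (abs_nonneg _) (by positivity)).trans ?_
    rw [← Real.exp_add]
    exact Real.exp_le_exp.2 (by linarith)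
  · have a := hs i (u s)
    have b : (fun l => v i l ⬝ᵥ u s) = 0 := funext fun l => huo (i, l) s
    rw [b, sub_zero] at a
    have c : (∏ i, D i) • u s ∈ Submodule.span ℤ (Set.range (β i)) := by
      rw [← Finset.prod_erase_mul _ _ (mem_univ i), mul_smul]
      exact Submodule.smul_mem _ _ a
    obtain ⟨n, hn⟩ := (Submodule.mem_span_range_iff_exists_fun ℤ).1 c
    exact ⟨n, hn.symm⟩
  · have lt : Real.exp (Y ^ (3 * 3)) < Q := (Real.exp_lt_exp.2 (by linarith)).trans_le hQ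
    have uE : (E : ZMod Q) ≠ 0 := fact_unit E0 (hE.trans_lt lt)
    have uP : ((∏ i, D i : ℤ) : ZMod Q) ≠ 0 :=
      fact_unit (prod_ne_zero_iff.2 fun i _ => D0 i) (hP.trans_lt lt)
    have zl : ∀ x : Fin R → ℤ, zd x c = Fintype.linearCombination ℤ c x := fun x =>
      (Fintype.linearCombination_apply ℤ c x).symm
    have ker : Submodule.span ℤ (Set.range fun p : Fin j × Fin R => v p.1 p.2) ≤
        LinearMap.ker (Fintype.linearCombination ℤ c) := by
      rw [Submodule.span_le]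
      rintro _ ⟨p, rfl⟩
      have := hc p.1 (v p.1 p.2) (fun r => (hv p.1 p.2 r).trans
        (Real.exp_le_exp.2 (by linarith))) (fun a => ho p.1 a p.2)
      rwa [zl] at this
    refine ⟨fun s => (((∏ i, D i : ℤ) : ZMod Q) * E)⁻¹ • c s, fun m => ?_⟩
    have a := ker (hus m)
    rw [LinearMap.mem_ker, map_sub, map_smul, sub_eq_zero, ← zl, ← zl] at a
    have b : zd (fun s => ((∏ i, D i) • u s) ⬝ᵥ m)
        (fun s => (((∏ i, D i : ℤ) : ZMod Q) * E)⁻¹ • c s) =
        (((∏ i, D i : ℤ) : ZMod Q) * E)⁻¹ • (∏ i, D i) • zd (fun s => u s ⬝ᵥ m) c := by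
      unfold zd
      rw [smul_sum, smul_sum]
      refine sum_congr rfl fun s _ => ?_
      beta_reduce
      rw [smul_dotProduct, smul_eq_mul, mul_smul, smul_comm (u s ⬝ᵥ m), smul_comm (∏ i, D i)]
    rw [b, ← a, ← Int.cast_smul_eq_zsmul (ZMod Q) E,
      ← Int.cast_smul_eq_zsmul (ZMod Q) (∏ i, D i), smul_smul, smul_smul, mul_assoc,
      inv_mul_cancel₀ (mul_ne_zero uP uE), one_smul]

end

end Vale.Agent.P057L
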