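import Vale.Agent.P057L.Defs

/-! The index of the lattice of small points, and linearity of locally additive maps. -/

set_option linter.all false

open Finset
open scoped BigOperators

namespace Vale.Agent.P057L

open Vale.Agent.P057Z

noncomputable section

namespace Idx

variable {D D' : Type} [Fintype D] {A : D' → D → ℝ}

/-- the real vector -/
def cr (D : Type) : (D → ℤ) →+ D → ℝ where
  toFun w := fun d => (w d : ℝ)
  map_zero' := by ext d; simp
  map_add' x y := by ext d; simp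

/-- one row of the matrix -/
def row (A : D' → D → ℝ) (r : D') : (D → ℝ) →ₗ[ℝ] ℝ where
  toFun v := ∑ d, A r d * v d
  map_add' x y := by simp [mul_add, sum_add_distrib]
  map_smul' a x := by
    simp only [Pi.smul_apply, smul_eq_mul, RingHom.id_apply, mul_sum]
    exact sum_congr rfl fun d _ => by ring

theorem sa {ρ : ℝ} {v : D → ℝ} : Sa A ρ v ↔ ∀ r, |row A r v| ≤ ρ := Iff.rfl

theorem coef (S : Set (D → ℤ)) {v : D → ℤ} {n : ℕ} (n1 : 1 ≤ n)
    (h : (n : ℤ) • v ∈ Submodule.span ℤ S) :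
    ∃ (t : ℕ) (w : Fin t → D → ℤ) (a : Fin t → ℝ), t ≤ Fintype.card D ∧ (∀ j, w j ∈ S) ∧
      cr D v = ∑ j, a j • cr D (w j) := by
  have h1 : ∀ x ∈ Submodule.span ℤ S, cr D x ∈ Submodule.span ℝ (cr D '' S) := by
    intro x hx
    induction hx using Submodule.span_induction with
    | mem x hx => exact Submodule.subset_span ⟨x, hx, rfl⟩
    | zero => rw [map_zero]; exact zero_mem _
    | add x y _ _ a b => rw [map_add]; exact add_mem a b
    | smul a x _ b => rw [map_zsmul]; exact zsmul_mem b a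
  have h2 : cr D v ∈ Submodule.span ℝ (cr D '' S) := by
    have := Submodule.smul_mem _ ((n : ℝ)⁻¹) (h1 _ h)
    have n0 : (n : ℝ) ≠ 0 := by exact_mod_cast (by omega : n ≠ 0)
    rwa [map_zsmul, natCast_zsmul, ← Nat.cast_smul_eq_nsmul ℝ, smul_smul, inv_mul_cancel₀ n0,
      one_smul] at this
  obtain ⟨f, f1, f2, -⟩ := Submodule.exists_fun_fin_finrank_span_eq ℝ (cr D '' S)
  rw [← f2, Submodule.mem_span_range_iff_exists_fun] at h2
  obtain ⟨a, ha⟩ := h2
  choose w w1 w2 using f1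
  refine ⟨_, w, a, ?_, w1, ?_⟩
  · exact (Submodule.finrank_le _).trans (Module.finrank_fintype_fun_eq_card ℝ).le
  · rw [← ha]
    exact sum_congr rfl fun j _ => by rw [w2]

end Idx

open Idx in
theorem idx : IDX := by
  intro D D' _ _ A ρ v n ρ0 n1 h
  classical
  obtain ⟨t, w, a, td, wS, hv⟩ := coef _ n1 h
  set d := Fintype.card D with hd
  set u : ℕ → D → ℤ := fun i => (i : ℤ) • v - ∑ j, ⌊(i : ℝ) * a j⌋ • w j with hu
  have u1 : ∀ i r, |row A r (cr D (u i))| ≤ d * ρ := by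
    intro i r
    have e : row A r (cr D (u i)) = ∑ j, Int.fract ((i : ℝ) * a j) * row A r (cr D (w j)) := by
      rw [hu]
      simp only [map_sub, map_zsmul, map_sum, hv, map_smul, smul_sum]
      simp only [smul_eq_mul, zsmul_eq_mul,
        Int.cast_natCast, mul_sum, Int.fract, sub_mul, sum_sub_distrib, mul_assoc]
    rw [e]
    refine (abs_sum_le_sum_abs _ _).trans ?_
    refine (sum_le_sum (g := fun _ => ρ) fun j _ => ?_).trans ?_
    · rw [abs_mul, abs_of_nonneg (Int.fract_nonneg _)]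
      exact (mul_le_of_le_one_left (abs_nonneg _) (Int.fract_lt_one _).le).trans (wS j r)
    · rw [sum_const, card_univ, Fintype.card_fin, nsmul_eq_mul]
      exact mul_le_mul_of_nonneg_right (by exact_mod_cast td) ρ0.le
  obtain ⟨i, hi, i', hi', ne, e⟩ := exists_ne_map_eq_of_card_lt_of_maps_to
    (s := range ((2 * d + 3) ^ Fintype.card D' + 1))
    (t := Fintype.piFinset fun _ : D' => Icc (-(d : ℤ)) d)
    (f := fun i r => ⌊row A r (cr D (u i)) / ρ⌋) (by
      rw [Fintype.card_piFinset, prod_const, card_univ, card_range, Int.card_Icc]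
      refine Nat.lt_succ_of_le (Nat.pow_le_pow_left (by omega) _))
    (fun i _ => by
      rw [mem_coe, Fintype.mem_piFinset]
      intro r
      obtain ⟨k1, k2⟩ := abs_le.1 (u1 i r)
      rw [mem_Icc]
      constructor
      · rw [Int.le_floor, le_div_iff₀ ρ0]
        push_cast
        linarith
      · have : row A r (cr D (u i)) / ρ ≤ ((d : ℤ) : ℝ) := by
          rw [div_le_iff₀ ρ0]
          push_cast
          linarith
        exact Int.floor_intCast (R := ℝ) (d : ℤ) ▸ Int.floor_mono this)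
  wlog lt : i < i' generalizing i i'
  · exact this i' hi' i hi ne.symm e.symm (by omega)
  refine ⟨i' - i, by omega, by rw [mem_range] at hi'; omega, ?_⟩
  have m1 : u i' - u i ∈ Submodule.span ℤ {w : D → ℤ | Sa A ρ fun d => (w d : ℝ)} := by
    refine Submodule.subset_span fun r => ?_
    have k := Int.abs_sub_lt_one_of_floor_eq_floor (congrFun e r).symm
    rw [← sub_div, abs_div, abs_of_pos ρ0, div_lt_one ρ0, ← map_sub, ← map_sub] at k
    exact k.le
  have m2 : ∀ i : ℕ, ∑ j, ⌊(i : ℝ) * a j⌋ • w j ∈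
      Submodule.span ℤ {w : D → ℤ | Sa A ρ fun d => (w d : ℝ)} := fun i =>
    Submodule.sum_mem _ fun j _ => Submodule.smul_mem _ _ (Submodule.subset_span (wS j))
  have e2 : ((i' - i : ℕ) : ℤ) • v =
      u i' - u i + ∑ j, ⌊(i' : ℝ) * a j⌋ • w j - ∑ j, ⌊(i : ℝ) * a j⌋ • w j := by
    rw [Nat.cast_sub lt.le, sub_smul]
    simp only [hu]
    abel
  rw [e2]
  exact sub_mem (add_mem m1 (m2 i')) (m2 i)

namespace Idx

variable {D D' : Type} [Fintype D] {A : D' → D → ℝ} {H : Type} [AddCommGroup H]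

theorem ext_graph {K V W : Type} [Field K] [AddCommGroup V] [Module K V] [AddCommGroup W]
    [Module K W] (g : Submodule K (V × W)) (hg : ∀ p ∈ g, p.1 = 0 → p.2 = 0) :
    ∃ T : V →ₗ[K] W, ∀ p ∈ g, T p.1 = p.2 := by
  obtain ⟨L, hL⟩ := LinearMap.exists_leftInverse_of_injective
    ((LinearMap.fst K V W).comp g.subtype) (LinearMap.ker_eq_bot'.2 fun p hp =>
      Subtype.ext (Prod.ext hp (hg p p.2 hp)))
  refine ⟨((LinearMap.snd K V W).comp g.subtype).comp L, fun p hp => ?_⟩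
  have : L p.1 = ⟨p, hp⟩ := LinearMap.congr_fun hL ⟨p, hp⟩
  show (L p.1 : V × W).2 = p.2
  rw [this]

theorem rel (hS : STZ) {ρ : ℝ} {Φ : (D → ℤ) → H} (ρ0 : 0 < ρ)
    (hΦ : ∀ a b : D → ℤ, Sa A ρ (cr D a) → Sa A ρ (cr D b) → Sa A ρ (cr D (a + b)) →
      Φ (a + b) = Φ a + Φ b) {y : H}
    (hy : ((0, y) : (D → ℤ) × H) ∈ Submodule.span ℤ
      {p : (D → ℤ) × H | Sa A (ρ / (Fintype.card D + 1)) (cr D p.1) ∧ p.2 = Φ p.1}) : y = 0 := by
  set d : ℝ := (Fintype.card D : ℝ) with hd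
  have d0 : 0 ≤ d := Nat.cast_nonneg _
  have r0 : 0 ≤ ρ / (d + 1) := by positivity
  have r1 : ρ / (d + 1) ≤ ρ := div_le_self ρ0.le (by linarith)
  have r2 : d * (ρ / (d + 1)) ≤ ρ := by
    rw [← mul_div_assoc, div_le_iff₀ (by linarith)]
    nlinarith
  have mono : ∀ {x y : ℝ} {v : D → ℝ}, x ≤ y → Sa A x v → Sa A y v := fun k h r => (h r).trans k
  have s0 : Sa A ρ (cr D 0) := sa.2 fun r => by rw [map_zero, map_zero, abs_zero]; exact ρ0.le
  have z0 : Φ 0 = 0 := by
    have := hΦ 0 0 s0 s0 (by rwa [add_zero])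
    rw [add_zero] at this
    exact left_eq_add.1 this
  have ng : ∀ {x : ℝ} {w : D → ℤ}, Sa A x (cr D w) → Sa A x (cr D (-w)) := fun h =>
    sa.2 fun r => by rw [map_neg, map_neg, abs_neg]; exact h r
  have h1 : ((0, y) : (D → ℤ) × H) ∈ (AddSubgroup.closure
      {p : (D → ℤ) × H | Sa A (ρ / (d + 1)) (cr D p.1) ∧ p.2 = Φ p.1}).toAddSubmonoid := by
    rw [← Submodule.span_int_eq_addSubgroupClosure]
    exact hy
  rw [AddSubgroup.closure_toAddSubmonoid] at h1
  obtain ⟨l, l1, l2⟩ := AddSubmonoid.exists_list_of_mem_closure h1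
  have l3 : ∀ p ∈ l, Sa A (ρ / (d + 1)) (cr D p.1) ∧ p.2 = Φ p.1 := by
    intro p hp
    rcases l1 p hp with k | k
    · exact k
    · have k1 : Sa A (ρ / (d + 1)) (cr D (-p.1)) := k.1
      have k2 : -p.2 = Φ (-p.1) := k.2
      have k3 := ng k1
      rw [neg_neg] at k3
      refine ⟨k3, ?_⟩
      have := hΦ p.1 (-p.1) (mono r1 k3) (mono r1 k1) (by rwa [add_neg_cancel])
      rw [add_neg_cancel, z0, ← k2] at this
      exact (add_neg_eq_zero.1 this.symm).symm
  obtain ⟨n, p, p1, p2⟩ : ∃ (n : ℕ) (p : Fin n → (D → ℤ) × H),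
      (∀ i, Sa A (ρ / (d + 1)) (cr D (p i).1) ∧ (p i).2 = Φ (p i).1) ∧ ∑ i, p i = (0, y) :=
    ⟨l.length, fun i => l[i.1], fun i => l3 _ (List.getElem_mem _), by
      rw [Fin.sum_univ_getElem, l2]⟩
  have q1 : ∑ i, (p i).1 = 0 := by rw [← Prod.fst_sum, p2]
  have q2 : ∑ i, Φ (p i).1 = y := by
    rw [← sum_congr rfl fun i _ => (p1 i).2, ← Prod.snd_sum, p2]
  obtain ⟨σ, hσ⟩ := hS D D' A _ n (fun i => cr D (p i).1) r0 (fun i => (p1 i).1)
    (by rw [← map_sum, q1, map_zero])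
  have par : ∀ k : ℕ, Sa A ρ (cr D (∑ i ∈ univ.filter (fun i : Fin n => (i : ℕ) < k),
      (p (σ i)).1)) := fun k => by
    rw [map_sum]
    exact mono r2 (hσ k)
  have ind : ∀ k : ℕ, k ≤ n → Φ (∑ i ∈ univ.filter (fun i : Fin n => (i : ℕ) < k), (p (σ i)).1) =
      ∑ i ∈ univ.filter (fun i : Fin n => (i : ℕ) < k), Φ (p (σ i)).1 := by
    intro k
    induction k with
    | zero => intro _; simp [z0]
    | succ k ih =>
      intro hk
      have e : univ.filter (fun i : Fin n => (i : ℕ) < k + 1) =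
          insert (⟨k, hk⟩ : Fin n) (univ.filter fun i : Fin n => (i : ℕ) < k) := by
        ext i
        simp only [mem_filter, mem_univ, true_and, mem_insert, Fin.ext_iff]
        omega
      have nm : (⟨k, hk⟩ : Fin n) ∉ univ.filter fun i : Fin n => (i : ℕ) < k := by simp
      have b := par (k + 1)
      rw [e, sum_insert nm] at b
      rw [e, sum_insert nm, sum_insert nm, hΦ _ _ (mono r1 (p1 _).1) (par k) b,
        ih (Nat.le_of_succ_le hk)]
  have fin := ind n le_rfl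
  rw [filter_true_of_mem fun i _ => i.2, Equiv.sum_comp σ fun i => (p i).1,
    Equiv.sum_comp σ fun i => Φ (p i).1, q1, q2, z0] at fin
  exact fin.symm

end Idx

open Idx in
theorem exta (hS : STZ) (hI : IDX) : EXTA := by
  intro Q _ D D' ι _ _ A ρ Φ ρ0 hQ hΦ
  classical
  have r0 : 0 < ρ / (Fintype.card D + 1) := by positivity
  set G := Submodule.span ℤ {p : (D → ℤ) × (ι → ZMod Q) |
    Sa A (ρ / (Fintype.card D + 1)) (cr D p.1) ∧ p.2 = Φ p.1} with hG
  set J := Submodule.span ℤ {w : D → ℤ | Sa A (ρ / (Fintype.card D + 1)) fun d => (w d : ℝ)}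
    with hJ
  have g1 : ∀ y, ((0, y) : (D → ℤ) × (ι → ZMod Q)) ∈ G → y = 0 := fun y hy => rel hS ρ0 hΦ hy
  have g2 : ∀ x ∈ J, ∃ y, (x, y) ∈ G := by
    intro x hx
    induction hx using Submodule.span_induction with
    | mem x hx => exact ⟨Φ x, Submodule.subset_span ⟨hx, rfl⟩⟩
    | zero => exact ⟨0, zero_mem _⟩
    | add x y _ _ a b =>
      obtain ⟨a, ha⟩ := a
      obtain ⟨b, hb⟩ := b
      exact ⟨a + b, add_mem ha hb⟩
    | smul k x _ b =>
      obtain ⟨b, hb⟩ := b
      exact ⟨k • b, Submodule.smul_mem _ k hb⟩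
  have g3 : ∀ p ∈ G, p.1 ∈ J := by
    intro p hp
    induction hp using Submodule.span_induction with
    | mem x hx => exact Submodule.subset_span hx.1
    | zero => exact zero_mem _
    | add x y _ _ a b => exact add_mem a b
    | smul k x _ b => exact Submodule.smul_mem _ k b
  have g4 : ∀ p ∈ G, cs Q p.1 = 0 → p.2 = 0 := by
    rintro ⟨x, y⟩ hp h0
    have dv : ∀ d, (Q : ℤ) ∣ x d := fun d =>
      (ZMod.intCast_zmod_eq_zero_iff_dvd _ _).1 (congrFun h0 d)
    choose v hv using dv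
    have e : x = (Q : ℤ) • v := funext hv
    obtain ⟨n, n1, n2, n3⟩ := hI D D' A _ v Q r0 (Fact.out : Q.Prime).one_le (e ▸ g3 _ hp)
    obtain ⟨y', hy'⟩ := g2 _ n3
    have m := sub_mem (G.smul_mem (n : ℤ) hp) (G.smul_mem (Q : ℤ) hy')
    have e1 : (Q : ℤ) • y' = 0 := by
      ext i
      simp
    rw [Prod.smul_mk, Prod.smul_mk, Prod.mk_sub_mk, e, smul_comm, sub_self, e1, sub_zero] at m
    have n0 : (n : ZMod Q) ≠ 0 := fun k =>
      absurd (Nat.le_of_dvd n1 ((ZMod.natCast_eq_zero_iff _ _).1 k)) (by omega)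
    ext i
    have := congrFun (g1 _ m) i
    simp only [Pi.smul_apply, zsmul_eq_mul, Int.cast_natCast, Pi.zero_apply, mul_eq_zero] at this
    exact this.resolve_left n0
  have g5 : ∀ p ∈ Submodule.span (ZMod Q) {p : (D → ZMod Q) × (ι → ZMod Q) | ∃ w : D → ℤ,
      Sa A (ρ / (Fintype.card D + 1)) (cr D w) ∧ p = (cs Q w, Φ w)},
      ∃ x, (x, p.2) ∈ G ∧ cs Q x = p.1 := by
    intro p hp
    induction hp using Submodule.span_induction with
    | mem x hx =>
      obtain ⟨w, w1, rfl⟩ := hx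
      exact ⟨w, Submodule.subset_span ⟨w1, rfl⟩, rfl⟩
    | zero => exact ⟨0, zero_mem _, by ext d; simp [cs]⟩
    | add x y _ _ a b =>
      obtain ⟨a, ha, ha'⟩ := a
      obtain ⟨b, hb, hb'⟩ := b
      refine ⟨a + b, add_mem ha hb, ?_⟩
      rw [Prod.fst_add, ← ha', ← hb']
      ext d
      simp [cs]
    | smul k x _ b =>
      obtain ⟨b, hb, hb'⟩ := b
      obtain ⟨k, rfl⟩ := ZMod.intCast_surjective k
      refine ⟨k • b, ?_, ?_⟩
      · rw [Int.cast_smul_eq_zsmul]
        exact G.smul_mem k hb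
      · rw [Prod.smul_fst, ← hb']
        ext d
        simp [cs]
  obtain ⟨T, hT⟩ := ext_graph _ fun p hp h0 => by
    obtain ⟨x, x1, x2⟩ := g5 p hp
    exact g4 _ x1 (x2.trans h0)
  refine ⟨fun d => T (Pi.single d 1), fun v hv => ?_⟩
  have k : T (cs Q v) = Φ v := hT (cs Q v, Φ v) (Submodule.subset_span ⟨v, hv, rfl⟩)
  rw [← k, pi_eq_sum_univ' (cs Q v), map_sum]
  exact sum_congr rfl fun d _ => by rw [map_smul, cs, Int.cast_smul_eq_zsmul]

end

end Vale.Agent.P057L
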