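import Vale.Agent.P057L.Win
import Vale.Agent.P057Z.Ke.Nm

/-! A positive definite kernel. -/

set_option linter.all false

open Finset
open scoped BigOperators Classical

namespace Vale.Agent.P057L

open Vale.Agent.P057Z Vale.Agent.P057Z.Ke

namespace Ker

theorem pairs {β γ : Type} [DecidableEq γ] (A : Finset β) (T : Finset γ) (σ : β → γ) (h : ∀ a ∈ A, σ a ∈ T) :
    (A.card : ℝ) ^ 2 ≤ T.card * ∑ a ∈ A, ∑ b ∈ A, if σ a = σ b then (1 : ℝ) else 0 := by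
  have e1 : (A.card : ℝ) = ∑ y ∈ T, ((A.filter fun b => σ b = y).card : ℝ) := by
    exact_mod_cast card_eq_sum_card_fiberwise h
  have e2 : ∑ a ∈ A, ∑ b ∈ A, (if σ a = σ b then (1 : ℝ) else 0) =
      ∑ y ∈ T, ((A.filter fun b => σ b = y).card : ℝ) ^ 2 := by
    rw [← sum_fiberwise_of_maps_to h]
    refine sum_congr rfl fun y _ => ?_
    rw [sq, ← nsmul_eq_mul, ← sum_const]
    refine sum_congr rfl fun a ha => ?_
    rw [(mem_filter.mp ha).2, sum_boole]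
    exact congrArg _ (congrArg _ (filter_congr fun b _ => eq_comm))
  rw [e1, e2]
  exact sq_sum_le_card_mul_sum_sq

variable {Q : ℕ} [Fact Q.Prime] {ι : Type} [Fintype ι]

theorem nsq {β : Type} (A : Finset β) (σ : β → ι → ℤ) (v : ι → ZMod Q) :
    ‖∑ a ∈ A, ch (cs Q (σ a) ⬝ᵥ v)‖ ^ 2 =
      ∑ a ∈ A, ∑ b ∈ A, (ch (cs Q (σ a - σ b) ⬝ᵥ v)).re := by
  rw [Complex.sq_norm, ← Complex.ofReal_re (Complex.normSq _), ← Complex.mul_conj, map_sum,
    sum_mul_sum, Complex.re_sum]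
  refine sum_congr rfl fun a _ => ?_
  rw [Complex.re_sum]
  refine sum_congr rfl fun b _ => ?_
  rw [← ch_neg, ← ch_add, ← sub_eq_add_neg, ← sub_dotProduct]
  congr 3
  funext i
  simp [cs]

theorem fact (p K : ℕ) [DecidableEq ι] (v : ι → ZMod Q) :
    ∑ a ∈ Fintype.piFinset fun _ : ι => Fintype.piFinset fun _ : Fin p => range K,
      ch (cs Q (fun i => ∑ j, (a i j : ℤ)) ⬝ᵥ v) =
      ∏ i, (∑ t ∈ range K, ch ((t : ZMod Q) * v i)) ^ p := by
  have e : ∀ i, (∑ t ∈ range K, ch ((t : ZMod Q) * v i)) ^ p =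
      ∑ b ∈ Fintype.piFinset fun _ : Fin p => range K, ∏ j, ch ((b j : ZMod Q) * v i) := by
    intro i
    rw [← prod_univ_sum (fun _ : Fin p => range K) fun _ t => ch ((t : ZMod Q) * v i), prod_const,
      card_univ, Fintype.card_fin]
  simp only [e]
  rw [prod_univ_sum]
  refine sum_congr rfl fun a _ => ?_
  rw [dotProduct, ch_sum]
  refine prod_congr rfl fun i _ => ?_
  rw [← ch_sum, ← sum_mul]
  simp [cs]

theorem triv (K : ℕ) (w : ZMod Q) : ‖∑ t ∈ range K, ch ((t : ZMod Q) * w)‖ ≤ K := by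
  refine (norm_sum_le _ _).trans_eq ?_
  simp [norm_ch]

theorem cA [DecidableEq ι] (p K : ℕ) :
    ((Fintype.piFinset fun _ : ι => Fintype.piFinset fun _ : Fin p => range K).card : ℝ) =
      ((K : ℝ) ^ p) ^ Fintype.card ι := by
  rw [Fintype.card_piFinset, prod_const, Win.cp, card_range, card_univ]
  push_cast
  rfl

theorem low [DecidableEq ι] {α β : Type} (s : Finset α) (u : α → ι → ZMod Q) (A : Finset β)
    (σ : β → ι → ℤ) (K0 : ℕ) {δ : ℝ} (δ0 : 0 ≤ δ) (s0 : (0 : ℝ) < s.card)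
    (h : ∀ k ∈ Sm ι K0, -δ ≤ (𝔼 e ∈ s, ch (cs Q k ⬝ᵥ u e)).re)
    (hb : ∀ a ∈ A, ∀ b ∈ A, σ a - σ b ∈ Sm ι K0) :
    s.card * ((∑ a ∈ A, ∑ b ∈ A, if σ a = σ b then (1 : ℝ) else 0) - δ * A.card ^ 2) ≤
      ∑ e ∈ s, ‖∑ a ∈ A, ch (cs Q (σ a) ⬝ᵥ u e)‖ ^ 2 := by
  simp only [nsq]
  have e1 : s.card * ((∑ a ∈ A, ∑ b ∈ A, if σ a = σ b then (1 : ℝ) else 0) - δ * A.card ^ 2) =
      ∑ a ∈ A, ∑ b ∈ A, s.card * ((if σ a = σ b then (1 : ℝ) else 0) - δ) := by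
    simp only [← mul_sum, sum_sub_distrib, sum_const, nsmul_eq_mul]
    ring
  rw [e1, sum_comm (s := s)]
  refine sum_le_sum fun a ha => ?_
  rw [sum_comm (s := s)]
  refine sum_le_sum fun b hb' => ?_
  by_cases c : σ a = σ b
  · have z : cs Q (0 : ι → ℤ) = 0 := funext fun i => by simp [cs]
    rw [if_pos c, c, sub_self, z]
    simp only [zero_dotProduct, ch_zero, Complex.one_re, sum_const, nsmul_eq_mul]
    nlinarith
  · have k := h (σ a - σ b) (hb a ha b hb')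
    rw [expect_eq_sum_div_card, ← Complex.ofReal_natCast, Complex.div_ofReal_re,
      le_div_iff₀ s0, Complex.re_sum] at k
    rw [if_neg c]
    linarith

theorem off [DecidableEq ι] (v : ι → ZMod Q) (p K : ℕ) {ρ : ℝ} (ρ0 : 0 < ρ) (g2 : 1 ≤ K * ρ ^ 2)
    (i : ι) (hi : ρ < nm (v i)) :
    ‖∏ i, (∑ t ∈ range K, ch ((t : ZMod Q) * v i)) ^ p‖ ≤
      ((K : ℝ) ^ p) ^ Fintype.card ι * (ρ / 2) ^ p := by
  have d1 : ‖∑ t ∈ range K, ch ((t : ZMod Q) * v i)‖ ≤ K * (ρ / 2) := by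
    have g := geom_le K (v i)
    refine le_of_mul_le_mul_left ?_ ρ0
    nlinarith [mul_le_mul_of_nonneg_right hi.le
      (norm_nonneg (∑ t ∈ range K, ch ((t : ZMod Q) * v i)))]
  rw [norm_prod, ← mul_prod_erase _ _ (mem_univ i), ← card_univ,
    ← card_erase_add_one (mem_univ i)]
  have d2 : ∏ k ∈ univ.erase i, ‖(∑ t ∈ range K, ch ((t : ZMod Q) * v k)) ^ p‖ ≤
      ((K : ℝ) ^ p) ^ (univ.erase i).card := by
    rw [← prod_const]
    exact prod_le_prod (fun _ _ => norm_nonneg _) fun k _ => by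
      rw [norm_pow]
      exact pow_le_pow_left₀ (norm_nonneg _) (triv K _) p
  rw [norm_pow]
  refine (mul_le_mul (pow_le_pow_left₀ (norm_nonneg _) d1 p) d2
    (prod_nonneg fun _ _ => norm_nonneg _) (by positivity)).trans_eq ?_
  rw [mul_pow]
  ring

theorem up [DecidableEq ι] {α : Type} (s : Finset α) (u : α → ι → ZMod Q) (p K : ℕ) {ρ : ℝ}
    (ρ0 : 0 < ρ) (g2 : 1 ≤ K * ρ ^ 2) :
    ∑ e ∈ s, ‖∑ a ∈ Fintype.piFinset fun _ : ι => Fintype.piFinset fun _ : Fin p => range K,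
      ch (cs Q (fun i => ∑ j, (a i j : ℤ)) ⬝ᵥ u e)‖ ^ 2 ≤
      ((Fintype.piFinset fun _ : ι => Fintype.piFinset fun _ : Fin p => range K).card : ℝ) ^ 2 *
        ((s.filter fun e => ∀ i, nm (u e i) ≤ ρ).card + s.card * ((ρ / 2) ^ p) ^ 2) := by
  have e1 : ((s.filter fun e => ∀ i, nm (u e i) ≤ ρ).card + s.card * ((ρ / 2) ^ p) ^ 2 : ℝ) =
      ∑ e ∈ s, ((if ∀ i, nm (u e i) ≤ ρ then (1 : ℝ) else 0) + ((ρ / 2) ^ p) ^ 2) := by
    rw [sum_add_distrib, sum_boole, sum_const, nsmul_eq_mul]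
  rw [e1, mul_sum]
  refine sum_le_sum fun e _ => ?_
  by_cases c : ∀ i, nm (u e i) ≤ ρ
  · rw [if_pos c]
    refine (pow_le_pow_left₀ (norm_nonneg _) ((norm_sum_le _ _).trans_eq ?_) 2).trans
      (le_mul_of_one_le_right (sq_nonneg _) (le_add_of_nonneg_right (sq_nonneg _)))
    simp only [norm_ch, sum_const, nsmul_eq_mul, mul_one]
  · obtain ⟨i, hi⟩ := not_forall.mp c
    rw [if_neg c, zero_add, ← mul_pow, fact, cA]
    exact pow_le_pow_left₀ (norm_nonneg _) (off (u e) p K ρ0 g2 i (not_le.mp hi)) 2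

theorem fin {s A G E M K ρ δ : ℝ} {R : ℕ} (s0 : 0 < s) (A0 : 0 < A) (M0 : 0 < M) (ρ0 : 0 < ρ)
    (ρ1 : ρ ≤ 1 / 4) (δ0 : 0 ≤ δ) (M2 : M ≤ K) (M3 : M * ρ ^ 3 ≤ 1) (hδ : 4 * δ * K ^ R ≤ 1)
    (P : A ^ 2 ≤ M ^ R * E)
    (h : s * (E - δ * A ^ 2) ≤ A ^ 2 * (G + s * ((ρ / 2) ^ (2 * R + 2)) ^ 2)) : δ * s ≤ G := by
  have X0 : 0 < M ^ R := by positivity
  have x1 : M ^ R * δ ≤ 1 / 4 := by
    have := mul_le_mul_of_nonneg_right (pow_le_pow_left₀ M0.le M2 R) δ0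
    linarith
  have x2 : M ^ R * ((ρ / 2) ^ (2 * R + 2)) ^ 2 ≤ 1 / 2 := by
    have a1 : M ^ R * (ρ ^ 3) ^ R ≤ 1 := by
      rw [← mul_pow]
      exact pow_le_one₀ (by positivity) M3
    have a2 : ((ρ / 2) ^ (2 * R + 2)) ^ 2 ≤ (ρ ^ 3) ^ R * (1 / 2) := by
      rw [← pow_mul, ← pow_mul, show (2 * R + 2) * 2 = 3 * R + (R + 3) + 1 by omega, pow_succ,
        pow_add]
      exact mul_le_mul ((mul_le_of_le_one_right (by positivity)
        (pow_le_one₀ (by positivity) (by linarith))).trans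
          (pow_le_pow_left₀ (by positivity) (by linarith) _)) (by linarith) (by positivity)
        (by positivity)
    have := mul_le_mul_of_nonneg_left a2 X0.le
    linarith
  generalize ((ρ / 2) ^ (2 * R + 2)) ^ 2 = τ at h x2
  generalize M ^ R = X at X0 x1 x2 P
  have B0 : 0 < A ^ 2 := by positivity
  generalize A ^ 2 = B at B0 P h
  have f1 := mul_le_mul_of_nonneg_left h X0.le
  have f2 := mul_le_mul_of_nonneg_left P s0.le
  have f3 : B * (s * (1 / 4)) ≤ B * (X * G) := by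
    linarith [mul_le_mul_of_nonneg_left x1 (mul_pos s0 B0).le,
      mul_le_mul_of_nonneg_left x2 (mul_pos s0 B0).le]
  have f4 := le_of_mul_le_mul_left f3 B0
  refine le_of_mul_le_mul_left ?_ X0
  linarith [mul_le_mul_of_nonneg_left x1 s0.le]

end Ker

open Ker in
theorem ker : KER := by
  intro Q _ ι α _ _ s u ρ δ K0 hs ρ0 hρ hK δ0 hδ h
  set R := Fintype.card ι with hR
  have R0 : (0 : ℝ) ≤ R := Nat.cast_nonneg R
  have s0 : (0 : ℝ) < s.card := by exact_mod_cast hs.card_pos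
  have ρ1 : ρ ≤ 1 / 4 := by nlinarith
  set K := ⌈1 / ρ ^ 2⌉₊ with hKd
  have K1 : 1 / ρ ^ 2 ≤ K := Nat.le_ceil _
  have K2 : (K : ℝ) < 1 / ρ ^ 2 + 1 := Nat.ceil_lt_add_one (by positivity)
  have K3 : 1 ≤ K := Nat.ceil_pos.mpr (by positivity)
  have K4 : (0 : ℝ) < K := by exact_mod_cast K3
  set p := 2 * R + 2 with hp
  set M := p * (K - 1) with hM
  have M1 : (M : ℝ) ≤ (2 * R + 2) * (1 / ρ ^ 2) := by
    rw [hM, hp]
    push_cast [Nat.cast_sub K3]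
    exact mul_le_mul_of_nonneg_left (by linarith) (by positivity)
  have r1 : 1 ≤ 1 / ρ ^ 2 := by
    rw [le_div_iff₀ (by positivity)]
    nlinarith
  have M2 : ((M + 1 : ℕ) : ℝ) ≤ K0 := by
    rw [div_eq_mul_one_div] at hK
    push_cast
    nlinarith
  have M3 : ((M + 1 : ℕ) : ℝ) * ρ ^ 3 ≤ 1 := by
    have e : (2 * R + 2) * (1 / ρ ^ 2) * ρ ^ 3 = (2 * R + 2) * ρ := by field_simp
    have := mul_le_mul_of_nonneg_right M1 (pow_pos ρ0 3).le
    have := pow_le_pow_left₀ ρ0.le ρ1 3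
    push_cast
    nlinarith
  set A := Fintype.piFinset fun _ : ι => Fintype.piFinset fun _ : Fin p => range K with hA
  set σ : (ι → Fin p → ℕ) → ι → ℤ := fun a i => ∑ j, (a i j : ℤ) with hσ
  have hb : ∀ a ∈ A, ∀ i, 0 ≤ σ a i ∧ σ a i ≤ M := fun a ha i => by
    refine ⟨sum_nonneg fun _ _ => Int.natCast_nonneg _, ?_⟩
    have : ∑ j, a i j ≤ M := by
      refine (sum_le_card_nsmul _ _ (K - 1) fun j _ => ?_).trans_eq ?_
      · have := mem_range.mp (Fintype.mem_piFinset.mp (Fintype.mem_piFinset.mp ha i) j)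
        omega
      · rw [card_univ, Fintype.card_fin, smul_eq_mul]
    show ∑ j, (a i j : ℤ) ≤ M
    exact_mod_cast this
  have A0 : (0 : ℝ) < A.card := by rw [hA, cA]; positivity
  have P := pairs A (Fintype.piFinset fun _ : ι => Icc (0 : ℤ) M) σ fun a ha =>
    Fintype.mem_piFinset.mpr fun i => mem_Icc.mpr (hb a ha i)
  have cT : ((Fintype.piFinset fun _ : ι => Icc (0 : ℤ) M).card : ℝ) = ((M + 1 : ℕ) : ℝ) ^ R := by
    rw [Fintype.card_piFinset, prod_const, Int.card_Icc, card_univ, Nat.cast_pow]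
    congr 2
  rw [cT] at P
  have lo := low s u A σ K0 δ0 s0 h fun a ha b hb' => Fintype.mem_piFinset.mpr fun i => by
    have m1 : (M : ℤ) + 1 ≤ K0 := by exact_mod_cast M2
    have := hb a ha i
    have := hb b hb' i
    rw [Pi.sub_apply, mem_Icc]
    omega
  have hi := up s u p K ρ0 ((div_le_iff₀ (by positivity)).mp K1)
  exact fin s0 A0 (by positivity) ρ0 ρ1 δ0 M2 M3 hδ P (lo.trans hi)

end Vale.Agent.P057L
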