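import Vale.Agent.P057L.Num
import Mathlib.NumberTheory.Bertrand

/-! The step of the induction for KH, first half. -/

set_option linter.all false

open Finset
open scoped BigOperators

namespace Vale.Agent.P057L

open Vale.Agent.P057Z

variable {j q : ℕ}

/-- a set built from large parts of the fibres -/
theorem glue_fib (hB : BAS) {Ω : Finset (Pt (j + 1) q)} {L : ℕ} {Y Z : ℝ} (h : Dn Ω L Y)
    (S : Pt j q → Finset (Vz q)) (hS : ∀ u, S u ⊆ fb Ω L u)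
    (hc : ∀ u, Real.exp (-Z) * (fb Ω L u).card ≤ (S u).card) :
    ∃ Ω' ⊆ Ω, Dn Ω' L (Y + Z) ∧ ∀ t u, cn t u ∈ Ω' → t ∈ S u := by
  classical
  obtain ⟨Ω', hΩ'⟩ : ∃ Ω', Ω' = Ω.filter fun w => w 0 ∈ S (tl w) := ⟨_, rfl⟩
  have hsub : Ω' ⊆ Ω := by rw [hΩ']; exact filter_subset _ _
  have hm : ∀ t u, cn t u ∈ Ω' ↔ cn t u ∈ Ω ∧ t ∈ S u := fun t u => by
    rw [hΩ', mem_filter, tl_cn, cn_zero]
  refine ⟨Ω', hsub, ⟨hsub.trans h.1, ?_⟩, fun t u ht => ((hm t u).1 ht).2⟩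
  have c1 : (Ω.card : ℝ) = ∑ x ∈ bp j q L, ((fb Ω L x).card : ℝ) := by
    exact_mod_cast hB.2.2.1 j q L Ω h.1
  have c2 : (Ω'.card : ℝ) = ∑ x ∈ bp j q L, ((fb Ω' L x).card : ℝ) := by
    exact_mod_cast hB.2.2.1 j q L Ω' (hsub.trans h.1)
  have c3 : Real.exp (-Z) * Ω.card ≤ Ω'.card := by
    rw [c1, c2, mul_sum]
    refine sum_le_sum fun u _ => (hc u).trans ?_
    refine Nat.cast_le.2 (card_le_card fun t ht => ?_)
    have a := mem_fb.1 (hS u ht)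
    exact mem_fb.2 ⟨a.1, (hm t u).2 ⟨a.2, ht⟩⟩
  refine le_trans ?_ c3
  have e : Real.exp (-(Y + Z)) = Real.exp (-Z) * Real.exp (-Y) := by
    rw [← Real.exp_add]; ring_nf
  rw [e, mul_assoc]
  exact mul_le_mul_of_nonneg_left h.2 (Real.exp_pos _).le

theorem kha (hB : BAS) (hW : WIN) (hP : PET) (hL : LIN) (j : ℕ) (h1 : KH j 1) : KHA j := by
  obtain ⟨Cp, hP⟩ := hP j
  obtain ⟨Cl, hL⟩ := hL
  obtain ⟨C1, h1⟩ := h1
  obtain ⟨u1, hu1⟩ : ∃ u1, u1 = (Cp + 1) * C1 := ⟨_, rfl⟩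
  obtain ⟨u2, hu2⟩ : ∃ u2, u2 = (Cp + 1) * Cl := ⟨_, rfl⟩
  refine ⟨2 * Cp + Cl + C1 + 2 * u1 + u2 + j + 20, ?_⟩
  intro Y q N Q _ ι φ Ω hC hq1 hq hN hNQ hd hm
  push_cast at hC
  have p1 : (0 : ℝ) ≤ Cp := by positivity
  have p2 : (0 : ℝ) ≤ Cl := by positivity
  have p3 : (0 : ℝ) ≤ C1 := by positivity
  have p5 : (0 : ℝ) ≤ 2 * u1 + u2 := by positivity
  have p7 : (0 : ℝ) ≤ j := by positivity
  have hY : 2 ≤ Y := by linarith
  have hY1 : 1 ≤ Y := by linarith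
  have hY0 : 0 ≤ Y := by linarith
  have hjq : ((j : ℝ) + 1) * q ≤ Y ^ 2 := by
    rw [pow_two]; exact mul_le_mul (by linarith) hq (by positivity) hY0
  have hN1 : 1 ≤ N := one_le_of_log (by positivity) hN
  obtain ⟨Q', hQ'p, hQ'1, hQ'2⟩ := Nat.exists_prime_lt_and_le_two_mul (4 * N) (by omega)
  haveI : Fact Q'.Prime := ⟨hQ'p⟩
  obtain ⟨R, T, γ, σ, θ, c', X, hR, hNT, hTN, hσ, hX, hmX, hfX⟩ := hP Y q N Q Q' ι φ Ω
    (by linarith) hq ((pw_le hY1 (by omega)).trans hN) hNQ hQ'1.le (by omega) hd hm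
  obtain ⟨x1, d, L, X2, hd1, hdL, hLg, hX2, hD2, hψ⟩ := h1 (Y ^ (Cp + 1)) q N Q' (Fin R × Fin q) _ X
    (le_trans (by linarith) (le_pw hY1 (by omega))) hq1 (hq.trans (le_pw hY1 (by omega)))
    (by
      rw [Fintype.card_prod, Fintype.card_fin, Fintype.card_fin, pow_succ]; push_cast
      exact mul_le_mul hR hq (by positivity) (by positivity))
    (by rw [← pow_mul, ← hu1]; exact (pw_le hY1 (by omega)).trans hN) (by omega)
    (hX.mono (pw_le hY1 (by omega))) hmX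
  rw [← pow_mul, ← hu1] at hLg hD2
  obtain ⟨L1, hL1, hL1e, -, hLg1⟩ := exists_side (L := L) (Y := Y ^ (Cp + 2)) (one_le_pow₀ hY1) (by
    refine le_trans ?_ (hLg.big hY1 hN (b := Cp + 3) (by omega))
    exact mul_pw_le hY0 (by linarith) _)
  have hL10 : (0 : ℝ) ≤ L1 := by positivity
  have hE4 : 4 * (q : ℝ) ≤ Real.exp (Y ^ (Cp + 2)) := by
    have a := Real.add_one_le_exp (Y ^ (Cp + 2))
    have b : Y ^ 2 ≤ Y ^ (Cp + 2) := pw_le hY1 (by omega)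
    nlinarith
  have h4q : 4 * q * L1 ≤ L := by
    have : (4 * q * L1 : ℝ) ≤ L := by nlinarith
    exact_mod_cast this
  have h1L : L1 ≤ L := by nlinarith
  have hdT : (d * L1 : ℝ) ≤ Real.exp (-Y ^ Cp) * T := by
    have a : 2 * Y ^ Cp ≤ Y ^ (Cp + 2) := (mul_pw_le hY0 hY Cp).trans (pw_le hY1 (by omega))
    have b : Real.exp (Y ^ Cp) * Real.exp (Y ^ Cp) ≤ Real.exp (Y ^ (Cp + 2)) := by
      rw [← Real.exp_add]; exact Real.exp_le_exp.2 (by linarith)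
    have c : (d * L : ℝ) ≤ N := by exact_mod_cast hdL
    have e0 := Real.exp_pos (Y ^ Cp)
    have d0 : (0 : ℝ) ≤ d := by positivity
    rw [Real.exp_neg, inv_mul_eq_div, le_div_iff₀ e0]
    refine le_of_mul_le_mul_right ?_ e0
    calc (d * L1 : ℝ) * Real.exp (Y ^ Cp) * Real.exp (Y ^ Cp)
        = d * (L1 * (Real.exp (Y ^ Cp) * Real.exp (Y ^ Cp))) := by ring
      _ ≤ d * (L1 * Real.exp (Y ^ (Cp + 2))) := by gcongr
      _ ≤ d * L := by gcongr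
      _ ≤ _ := c.trans hNT
  obtain ⟨y0, x2, Ω3, hΩ3, hD3, hP3⟩ := fib_win hB hW (Ω := Ω) (N := N) (e := d)
    (Y := Y ^ (u1 + Cp)) x1 (hD2.mono (pw_le hY1 (by omega))) hL1 h1L
    ((Nat.mul_le_mul_left d h1L).trans hdL) hN1
    (fun u hu => ex_mono (hfX _ (mem_pre.1 (hX2 hu)).2).1 (by positivity) (pw_le hY1 (by omega)))
  have hD3' : Dn Ω3 L1 (Y ^ (u1 + Cp + 3)) := hD3.mono (by
    have := mul_pw_le hY0 hY (u1 + Cp)
    have := add_pw_le hY (by omega : u1 + Cp + 1 < u1 + Cp + 3) (by omega : 2 < u1 + Cp + 3)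
    linarith)
  have hfib : ∀ u : Pt j q, ∃ S' ⊆ fb Ω3 L1 u, ∃ Θ : Fin q → ι → ZMod Q,
      Real.exp (-Y ^ u2) * (fb Ω3 L1 u).card ≤ S'.card ∧ ∀ t ∈ S', ∀ t' ∈ S',
        φ (lc (cn y0 x2) d (cn t u)) - φ (lc (cn y0 x2) d (cn t' u)) = zd (t - t') Θ := by
    intro u
    rcases (fb Ω3 L1 u).eq_empty_or_nonempty with he | ⟨t1, ht1⟩
    · exact ⟨∅, empty_subset _, 0, by simp [he], by simp⟩
    obtain ⟨-, u', hu', huu⟩ := hP3 _ _ (mem_fb.1 ht1).2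
    have hx := (mem_pre.1 (hX2 hu')).2
    have hin : ∀ t ∈ fb Ω3 L1 u, y0 + (d : ℤ) • t ∈ fb Ω N (lc x1 d u') := fun t ht => by
      have a := (mem_pre.1 (hΩ3 (mem_fb.1 ht).2)).2
      rw [hB.2.2.2.2.1, huu] at a
      exact mem_fb.2 ⟨(hP3 _ _ (mem_fb.1 ht).2).1, a⟩
    have := hL (Y ^ (Cp + 1)) (Real.exp (-Y ^ Cp)) q R T d L L1 Q' (ι → ZMod Q) (γ (lc x1 d u')) σ
      (θ (lc x1 d u')) (c' (lc x1 d u')) (fun t => φ (lc (cn y0 x2) d (cn t u))) (fb Ω3 L1 u)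
      (le_trans (by linarith) (le_pw hY1 (by omega))) (hq.trans (le_pw hY1 (by omega)))
      (hR.trans (pw_le hY1 (by omega)))
      (Real.exp_le_exp.2 (neg_le_neg (pw_le hY1 (by omega))))
      (Real.exp_le_one_iff.2 (neg_nonpos.2 (by positivity)))
      (fun s r => (hσ s r).trans (Real.exp_le_exp.2 (pw_le hY1 (by omega)))) h4q hdT hLg.1
      (fun s l => by simpa using hψ u' hu' (s, l)) (fun t ht => (mem_fb.1 ht).1)
      (fun t ht t' ht' m hsl => by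
        have e : y0 + (d : ℤ) • t - (y0 + (d : ℤ) • t') = (d : ℤ) • (t - t') := by
          rw [smul_sub]; abel
        have a := (hfX _ hx).2 _ (hin t ht) _ (hin t' ht') m (by rw [e]; exact hsl)
        rw [e] at a
        show φ _ - φ _ = _
        rw [hB.2.2.2.2.1, hB.2.2.2.2.1, huu]
        exact a)
    rw [← pow_mul, ← hu2] at this
    exact this
  choose S hS Θ hSc hSl using hfib
  obtain ⟨Ω', hΩ', hD', hP'⟩ := glue_fib hB hD3' S hS hSc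
  refine ⟨cn y0 x2, d, L1, Ω', Θ, hd1, (Nat.mul_le_mul_left d h1L).trans hdL, ?_,
    hΩ'.trans hΩ3, hD'.mono (add_pw_le hY (by omega) (by omega)), ?_⟩
  · refine (hLg.trans (hLg1.mono hY) (by positivity)).mono ?_
    rw [← pow_succ]; exact pw_le hY1 (by omega)
  · intro u t t' ht ht'
    exact hSl u t (hP' _ _ ht) t' (hP' _ _ ht')

end Vale.Agent.P057L
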