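import Vale.Agent.P057L.Num

/-! The step of the induction for KH, second half. -/

set_option linter.all false

open Finset
open scoped BigOperators

namespace Vale.Agent.P057L

open Vale.Agent.P057Z

variable {j q : ℕ}

theorem exists_root {L n : ℕ} (hn : 1 ≤ n) (h : 2 * (n : ℝ) ≤ Real.log L) :
    ∃ L3 : ℕ, L3 ^ n ≤ L ∧ Lg L L3 (2 * n) := by
  have hn' : (1 : ℝ) ≤ n := by exact_mod_cast hn
  have hL : (0 : ℝ) < L := by exact_mod_cast one_le_of_log (by linarith) h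
  set z := Real.log L / n with hz
  have hz2 : 2 ≤ z := by rw [hz, le_div_iff₀ (by linarith)]; exact h
  have hE : z + 1 ≤ Real.exp z := Real.add_one_le_exp z
  have h1 : 1 ≤ ⌊Real.exp z⌋₊ := Nat.le_floor (by simp; linarith)
  have h1' : (1 : ℝ) ≤ ⌊Real.exp z⌋₊ := by exact_mod_cast h1
  have hf : (⌊Real.exp z⌋₊ : ℝ) ≤ Real.exp z := Nat.floor_le (Real.exp_pos z).le
  have hg : Real.exp z < ⌊Real.exp z⌋₊ + 1 := Nat.lt_floor_add_one _
  refine ⟨⌊Real.exp z⌋₊, ?_, h1, ?_⟩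
  · have : ((⌊Real.exp z⌋₊ : ℝ)) ^ n ≤ L := by
      calc _ ≤ Real.exp z ^ n := pow_le_pow_left₀ (by linarith) hf n
        _ = Real.exp (n * z) := (Real.exp_nat_mul z n).symm
        _ = L := by rw [hz, mul_div_cancel₀ _ (by linarith), Real.exp_log hL]
    exact_mod_cast this
  · have h2 : Real.exp z ≤ ⌊Real.exp z⌋₊ * Real.exp 1 := by
      have := Real.add_one_le_exp (1 : ℝ); nlinarith
    have h3 := Real.log_le_log (Real.exp_pos z) h2
    rw [Real.log_mul (by linarith) (Real.exp_pos _).ne', Real.log_exp, Real.log_exp] at h3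
    have h4 : Real.log L = n * z := by rw [hz, mul_div_cancel₀ _ (by linarith)]
    rw [h4]; nlinarith

theorem MH.mul {Q : ℕ} {ι : Type} {φ : Pt j q → ι → ZMod Q} {Ω : Finset (Pt j q)} (h : MH φ Ω)
    (c : ZMod Q) : MH (fun x i => c * φ x i) Ω := by
  intro i W s t hs ht hst
  have := h i W s t hs ht hst
  funext a
  have h2 := congrFun this a
  simp only [Finset.sum_apply] at h2 ⊢
  rw [← mul_sum, ← mul_sum, h2]

/-- a slice that meets many dense fibres -/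
theorem slice (hB : BAS) {Ω : Finset (Pt (j + 1) q)} {L : ℕ} {Y : ℝ} (h : Dn Ω L Y) (hL : 1 ≤ L) :
    ∃ (t0 : Vz q) (X : Finset (Pt j q)), t0 ∈ bz q L ∧ Dn X L (Y + 1) ∧ ∀ u ∈ X, cn t0 u ∈ Ω ∧
      Real.exp (-(Y + 1)) * (L : ℝ) ^ q ≤ (fb Ω L u).card := by
  classical
  have hLp : (0 : ℝ) < L := by exact_mod_cast hL
  obtain ⟨X0, hX0⟩ : ∃ X0, X0 = (bp j q L).filter fun u =>
    Real.exp (-(Y + 1)) * (L : ℝ) ^ q ≤ (fb Ω L u).card := ⟨_, rfl⟩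
  have hc : (Ω.card : ℝ) = ∑ x ∈ bp j q L, ((fb Ω L x).card : ℝ) := by
    exact_mod_cast hB.2.2.1 j q L Ω h.1
  have he : 2 * Real.exp (-(Y + 1)) ≤ Real.exp (-Y) := by
    have h1 : Real.exp (-Y) = Real.exp (-(Y + 1)) * Real.exp 1 := by
      rw [← Real.exp_add]; ring_nf
    have h2 := Real.add_one_le_exp (1 : ℝ)
    have h3 := Real.exp_pos (-(Y + 1))
    nlinarith
  have hp : (L : ℝ) ^ ((j + 1) * q) = (L : ℝ) ^ (j * q) * (L : ℝ) ^ q := by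
    rw [← pow_add]; congr 1; ring
  have hsum : Real.exp (-(Y + 1)) * ((L : ℝ) ^ (j * q) * (L : ℝ) ^ q) ≤
      ∑ x ∈ X0, ((fb Ω L x).card : ℝ) := by
    have h1 := sum_filter_add_sum_filter_not (bp j q L)
      (fun u => Real.exp (-(Y + 1)) * (L : ℝ) ^ q ≤ (fb Ω L u).card) (fun x => ((fb Ω L x).card : ℝ))
    rw [← hX0, ← hc] at h1
    have h2 : ∑ x ∈ (bp j q L).filter
        (fun u => ¬ Real.exp (-(Y + 1)) * (L : ℝ) ^ q ≤ (fb Ω L u).card), ((fb Ω L x).card : ℝ) ≤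
        (L : ℝ) ^ (j * q) * (Real.exp (-(Y + 1)) * (L : ℝ) ^ q) := by
      refine (sum_le_card_nsmul _ _ (Real.exp (-(Y + 1)) * (L : ℝ) ^ q) fun x hx =>
        (not_le.1 (mem_filter.1 hx).2).le).trans ?_
      rw [nsmul_eq_mul]
      refine mul_le_mul_of_nonneg_right ?_ (by positivity)
      have := card_filter_le (bp j q L)
        (fun u => ¬ Real.exp (-(Y + 1)) * (L : ℝ) ^ q ≤ (fb Ω L u).card)
      rw [hB.2.1 j q L] at this
      exact_mod_cast this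
    have h3 := h.2
    rw [hp] at h3
    have h4 := mul_le_mul_of_nonneg_right he
      (by positivity : 0 ≤ (L : ℝ) ^ (j * q) * (L : ℝ) ^ q)
    nlinarith
  rw [← sum_card_swap (bz q L) X0 (fun u => fb Ω L u) (fun u y hy => (mem_fb.1 hy).1)] at hsum
  have hne : (bz q L).Nonempty := by
    rw [← card_pos, (hB.1 q L).1]; positivity
  obtain ⟨t0, ht0, hle⟩ := exists_le_of_sum_le hne
    (f := fun _ => Real.exp (-(Y + 1)) * (L : ℝ) ^ (j * q))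
    (g := fun y => ((X0.filter fun u => y ∈ fb Ω L u).card : ℝ)) (by
      rw [sum_const, (hB.1 q L).1, nsmul_eq_mul]; push_cast; linarith)
  refine ⟨t0, X0.filter fun u => t0 ∈ fb Ω L u, ht0, ⟨fun u hu => ?_, hle⟩, fun u hu => ?_⟩
  · have a := (mem_filter.1 hu).1
    rw [hX0] at a
    exact (mem_filter.1 a).1
  · have a := (mem_filter.1 hu).1
    rw [hX0] at a
    exact ⟨(mem_fb.1 (mem_filter.1 hu).2).2, (mem_filter.1 a).2⟩

theorem abs_sub_le_of_bz {L : ℕ} {t t' : Vz q} (h : t ∈ bz q L) (h' : t' ∈ bz q L) (l : Fin q) :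
    |((t l - t' l : ℤ) : ℝ)| ≤ L := by
  have a := Fintype.mem_piFinset.1 h l
  have b := Fintype.mem_piFinset.1 h' l
  unfold rg at a b
  rw [mem_Ico] at a b
  have : |t l - t' l| ≤ (L : ℤ) := by rw [abs_le]; omega
  exact_mod_cast this

theorem khb_est {Q : ℕ} [Fact Q.Prime] {m d e e' L2 L3 L4 L5 : ℕ} {A B : ZMod Q}
    {Θ : Fin q → ZMod Q} {v : Vz q} (hAB : A - B = ∑ l, ((e : ℤ) * v l) • Θ l)
    (hB : nm ((e' : ZMod Q) ^ m * (((d * e : ℕ) : ZMod Q) ^ m * B)) ≤ 1 / L4)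
    (hΘ : ∀ l, nm ((e : ZMod Q) ^ (m + 1) * ((d : ZMod Q) ^ m * Θ l)) ≤ 1 / L2)
    (hv : ∀ l, |((v l : ℤ) : ℝ)| ≤ L3) (he' : e' ≤ L3) (h32 : L3 ^ (m + 3) ≤ L2) (hq : q ≤ L3)
    (h43 : L4 ≤ L3) (h54 : 2 * L5 ≤ L4) (h5 : 1 ≤ L5) :
    nm (((d * e * e' : ℕ) : ZMod Q) ^ m * A) ≤ 1 / L5 := by
  have hA : ((d * e * e' : ℕ) : ZMod Q) ^ m * A =
      (e' : ZMod Q) ^ m * (((d * e : ℕ) : ZMod Q) ^ m * B) +
        ∑ l, (((e' : ℤ) ^ m * v l : ℤ) : ZMod Q) *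
          ((e : ZMod Q) ^ (m + 1) * ((d : ZMod Q) ^ m * Θ l)) := by
    have : A = B + ∑ l, ((e : ℤ) * v l) • Θ l := by rw [← hAB]; ring
    rw [this, mul_add, mul_sum]
    congr 1
    · push_cast; ring
    · refine sum_congr rfl fun l _ => ?_
      rw [zsmul_eq_mul]; push_cast; ring
  have h5' : (1 : ℝ) ≤ L5 := by exact_mod_cast h5
  have h54' : 2 * (L5 : ℝ) ≤ L4 := by exact_mod_cast h54
  have h43' : (L4 : ℝ) ≤ L3 := by exact_mod_cast h43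
  have hq' : (q : ℝ) ≤ L3 := by exact_mod_cast hq
  have h32' : (L3 : ℝ) ^ (m + 3) ≤ L2 := by exact_mod_cast h32
  have he'' : (e' : ℝ) ≤ L3 := by exact_mod_cast he'
  have h3 : (0 : ℝ) < L3 := by linarith
  have h2 : (0 : ℝ) < L2 := lt_of_lt_of_le (by positivity) h32'
  have hl : ∀ l, nm ((((e' : ℤ) ^ m * v l : ℤ) : ZMod Q) *
      ((e : ZMod Q) ^ (m + 1) * ((d : ZMod Q) ^ m * Θ l))) ≤ (L3 : ℝ) ^ (m + 1) * (1 / L2) := by
    intro l
    refine (Fr.nm_int_mul _ _).trans (mul_le_mul ?_ (hΘ l) (Fr.nm_nonneg _) (by positivity))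
    push_cast
    rw [abs_mul, abs_pow, abs_of_nonneg (by positivity : (0 : ℝ) ≤ e'), pow_succ]
    exact mul_le_mul (pow_le_pow_left₀ (by positivity) he'' m) (hv l) (abs_nonneg _) (by positivity)
  rw [hA]
  refine (Fr.nm_add _ _).trans ?_
  have hs := (Fr.nm_sum univ _).trans (sum_le_card_nsmul univ _ _ fun l _ => hl l)
  rw [card_univ, Fintype.card_fin, nsmul_eq_mul] at hs
  have h6 : (q : ℝ) * ((L3 : ℝ) ^ (m + 1) * (1 / L2)) ≤ 1 / L4 := by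
    rw [mul_one_div, ← mul_div_assoc, div_le_div_iff₀ h2 (by linarith), one_mul]
    refine le_trans ?_ h32'
    calc (q : ℝ) * (L3 : ℝ) ^ (m + 1) * L4 ≤ L3 * (L3 : ℝ) ^ (m + 1) * L3 := by gcongr
      _ = _ := by ring
  have h7 : 1 / (L4 : ℝ) + 1 / L4 ≤ 1 / L5 := by
    rw [← add_div, div_le_div_iff₀ (by linarith) (by linarith)]; linarith
  linarith

theorem khb (hB : BAS) (hW : WIN) (hS : SLC) (j m : ℕ) (hA : KHA j) (h1 : KH j (m + 1))
    (h2 : KH j m) : KH (j + 1) m := by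
  obtain ⟨Ca, hA⟩ := hA
  obtain ⟨Cs, hS⟩ := hS j
  obtain ⟨C1, h1⟩ := h1
  obtain ⟨C2, h2⟩ := h2
  obtain ⟨s, hs⟩ : ∃ s, s = (Ca + 1) * Cs := ⟨_, rfl⟩
  obtain ⟨u1, hu1⟩ : ∃ u1, u1 = (s + 2) * C1 := ⟨_, rfl⟩
  obtain ⟨c, hc⟩ : ∃ c, c = u1 + s + 2 := ⟨_, rfl⟩
  obtain ⟨u2, hu2⟩ : ∃ u2, u2 = (c + 3) * C2 := ⟨_, rfl⟩
  refine ⟨Ca + Cs + C1 + C2 + 2 * s + 2 * u1 + c + 2 * u2 + 2 * m + j + 20, ?_⟩
  intro Y q N Q _ ι _ _ φ Ω hC hq1 hq hι hN hNQ hd hm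
  push_cast at hC
  have p1 : (0 : ℝ) ≤ Ca := by positivity
  have p2 : (0 : ℝ) ≤ Cs := by positivity
  have p3 : (0 : ℝ) ≤ C1 := by positivity
  have p4 : (0 : ℝ) ≤ C2 := by positivity
  have p5 : (0 : ℝ) ≤ 2 * s + 2 * u1 + c + 2 * u2 := by positivity
  have p6 : (0 : ℝ) ≤ m := by positivity
  have p7 : (0 : ℝ) ≤ j := by positivity
  have hY : 2 ≤ Y := by linarith
  have hY1 : 1 ≤ Y := by linarith
  have hY0 : 0 ≤ Y := by linarith
  have hjq : ((j : ℝ) + 1) * q ≤ Y ^ 2 := by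
    rw [pow_two]; exact mul_le_mul (by linarith) hq (by positivity) hY0
  obtain ⟨W0, d, L, Ω1, Θ, hd1, hdL, hL, hΩ1, hD1, hlin⟩ := hA Y q N Q ι φ Ω (by linarith) hq1 hq
    ((pw_le hY1 (by omega)).trans hN) hNQ hd hm
  have hm1 : MH (fun t => φ (lc W0 d t)) Ω1 :=
    hB.2.2.2.2.2.2.1 _ _ d _ φ Ω Ω1 W0 hm fun t ht => (mem_pre.1 (hΩ1 ht)).2
  have hLN : L ≤ N := le_trans (Nat.le_mul_of_pos_left L hd1) hdL
  obtain ⟨X, hX, hmX, hfX⟩ := hS (Y ^ (Ca + 1)) q L Q ι _ Ω1 Θ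
    (le_trans (by linarith) (le_pw hY1 (by omega))) hq1 (hq.trans (le_pw hY1 (by omega)))
    (by rw [← pow_mul, ← hs]; exact hL.big hY1 hN (by omega)) (hLN.trans hNQ)
    (hD1.mono (pw_le hY1 (by omega))) hm1 hlin
  rw [← pow_mul, ← hs] at hX hfX
  obtain ⟨x1, e, L2, X2, he1, heL, hL2, hX2, hD2, hΘ⟩ := h1 (Y ^ (s + 2)) q L Q (Fin q × ι)
    (fun x p => (d : ZMod Q) ^ m * Θ x p.1 p.2) X
    (le_trans (by linarith) (le_pw hY1 (by omega))) hq1 (hq.trans (le_pw hY1 (by omega)))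
    (by
      rw [Fintype.card_prod, Fintype.card_fin]; push_cast
      refine le_trans ?_ (pw_le hY1 (by omega : 2 ≤ s + 2))
      rw [pow_two]; exact mul_le_mul hq hι (by positivity) hY0)
    (by rw [← pow_mul, ← hu1]; exact hL.big hY1 hN (by omega)) (hLN.trans hNQ)
    (hX.mono (pw_le hY1 (by omega))) (hmX.mul _)
  rw [← pow_mul, ← hu1] at hL2 hD2
  have g2 : Lg N L2 (Y ^ (Ca + u1)) := by rw [pow_add]; exact hL.trans hL2 (by positivity)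
  obtain ⟨L3, h32, hL3⟩ := exists_root (L := L2) (n := m + 3) (by omega) (by
    refine le_trans ?_ (g2.big hY1 hN (b := 1) (by omega)); push_cast; rw [pow_one]; linarith)
  have g3 : Lg N L3 (Y ^ (Ca + u1 + 1)) := by
    rw [pow_succ]
    exact g2.trans (hL3.mono (by push_cast; linarith)) (by positivity)
  have h32' : L3 ≤ L2 := le_trans (Nat.le_self_pow (by omega) L3) h32
  have h2L : L2 ≤ L := le_trans (Nat.le_mul_of_pos_left L2 he1) heL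
  obtain ⟨y0, x2, Ω3, hΩ3, hD3, hP3⟩ := fib_win hB hW (Ω := Ω1) (N := L) (e := e) (Y := Y ^ c) x1
    (hD2.mono (pw_le hY1 (by omega))) hL3.1 h32' ((Nat.mul_le_mul_left e h32').trans heL) hL.1
    (fun u hu => ex_mono (hfX _ (mem_pre.1 (hX2 hu)).2) (by positivity) (pw_le hY1 (by omega)))
  have hD3' : Dn Ω3 L3 (Y ^ (c + 2)) := hD3.mono (by
    have := mul_pw_le hY0 hY c
    have := add_pw_le hY (by omega : c + 1 < c + 2) (by omega : 2 < c + 2)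
    linarith)
  obtain ⟨t0, X3, ht0, hX3, hf3⟩ := slice hB hD3' hL3.1
  have hc3 : Y ^ (c + 2) + 1 ≤ Y ^ (c + 3) := by
    have := add_pw_le hY (by omega : c + 2 < c + 3) (by omega : 0 < c + 3)
    simpa using this
  have hm3 : MH (fun w => φ (lc W0 d (lc (cn y0 x2) e w))) Ω3 :=
    hB.2.2.2.2.2.2.1 _ _ e _ _ Ω1 Ω3 (cn y0 x2) hm1 fun t ht => (mem_pre.1 (hΩ3 ht)).2
  have hm4 := (hB.2.2.2.2.2.2.2.1 _ _ _ _ Ω3 X3 t0 hm3 fun u hu => (hf3 u hu).1).mul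
    (((d * e : ℕ) : ZMod Q) ^ m)
  obtain ⟨u0, e', L4, X4, he'1, he'L, hL4, hX4, hD4, hχ⟩ := h2 (Y ^ (c + 3)) q L3 Q ι _ X3
    (le_trans (by linarith) (le_pw hY1 (by omega))) hq1 (hq.trans (le_pw hY1 (by omega)))
    (hι.trans (le_pw hY1 (by omega)))
    (by rw [← pow_mul, ← hu2]; exact g3.big hY1 hN (by omega))
    (h32'.trans (h2L.trans (hLN.trans hNQ))) (hX3.mono hc3) hm4
  rw [← pow_mul, ← hu2] at hL4 hD4
  have g4 : Lg N L4 (Y ^ (Ca + u1 + 1 + u2)) := by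
    rw [pow_add]; exact g3.trans hL4 (by positivity)
  obtain ⟨L5, h5, h54, -, hL5⟩ := exists_side (L := L4) (Y := 1) le_rfl (by
    refine le_trans ?_ (g4.big hY1 hN (b := 1) (by omega)); rw [pow_one]; linarith)
  have h54' : 2 * L5 ≤ L4 := by
    have h2e := Real.add_one_le_exp (1 : ℝ)
    have : (2 : ℝ) * L5 ≤ L4 := by
      have : (0 : ℝ) ≤ L5 := by positivity
      nlinarith
    exact_mod_cast this
  have g5 : Lg N L5 (Y ^ (Ca + u1 + 1 + u2 + 1)) := by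
    rw [pow_succ]; exact g4.trans (hL5.mono hY) (by positivity)
  have h43 : L4 ≤ L3 := le_trans (Nat.le_mul_of_pos_left L4 he'1) he'L
  have he'5 : e' * L5 ≤ L3 := (Nat.mul_le_mul_left e' (by omega)).trans he'L
  obtain ⟨y1, x3, Ω6, hΩ6, hD6, hP6⟩ := fib_win hB hW (Ω := Ω3) (N := L3) (e := e')
    (Y := Y ^ (u2 + c + 3)) u0 (hD4.mono (pw_le hY1 (by omega))) h5 (by omega) he'5 hL3.1
    (fun u hu => ex_mono (hf3 _ (mem_pre.1 (hX4 hu)).2).2 (by positivity)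
      (hc3.trans (pw_le hY1 (by omega))))
  have hcomp : ∀ w, lc (lc W0 d (lc (cn y0 x2) e (cn y1 x3))) (d * e * e') w =
      lc W0 d (lc (cn y0 x2) e (lc (cn y1 x3) e' w)) := fun w => by
    rw [hB.2.2.2.2.2.1 _ _ e e', hB.2.2.2.2.2.1 _ _ d (e * e'), mul_assoc]
  refine ⟨lc W0 d (lc (cn y0 x2) e (cn y1 x3)), d * e * e', L5, Ω6,
    Nat.mul_pos (Nat.mul_pos hd1 he1) he'1, ?_, g5.mono (pw_le hY1 (by omega)), ?_, ?_, ?_⟩
  · calc d * e * e' * L5 = d * (e * (e' * L5)) := by ring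
      _ ≤ d * (e * L2) := by gcongr; exact he'5.trans h32'
      _ ≤ d * L := by gcongr
      _ ≤ N := hdL
  · intro w hw
    have a1 := mem_pre.1 (hΩ6 hw)
    refine mem_pre.2 ⟨a1.1, ?_⟩
    rw [hcomp]
    exact (mem_pre.1 (hΩ1 (mem_pre.1 (hΩ3 a1.2)).2)).2
  · refine hD6.mono (le_trans ?_ (pw_le hY1 (by omega : u2 + c + 5 ≤ _)))
    have := mul_pw_le hY0 hY (u2 + c + 3)
    have := add_pw_le hY (by omega : u2 + c + 3 + 1 < u2 + c + 5) (by omega : 2 < u2 + c + 5)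
    linarith
  · intro w hw i
    rw [hcomp, ← cn_eta w] at *
    obtain ⟨ht3, v', hv', hvv⟩ := hP6 _ _ hw
    have a1 := (mem_pre.1 (hΩ6 hw)).2
    rw [hB.2.2.2.2.1] at a1 ⊢
    rw [hvv] at a1 ⊢
    have a2 := (hf3 _ (mem_pre.1 (hX4 hv')).2).1
    obtain ⟨-, u', hu', huu⟩ := hP3 _ _ a1
    have b1 := (mem_pre.1 (hΩ3 a1)).2
    have b2 := (mem_pre.1 (hΩ3 a2)).2
    rw [hB.2.2.2.2.1] at b1 b2
    have key := congrFun (hlin _ _ _ b1 b2) i
    have hχ' := hχ v' hv' i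
    rw [hB.2.2.2.2.1] at hχ' ⊢
    refine khb_est (L2 := L2) (L3 := L3) (L4 := L4) (Θ := fun l => Θ (lc x1 e u') l i)
      (v := y1 + (e' : ℤ) • w 0 - t0) ?_ hχ' (fun l => hΘ u' hu' (l, i))
      (fun l => abs_sub_le_of_bz ht3 ht0 l)
      (le_trans (Nat.le_mul_of_pos_right e' hL4.1) he'L) h32 ?_ h43 h54' h5
    · rw [Pi.sub_apply] at key
      rw [key, huu, zd, Finset.sum_apply]
      refine sum_congr rfl fun l _ => ?_
      rw [Pi.smul_apply]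
      congr 1
      simp only [Pi.sub_apply, Pi.add_apply, Pi.smul_apply, smul_eq_mul]; ring
    · have b3 := g3.big hY1 hN (b := 1) (by omega)
      rw [pow_one] at b3
      have b4 : Real.log L3 ≤ L3 := Real.log_le_self (by positivity)
      exact_mod_cast hq.trans (b3.trans b4)

end Vale.Agent.P057L
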