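import Vale.Agent.P057L.Num

/-! The brackets come from a multi-homomorphism in fewer variables. -/

set_option linter.all false

open Finset
open scoped BigOperators

namespace Vale.Agent.P057L

open Vale.Agent.P057Z

theorem zd_sum_smul {α β H : Type} [Fintype α] [Fintype β] [AddCommGroup H] (n : β → ℤ)
    (b : β → α → ℤ) (θ : α → H) : zd (∑ a, n a • b a) θ = ∑ a, n a • zd (b a) θ := by
  unfold zd
  simp only [Finset.sum_apply, Pi.smul_apply, smul_eq_mul, sum_smul, smul_sum, mul_smul]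
  exact sum_comm

theorem sl_mono {q Q : ℕ} {κ : Type} {γ : κ → Fin q → ZMod Q} {T : ℕ} {ρ ρ' : ℝ} {y : Vz q}
    {m : κ → ℤ} (h : Sl γ T ρ y m) (hρ : ρ ≤ ρ') : Sl γ T ρ' y m :=
  ⟨fun l => (h.1 l).trans (by gcongr), fun r => (h.2 r).trans hρ⟩

theorem pet (hP : POOR) (h1 : PET1) (h2 : PET2) (hF : FACT) (hC : CS2) (hS : SEQ) : PET := by
  classical
  intro j
  obtain ⟨C0, hP⟩ := hP j
  obtain ⟨C1, h1⟩ := h1
  obtain ⟨C2, h2⟩ := h2 j
  obtain ⟨C3, hF⟩ := hF j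
  obtain ⟨C4, hC⟩ := hC
  obtain ⟨C5, hS⟩ := hS j
  obtain ⟨u1, hu1⟩ : ∃ u, u = (C0 + 1) * C1 := ⟨_, rfl⟩
  obtain ⟨b, hb⟩ : ∃ b, b = u1 + C0 + 1 := ⟨_, rfl⟩
  obtain ⟨u2, hu2⟩ : ∃ u, u = b * C2 := ⟨_, rfl⟩
  obtain ⟨u3, hu3⟩ : ∃ u, u = (u2 + b) * C3 := ⟨_, rfl⟩
  obtain ⟨u4, hu4⟩ : ∃ u, u = (u2 + b) * C4 := ⟨_, rfl⟩
  obtain ⟨u5, hu5⟩ : ∃ u, u = (u4 + u2 + b) * C5 := ⟨_, rfl⟩
  refine ⟨C0 + C1 + C2 + C3 + C4 + C5 + b + u2 + u3 + u4 + u5 + 10, ?_⟩
  intro Y q N Q Q' _ _ ι φ Ω hY' hq hN hNQ hQ1 hQ2 hd hm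
  push_cast at hY'
  have p0 : (0 : ℝ) ≤ C0 := by positivity
  have p1 : (0 : ℝ) ≤ C1 := by positivity
  have p2 : (0 : ℝ) ≤ C2 := by positivity
  have p3 : (0 : ℝ) ≤ C3 := by positivity
  have p4 : (0 : ℝ) ≤ C4 := by positivity
  have p5 : (0 : ℝ) ≤ C5 := by positivity
  have p7 : (0 : ℝ) ≤ b + u2 + u3 + u4 + u5 := by positivity
  have hY : 2 ≤ Y := by linarith
  have hY1 : 1 ≤ Y := by linarith
  have hY0 : 0 ≤ Y := by linarith
  have hN1 : 1 ≤ N := one_le_of_log (by positivity) hN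
  have up : ∀ {x : ℝ} {n : ℕ}, 1 ≤ n → x ≤ Y → x ≤ Y ^ n := fun h hx => hx.trans (le_pw hY1 h)
  have ex : ∀ {a c : ℕ}, a ≤ c → Real.exp (Y ^ a) ≤ Real.exp (Y ^ c) := fun h =>
    Real.exp_le_exp.2 (pw_le hY1 h)
  have en : ∀ {a c : ℕ}, a ≤ c → Real.exp (-Y ^ c) ≤ Real.exp (-Y ^ a) := fun h =>
    Real.exp_le_exp.2 (neg_le_neg (pw_le hY1 h))
  obtain ⟨X, hX, hXp⟩ := hP Y q N Ω (by linarith) hq hN1 hd
  obtain ⟨R, T, γ, θ, c, hR, hNT, hTN, hch⟩ := h1 (Y ^ (C0 + 1)) j q N Q Q' ι φ Ω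
    (up (by omega) (by linarith)) (up (by omega) hq)
    (by rw [← pow_mul, ← hu1]; exact (pw_le hY1 (by omega)).trans hN) hNQ hQ1 hm
  rw [← pow_mul, ← hu1] at hR hNT hch
  have hNq : (0 : ℝ) < (N : ℝ) ^ q := by
    have : (0 : ℝ) < N := by exact_mod_cast hN1
    positivity
  obtain ⟨Ω', hΩ'⟩ : ∃ Ω', Ω' = Ω.filter fun w =>
    Real.exp (-Y ^ C0) * (N : ℝ) ^ q ≤ (fb Ω N (tl w)).card := ⟨_, rfl⟩
  have hsub : Ω' ⊆ Ω := by rw [hΩ']; exact filter_subset _ _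
  have hf1 : ∀ x y, y ∈ fb Ω' N x ↔
      y ∈ fb Ω N x ∧ Real.exp (-Y ^ C0) * (N : ℝ) ^ q ≤ (fb Ω N x).card := fun x y => by
    rw [mem_fb, mem_fb, hΩ', mem_filter, tl_cn, and_assoc]
  have hf2 : ∀ x, Real.exp (-Y ^ C0) * (N : ℝ) ^ q ≤ (fb Ω N x).card → fb Ω' N x = fb Ω N x :=
    fun x hx => by ext y; rw [hf1]; exact ⟨fun h => h.1, fun h => ⟨h, hx⟩⟩
  have hch' : ∀ x, Real.exp (-Y ^ C0) * (N : ℝ) ^ q ≤ (fb Ω N x).card →
      Chs φ Ω N T (Real.exp (-Y ^ u1)) γ θ c x := fun x hx =>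
    hch x (ex_mono hx hNq.le (pw_le hY1 (by omega)))
  obtain ⟨X', β, g2, g3, g4, hX'X, hX', hβ, hrel⟩ := h2 (Y ^ b) q N T R Q Q' ι φ Ω' X γ θ c
    (up (by omega) (by linarith)) (up (by omega) hq) (hR.trans (pw_le hY1 (by omega)))
    (by rw [← pow_mul, ← hu2]; exact (pw_le hY1 (by omega)).trans hN) hNQ hQ1 hQ2
    (hNT.trans (mul_le_mul_of_nonneg_left (ex (by omega)) (by positivity))) hTN
    (fun i W s t hs ht => hm i W s t (fun a => hsub (hs a)) (fun a => hsub (ht a)))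
    (fun x hx => by
      have hne : (fb Ω' N x).Nonempty := by
        rw [← card_pos]
        have : (0 : ℝ) < (fb Ω' N x).card := lt_of_lt_of_le (by positivity) hx
        exact_mod_cast this
      obtain ⟨y0, hy0⟩ := hne
      have hx' := ((hf1 x y0).1 hy0).2
      intro y hy y' hy' m hsl
      exact hch' x hx' y ((hf1 x y).1 hy).1 y' ((hf1 x y').1 hy').1 m (sl_mono hsl (en (by omega))))
    (hX.mono (pw_le hY1 (by omega)))
    (fun x hx i => by
      refine (ex_mono ((hXp x hx).2 i) (by positivity) (pw_le hY1 (by omega : C0 ≤ b))).trans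
        (Nat.cast_le.2 (card_le_card fun p hp => ?_))
      rw [mem_filter] at hp ⊢
      refine ⟨hp.1, ?_⟩
      have k : ∀ {z : Pt j q}, fb Ω N x ∩ fb Ω N (x + ev i p.1) ∩ fb Ω N (x + ev i p.2) ∩
          fb Ω N (x + ev i p.1 + ev i p.2) ⊆ fb Ω N z → fb Ω' N z = fb Ω N z := fun h =>
        hf2 _ (hp.2.trans (Nat.cast_le.2 (card_le_card h)))
      rw [k (fun y hy => (mem_inter.1 (mem_inter.1 (mem_inter.1 hy).1).1).1),
        k (fun y hy => (mem_inter.1 (mem_inter.1 (mem_inter.1 hy).1).1).2),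
        k (fun y hy => (mem_inter.1 (mem_inter.1 hy).1).2), k (fun y hy => (mem_inter.1 hy).2)]
      exact ex_mono hp.2 hNq.le (pw_le hY1 (by omega)))
  rw [← pow_mul, ← hu2] at hX' hβ hrel
  obtain ⟨σ, hσ, hσs, hfac⟩ := hF (Y ^ (u2 + b)) R (Fin 4 × Fin R) β (up (by omega) (by linarith))
    (hR.trans (pw_le hY1 (by omega))) (fun i a r => (hβ i a r).trans (ex (by omega)))
  rw [← pow_mul, ← hu3] at hσ hfac
  have hbig : Real.exp (Y ^ (u3 + u2 + 2)) ≤ N :=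
    exp_le_of_log (by positivity) ((pw_le hY1 (by omega)).trans hN)
  have hc' : ∀ x, ∃ c' : Fin R → ι → ZMod Q, x ∈ X' →
      ∀ m : Fin R → ℤ, zd m (c x) = zd (fun s => σ s ⬝ᵥ m) c' := fun x => by
    by_cases hx : x ∈ X'
    · obtain ⟨c', h⟩ := hfac Q ι (c x)
        ((ex (by omega)).trans (hbig.trans (by exact_mod_cast hNQ))) (fun i v hv hβv =>
          (hrel x hx i).1 v (fun r => by
            refine le_trans ?_ hbig
            have a1 : (v r : ℝ) ^ 2 ≤ Real.exp (Y ^ u3) ^ 2 := by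
              rw [← sq_abs]; exact pow_le_pow_left₀ (abs_nonneg _) (hv r) 2
            refine (mul_le_mul_of_nonneg_right a1 (Real.exp_pos _).le).trans ?_
            rw [← Real.exp_nat_mul, ← Real.exp_add]
            refine Real.exp_le_exp.2 ?_
            have a2 := mul_pw_le hY0 hY u3
            have a3 := add_pw_le hY (by omega : u3 + 1 < u3 + u2 + 2) (by omega : u2 < u3 + u2 + 2)
            push_cast; linarith) hβv)
      exact ⟨c', fun _ => h⟩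
    · exact ⟨0, fun h => absurd h hx⟩
  choose c' hc' using hc'
  obtain ⟨E, hE, hED, hEM⟩ := hS (Y ^ (u4 + u2 + b)) q N Q' 4 (Fin R × Fin q)
    (fun x (p : Fin R × Fin q) => zd (σ p.1) (γ x) p.2) X' (up (by omega) (by linarith))
    (up (by omega) hq) (up (by omega) (by push_cast; linarith)) hN1
    (hX'.mono (pw_le hY1 (by omega))) (fun E hE i => by
      choose n hn using hσs i
      have := hC (Y ^ (u2 + b)) j q N (Fin R × Fin q → ZMod Q')
        (fun x (p : Fin R × Fin q) => zd (σ p.1) (γ x) p.2)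
        (fun z p => (∑ a, n p.1 a • g2 i z a) p.2) (fun z p => (∑ a, n p.1 a • g3 i z a) p.2)
        (fun z p => (∑ a, n p.1 a • g4 i z a) p.2) E i (up (by omega) (by linarith))
        (up (by omega) hq) hN1 (hE.trans hX'.1) (fun x hx => by
          refine (ex_mono (hrel x (hE hx) i).2 (by positivity)
            (pw_le hY1 (by omega : u2 ≤ u2 + b))).trans (Nat.cast_le.2 (card_le_card fun p hp => ?_))
          simp only [mem_filter] at hp ⊢
          refine ⟨hp.1, ?_⟩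
          funext s
          show zd (σ s.1) (γ x) s.2 = _
          rw [hn s.1, zd_sum_smul]
          simp only [hp.2, smul_add, sum_add_distrib, Pi.add_apply])
      rw [← pow_mul, ← hu4] at this
      exact ex_mono this (by positivity) (pw_le hY1 (by omega)))
  rw [← pow_mul, ← hu5] at hED
  refine ⟨R, T, γ, σ, θ, c', E, hR.trans (pw_le hY1 (by omega)),
    hNT.trans (mul_le_mul_of_nonneg_left (ex (by omega)) (by positivity)), hTN,
    fun s r => (hσ s r).trans (ex (by omega)), hED.mono (pw_le hY1 (by omega)), hEM,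
    fun x hx => ?_⟩
  have hx0 := (hXp x (hX'X (hE hx))).1
  refine ⟨ex_mono hx0 hNq.le (pw_le hY1 (by omega)), fun y hy y' hy' m hsl => ?_⟩
  rw [← hc' x (hE hx) m]
  exact hch' x hx0 y hy y' hy' m (sl_mono hsl (en (by omega)))

end Vale.Agent.P057L
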