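import Vale.Agent.P057L.Num

/-! Fixed relations for many parallelograms at every point. -/

set_option linter.all false

open Finset
open scoped BigOperators

namespace Vale.Agent.P057L

open Vale.Agent.P057Z

namespace Pet2

theorem pig {α β : Type} (s : Finset α) (D : Finset β) (P : α → β → Prop) (hD : D.Nonempty)
    (h : ∀ a ∈ s, ∃ d ∈ D, P a d) :
    ∃ d ∈ D, ∃ s' ⊆ s, s.card ≤ D.card * s'.card ∧ ∀ a ∈ s', P a d := by
  classical
  obtain ⟨d, hd, hm⟩ := exists_max_image D (fun d => (s.filter fun a => P a d).card) hD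
  refine ⟨d, hd, _, filter_subset _ _, le_trans ?_ (card_biUnion_le_card_mul D
    (fun d => s.filter fun a => P a d) _ hm), fun a ha => (mem_filter.1 ha).2⟩
  refine card_le_card fun a ha => ?_
  obtain ⟨e, he, hP⟩ := h a ha
  exact mem_biUnion.2 ⟨e, he, mem_filter.2 ⟨ha, hP⟩⟩

variable {j q R Q Q' : ℕ} {ι : Type}

theorem par {H : Type} [AddCommGroup H] {φ : Pt (j + 1) q → H} {Ω : Finset (Pt (j + 1) q)}
    (h : MH φ Ω) {y a b : Vz q} {x : Pt j q} {i : Fin j} (h0 : cn y x ∈ Ω)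
    (h1 : cn y (x + ev i a) ∈ Ω) (h2 : cn y (x + ev i b) ∈ Ω)
    (h3 : cn y (x + ev i a + ev i b) ∈ Ω) :
    φ (cn y x) + φ (cn y (x + ev i a + ev i b)) = φ (cn y (x + ev i a)) + φ (cn y (x + ev i b)) := by
  have e : ∀ c : Vz q, Function.update (cn y x) i.succ (x i + c) = cn y (x + ev i c) := fun c => by
    rw [cn, ← Fin.cons_update (α := fun _ => Vz q)]
    unfold cn ev
    congr 1
    funext k
    by_cases hk : k = i
    · subst hk; simp
    · simp [hk]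
  have e0 : Function.update (cn y x) i.succ (x i) = cn y x := by simpa [ev] using e 0
  have e3 : x + ev i a + ev i b = x + ev i (a + b) := by rw [add_assoc, ev, ev, ev, Pi.single_add]
  rw [e3] at h3 ⊢
  have := h i.succ (cn y x) ![x i, x i + (a + b), x i, x i, x i, x i]
    ![x i + a, x i + b, x i, x i, x i, x i] (fun k => by fin_cases k <;> simp [e, e0, h0, h3])
    (fun k => by fin_cases k <;> simp [e, e0, h0, h1, h2])
    (by simp [Fin.sum_univ_succ]; abel)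
  simp only [Fin.sum_univ_six, Matrix.cons_val, e, e0, add_left_inj] at this
  exact this

/-- the data of a parallelogram -/
abbrev Ix (R q : ℕ) := (Fin 4 × Fin R) × ((Fin 4 × Fin R) ⊕ Fin q)

def bt (d : Ix R q → ℤ) (k : Fin 4) (a : Fin 4 × Fin R) (r : Fin R) : ℤ := d (a, .inl (k, r))

def gk (γ : Pt j q → Fin R → Fin q → ZMod Q') (d : Ix R q → ℤ) (k : Fin 4) (z : Pt j q)
    (a : Fin 4 × Fin R) : Fin q → ZMod Q' := -zd (bt d k a) (γ z)

def g4 (γ : Pt j q → Fin R → Fin q → ZMod Q') (d : Ix R q → ℤ) (z : Pt j q)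
    (a : Fin 4 × Fin R) : Fin q → ZMod Q' := (fun l => (d (a, .inr l) : ZMod Q')) + gk γ d 3 z a

def Vt (c : Fin R → ι → ZMod Q) (W : ℝ) (N : ℕ) (d : Ix R q → ℤ) : Prop :=
  ∀ v : Fin R → ℤ, (∀ r, (v r : ℝ) ^ 2 * Real.exp W ≤ N) → (∀ a, bt d 0 a ⬝ᵥ v = 0) → zd v c = 0

def Rel (γ : Pt j q → Fin R → Fin q → ZMod Q') (x : Pt j q) (i : Fin j) (d : Ix R q → ℤ)
    (p : Vz q × Vz q) : Prop := ∀ a, zd (bt d 0 a) (γ x) = gk γ d 1 (x + ev i p.1) a +
      gk γ d 2 (x + ev i p.2) a + g4 γ d (x + ev i p.1 + ev i p.2) a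

theorem fin [Fact Q'.Prime] {γ : Pt j q → Fin R → Fin q → ZMod Q'} {x : Pt j q} {i : Fin j}
    {p : Vz q × Vz q} {c : Fin R → ι → ZMod Q} {c' : Fin 4 × Fin R → ι → ZMod Q}
    (hc : ∀ r, c' (0, r) = c r) {b : Fin 4 × Fin R → Fin 4 × Fin R → ℤ} {E ρ W : ℝ} {N T : ℕ}
    (h1 : ∀ a r, |(b a r : ℝ)| ≤ E)
    (h2 : ∀ a l, nm (∑ r, (b a r : ZMod Q') * γ (![x, x + ev i p.1, x + ev i p.2,
      x + ev i p.1 + ev i p.2] r.1) r.2 l) * Q' ≤ E)
    (h3 : ∀ v : Fin 4 × Fin R → ℤ, (∀ r, 16 * (v r : ℝ) ^ 2 ≤ ρ ^ 2 * Q') → (∀ a, b a ⬝ᵥ v = 0) →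
      zd v c' = 0) (hW : 4 ≤ ρ ^ 2 * Real.exp W) (hN : 4 * N ≤ Q') :
    ∃ d ∈ Sm (Ix R q) ⌊E⌋₊, Vt c W N d ∧ Rel γ x i d p := by
  have Q0 : (0 : ℝ) < Q' := by exact_mod_cast (Fact.out : Q'.Prime).pos
  have key : ∀ n : ℤ, |(n : ℝ)| ≤ E → n ∈ Icc (-(⌊E⌋₊ : ℤ)) ⌊E⌋₊ := fun n hn => by
    rw [mem_Icc, ← abs_le, Int.abs_eq_natAbs, Int.ofNat_le]
    exact Nat.le_floor (by rwa [Nat.cast_natAbs, Int.cast_abs])
  refine ⟨fun u => Sum.elim (b u.1) (fun l => (∑ r, (b u.1 r : ZMod Q') * γ (![x, x + ev i p.1,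
    x + ev i p.2, x + ev i p.1 + ev i p.2] r.1) r.2 l).valMinAbs) u.2, ?_, fun v hv hb => ?_,
    fun a => ?_⟩
  · refine Fintype.mem_piFinset.2 fun ⟨a, u⟩ => key _ ?_
    rcases u with r | l
    · exact h1 a r
    · have := h2 a l
      rwa [nm, div_mul_cancel₀ _ Q0.ne'] at this
  · have := h3 (fun r => if r.1 = 0 then v r.2 else 0) (fun r => ?_) fun a => ?_
    · simpa [zd, Fintype.sum_prod_type, hc] using this
    · have hN : (4 * N : ℝ) ≤ Q' := by exact_mod_cast hN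
      split_ifs
      · have e := Real.exp_pos W
        have : 16 * (v r.2 : ℝ) ^ 2 * Real.exp W ≤ ρ ^ 2 * Q' * Real.exp W := by
          nlinarith [hv r.2]
        exact le_of_mul_le_mul_right this e
      · simp only [Int.cast_zero]
        nlinarith [sq_nonneg ρ]
    · simpa [dotProduct, Fintype.sum_prod_type, bt] using hb a
  · funext l
    simp [zd, gk, g4, bt, Fintype.sum_prod_type, Fin.sum_univ_four]
    ring

theorem one (hV : VAN) (hC : COVR) : ∃ C : ℕ, ∀ (Y W : ℝ) (j q N T R Q Q' : ℕ) [Fact Q.Prime]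
    [Fact Q'.Prime] (ι : Type) (φ : Pt (j + 1) q → ι → ZMod Q) (Ω : Finset (Pt (j + 1) q))
    (γ : Pt j q → Fin R → Fin q → ZMod Q') (θ : Pt j q → Fin q → ι → ZMod Q)
    (c : Pt j q → Fin R → ι → ZMod Q) (x : Pt j q) (i : Fin j) (p : Vz q × Vz q), (C : ℝ) ≤ Y →
    (q : ℝ) ≤ Y → (R : ℝ) ≤ Y → Y ^ C ≤ W → Y ^ C ≤ Real.log N → N ≤ Q → 4 * N ≤ Q' → Q' ≤ 8 * N →
    N ≤ T * Real.exp Y → T ≤ N → MH φ Ω →
    (∀ x, Real.exp (-Y) * (N : ℝ) ^ q ≤ (fb Ω N x).card → Chs φ Ω N T (Real.exp (-Y)) γ θ c x) →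
    Real.exp (-Y) * (N : ℝ) ^ q ≤ (fb Ω N x ∩ fb Ω N (x + ev i p.1) ∩
      fb Ω N (x + ev i p.2) ∩ fb Ω N (x + ev i p.1 + ev i p.2)).card →
    ∃ d ∈ Sm (Ix R q) ⌊Real.exp (Y ^ C)⌋₊, Vt (c x) W N d ∧ Rel γ x i d p := by
  obtain ⟨A, hV⟩ := hV
  obtain ⟨B, hC⟩ := hC
  refine ⟨(2 * A + 2) * B + 2 * A + B + 8, fun Y W j q N T R Q Q' _ _ ι φ Ω γ θ c x i p hY hq hR hW
    hN NQ h4 h8 NT TN hφ ch hZ => ?_⟩
  push_cast at hY
  have A0 : (0 : ℝ) ≤ A := Nat.cast_nonneg _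
  have B0 : (0 : ℝ) ≤ B := Nat.cast_nonneg _
  have Y8 : 8 ≤ Y := by nlinarith
  have Y1 : 1 ≤ Y := by linarith
  have Y2 : 4 * Y ≤ Y ^ 2 := by nlinarith
  have Y3 : Y ^ 2 ≤ Y ^ (2 * A + 2) := pw_le Y1 (by omega)
  set C := (2 * A + 2) * B + 2 * A + B + 8 with hCd
  have YC : 0 < Y ^ C := by positivity
  have N1 : (1 : ℝ) ≤ N := by exact_mod_cast one_le_of_log YC hN
  have T0 : (0 : ℝ) < T := by
    by_contra h
    nlinarith [Real.exp_pos Y]
  have lT : Real.log N ≤ Real.log T + Y := by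
    have := Real.log_le_log (by linarith) NT
    rwa [Real.log_mul T0.ne' (Real.exp_pos _).ne', Real.log_exp] at this
  set z : Fin 4 → Pt j q := ![x, x + ev i p.1, x + ev i p.2, x + ev i p.1 + ev i p.2] with hz
  set Z := fb Ω N x ∩ fb Ω N (x + ev i p.1) ∩ fb Ω N (x + ev i p.2) ∩
    fb Ω N (x + ev i p.1 + ev i p.2) with hZd
  have sub : ∀ k, Z ⊆ fb Ω N (z k) := fun k y hy => by
    simp only [hZd, mem_inter] at hy
    fin_cases k
    exacts [hy.1.1.1, hy.1.1.2, hy.1.2, hy.2]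
  have cd : (Fintype.card (Fin 4 × Fin R) : ℝ) ≤ Y ^ 2 := by
    rw [Fintype.card_prod, Fintype.card_fin, Fintype.card_fin]
    push_cast
    linarith
  have e4 : Real.exp (-Y) ≤ 1 / 4 := by
    rw [Real.exp_neg, one_div]
    exact inv_anti₀ (by norm_num) (by linarith [Real.add_one_le_exp Y])
  have van := hV (Y ^ 2) (Real.exp (-Y)) q N T Q Q' (Fin 4 × Fin R) ι (fun r => γ (z r.1) r.2) Z
    (θ (z 0) - θ (z 1) - θ (z 2) + θ (z 3)) (fun r => (![1, -1, -1, 1] r.1 : ℤ) • c (z r.1) r.2)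
    (by nlinarith) (by linarith) cd (Real.exp_le_exp.2 (by linarith)) e4 (by exact_mod_cast T0) TN
    (NT.trans (by gcongr; linarith))
    ((exp_le_of_log (by positivity) (le_trans (by rw [← pow_mul]; exact pw_le Y1 (by omega)) hN)).trans
      (by exact_mod_cast NQ))
    (fun y hy => (mem_fb.1 (sub 0 hy)).1) (ex_mono hZ (by positivity) (by linarith))
    (fun y hy y' hy' m hm => by
      have k := fun k => ch (z k) (hZ.trans (by exact_mod_cast card_le_card (sub k))) y (sub k hy)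
        y' (sub k hy') (fun r => m (k, r)) ⟨hm.1, fun r => hm.2 (k, r)⟩
      have m : ∀ y ∈ Z, ∀ k, cn y (z k) ∈ Ω := fun y hy k => (mem_fb.1 (sub k hy)).2
      have p1 := par hφ (m y hy 0) (m y hy 1) (m y hy 2) (m y hy 3)
      have p2 := par hφ (m y' hy' 0) (m y' hy' 1) (m y' hy' 2) (m y' hy' 3)
      have k0 := k 0
      have k1 := k 1
      have k2 := k 2
      have k3 := k 3
      simp only [zd, Fintype.sum_prod_type, Fin.sum_univ_four, Pi.add_apply, Pi.sub_apply, smul_add,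
        smul_sub, sum_add_distrib, sum_sub_distrib, hz] at k0 k1 k2 k3 p1 p2 ⊢
      simp at k0 k1 k2 k3 p1 p2 ⊢
      linear_combination p1 - p2 - k0 + k1 + k2 - k3)
  rw [← pow_mul] at van
  have a1 : Y ^ ((2 * A + 2) * B) + Y ^ 1 ≤ Y ^ ((2 * A + 2) * B + 2) :=
    add_pw_le (by linarith) (by omega) (by omega)
  have a2 : Y ^ ((2 * A + 2) * B + 2) + Y ^ 1 ≤ Y ^ C := add_pw_le (by linarith) (by omega) (by omega)
  rw [pow_one] at a1 a2
  obtain ⟨b, b1, b2, b3⟩ := hC (Y ^ (2 * A + 2)) (Real.exp (-Y ^ (2 * A))) q T Q' (Fin 4 × Fin R)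
    (fun r => γ (z r.1) r.2) (by nlinarith) (by linarith) (cd.trans Y3)
    (Real.exp_le_exp.2 (neg_le_neg (pw_le Y1 (by omega))))
    (Real.exp_le_one_iff.2 (neg_nonpos.2 (by positivity))) (by rw [← pow_mul]; linarith) (by omega)
  rw [← pow_mul] at b1 b2
  refine fin (T := T) (c' := fun r => (![1, -1, -1, 1] r.1 : ℤ) • c (z r.1) r.2) (fun r => by simp [hz])
    (fun a r => (b1 a r).trans (Real.exp_le_exp.2 (by linarith))) (fun a l => ?_)
    (fun v h1 h2 => b3 v h1 h2 _ _ _ van) ?_ h4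
  · have h8 : (Q' : ℝ) ≤ 8 * N := by exact_mod_cast h8
    have e8 : 8 ≤ Real.exp Y := by linarith [Real.add_one_le_exp Y]
    calc _ ≤ Real.exp (Y ^ ((2 * A + 2) * B)) / T * (Real.exp Y * (T * Real.exp Y)) := by
          refine mul_le_mul (b2 a l) (h8.trans (by gcongr)) (by positivity) (by positivity)
      _ = Real.exp (Y ^ ((2 * A + 2) * B) + Y + Y) := by
          rw [Real.exp_add, Real.exp_add]; field_simp
      _ ≤ _ := Real.exp_le_exp.2 (by linarith)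
  · rw [← Real.exp_nat_mul, ← Real.exp_add]
    have a3 := mul_pw_le (by linarith : (0 : ℝ) ≤ Y) (by linarith : (2 : ℝ) ≤ Y) (2 * A)
    have a4 : Y ^ (2 * A + 1) + Y ^ 1 ≤ Y ^ C := add_pw_le (by linarith) (by omega) (by omega)
    rw [pow_one] at a4
    push_cast
    linarith [Real.add_one_le_exp (2 * -Y ^ (2 * A) + W)]

theorem card_D {Y : ℝ} {C : ℕ} (Y8 : 20 ≤ Y) (hq : (q : ℝ) ≤ Y) (hR : (R : ℝ) ≤ Y) :
    ((Sm (Ix R q) ⌊Real.exp (Y ^ C)⌋₊).card : ℝ) ≤ Real.exp (Y ^ (C + 5)) := by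
  have Y1 : 1 ≤ Y := by linarith
  have h1 : ((Icc (-(⌊Real.exp (Y ^ C)⌋₊ : ℤ)) ⌊Real.exp (Y ^ C)⌋₊).card : ℝ) ≤
      Real.exp (Y ^ (C + 2)) := by
    rw [Int.card_Icc, show (⌊Real.exp (Y ^ C)⌋₊ : ℤ) + 1 - -(⌊Real.exp (Y ^ C)⌋₊ : ℤ) =
      ((2 * ⌊Real.exp (Y ^ C)⌋₊ + 1 : ℕ) : ℤ) by push_cast; ring, Int.toNat_natCast]
    have a1 : Y ^ C + Y ^ 1 ≤ Y ^ (C + 2) := add_pw_le (by linarith) (by omega) (by omega)
    have a2 := Nat.floor_le (Real.exp_pos (Y ^ C)).le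
    have a3 : 1 ≤ Real.exp (Y ^ C) := Real.one_le_exp (by positivity)
    have a4 := Real.add_one_le_exp (Y ^ 1)
    have a5 := Real.exp_le_exp.2 a1
    rw [Real.exp_add] at a5
    rw [pow_one] at a4 a5
    push_cast
    nlinarith
  have h2 : (Fintype.card (Ix R q) : ℝ) ≤ Y ^ 3 := by
    simp only [Fintype.card_prod, Fintype.card_sum, Fintype.card_fin]
    push_cast
    have : (0 : ℝ) ≤ R := Nat.cast_nonneg _
    calc _ ≤ 4 * Y * (4 * Y + Y) := by gcongr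
      _ = 20 * Y ^ 2 := by ring
      _ ≤ _ := mul_pw_le (by linarith) Y8 2
  rw [Sm, Fintype.card_piFinset, prod_const, card_univ]
  push_cast
  calc _ ≤ Real.exp (Y ^ (C + 2)) ^ Fintype.card (Ix R q) := by gcongr
    _ = Real.exp (Fintype.card (Ix R q) * Y ^ (C + 2)) := (Real.exp_nat_mul _ _).symm
    _ ≤ Real.exp (Y ^ 3 * Y ^ (C + 2)) := by gcongr
    _ = _ := by rw [← pow_add]; congr 2; omega

theorem dv {Y Z W A n : ℝ} (h : Real.exp (-Y) * A ≤ Real.exp Z * n) (hA : 0 ≤ A) (hW : Y + Z ≤ W) :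
    Real.exp (-W) * A ≤ n := by
  refine ex_mono ?_ hA hW
  refine le_of_mul_le_mul_left (le_trans (le_of_eq ?_) h) (Real.exp_pos Z)
  rw [← mul_assoc, ← Real.exp_add]
  ring_nf

end Pet2

open Pet2

theorem pet2 (hV : VAN) (hC : COVR) : PET2 := by
  classical
  obtain ⟨A, h⟩ := one hV hC
  refine fun j => ⟨A + j + 20, fun Y q N T R Q Q' _ _ ι φ Ω X γ θ c hY hq hR hN NQ h4 h8 NT TN hφ ch
    hX good => ?_⟩
  push_cast at hY
  have A0 : (0 : ℝ) ≤ A := Nat.cast_nonneg _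
  have j0 : (0 : ℝ) ≤ j := Nat.cast_nonneg _
  have Y1 : 1 ≤ Y := by linarith
  have N1 : (1 : ℝ) ≤ N := by exact_mod_cast one_le_of_log (by positivity) hN
  have YA : Y ^ A ≤ Y ^ (A + j + 20) := pw_le Y1 (by omega)
  set D := Sm (Ix R q) ⌊Real.exp (Y ^ A)⌋₊ with hD
  have D0 : D.Nonempty := ⟨0, Fintype.mem_piFinset.2 fun _ => by simp⟩
  have Dc : (D.card : ℝ) ≤ Real.exp (Y ^ (A + 5)) := card_D (by linarith) hq hR
  have a1 : Y ^ 1 + Y ^ (A + 5) ≤ Y ^ (A + j + 20) := add_pw_le (by linarith) (by omega) (by omega)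
  have a2 : Y ^ 1 + Y ^ (A + 5 + 1) ≤ Y ^ (A + j + 20) :=
    add_pw_le (by linarith) (by omega) (by omega)
  rw [pow_one] at a1 a2
  have s1 : ∀ x ∈ X, ∀ i : Fin j, ∃ d ∈ D, Vt (c x) (Y ^ (A + j + 20)) N d ∧
      Real.exp (-Y ^ (A + j + 20)) * (N : ℝ) ^ (2 * q) ≤
        ((sz q N ×ˢ sz q N).filter fun p => Rel γ x i d p).card := by
    intro x hx i
    obtain ⟨d, hd, s, ss, k, hs⟩ := pig _ D (fun p d => Vt (c x) (Y ^ (A + j + 20)) N d ∧ Rel γ x i d p) D0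
      fun p hp => h Y _ j q N T R Q Q' ι φ Ω γ θ c x i p (by linarith) hq hR YA (YA.trans hN) NQ h4
        h8 NT TN hφ ch (mem_filter.1 hp).2
    have k1 := dv ((good x hx i).trans ((Nat.cast_le.2 k).trans (by
      rw [Nat.cast_mul]; exact mul_le_mul_of_nonneg_right Dc (Nat.cast_nonneg _))))
      (by positivity) a1
    obtain ⟨p, hp⟩ := card_pos.1 (Nat.cast_pos.1 (lt_of_lt_of_le (by positivity) k1))
    refine ⟨d, hd, (hs p hp).1, k1.trans (Nat.cast_le.2 (card_le_card fun p hp => ?_))⟩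
    exact mem_filter.2 ⟨(mem_filter.1 (ss hp)).1, (hs p hp).2⟩
  obtain ⟨d, hd, X', ss, k, hs⟩ := pig X (Fintype.piFinset fun _ : Fin j => D) (fun x d => ∀ i,
    Vt (c x) (Y ^ (A + j + 20)) N (d i) ∧ Real.exp (-Y ^ (A + j + 20)) * (N : ℝ) ^ (2 * q) ≤
      ((sz q N ×ˢ sz q N).filter fun p => Rel γ x i (d i) p).card)
    (Fintype.piFinset_nonempty.2 fun _ => D0) fun x hx => by
      choose d h1 h2 using s1 x hx
      exact ⟨d, Fintype.mem_piFinset.2 h1, h2⟩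
  rw [Fintype.card_piFinset, prod_const, card_univ, Fintype.card_fin] at k
  refine ⟨X', fun i => bt (d i) 0, fun i => gk γ (d i) 1, fun i => gk γ (d i) 2,
    fun i => g4 γ (d i), ss, ⟨ss.trans hX.1, dv (hX.2.trans ((Nat.cast_le.2 k).trans ?_))
      (by positivity) a2⟩, fun i a r => ?_, fun x hx i => ⟨(hs x hx i).1, (hs x hx i).2.trans
        (Nat.cast_le.2 (card_le_card fun p hp => mem_filter.2 (mem_filter.1 hp)))⟩⟩
  · rw [Nat.cast_mul, Nat.cast_pow]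
    refine mul_le_mul_of_nonneg_right ((pow_le_pow_left₀ (Nat.cast_nonneg _) Dc j).trans ?_)
      (Nat.cast_nonneg _)
    rw [← Real.exp_nat_mul]
    exact Real.exp_le_exp.2 (mul_pw_le (by linarith) (by linarith) _)
  · have := abs_le.2 (mem_Icc.1 (Fintype.mem_piFinset.1 (Fintype.mem_piFinset.1 hd i)
      (a, .inl (0, r))))
    have h2 : |(bt (d i) 0 a r : ℝ)| ≤ ⌊Real.exp (Y ^ A)⌋₊ := by exact_mod_cast this
    exact h2.trans ((Nat.floor_le (Real.exp_pos _).le).trans (Real.exp_le_exp.2 YA))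

end Vale.Agent.P057L
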