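import Vale.Agent.P057L.Win

/-! Rich lines and hybrids. -/

set_option linter.all false

open Finset
open scoped BigOperators Classical

namespace Vale.Agent.P057L

namespace Prune

/-- the lines that meet a set -/
noncomputable def ln {m : ℕ} (S : Finset (Vz (m + 1))) : Finset (Fin (m + 1) × Vz m) :=
  (univ ×ˢ S).image fun p => (p.1, Fin.removeNth p.1 p.2)

theorem ln_card {m N : ℕ} {S : Finset (Vz (m + 1))} (h : S ⊆ bz (m + 1) N) :
    (ln S).card ≤ (m + 1) * N ^ m := by
  have : ln S ⊆ univ ×ˢ bz m N := by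
    intro p hp
    obtain ⟨x, hx, rfl⟩ := mem_image.mp hp
    exact mem_product.mpr ⟨mem_univ _, Fintype.mem_piFinset.mpr fun i =>
      Fintype.mem_piFinset.mp (h (mem_product.mp hx).2) _⟩
  refine (card_le_card this).trans_eq ?_
  rw [card_product, card_univ, Fintype.card_fin, bz, Win.cp, Win.c1]

theorem same {m : ℕ} {x y : Vz (m + 1)} {l : Fin (m + 1)}
    (h : Fin.removeNth l y = Fin.removeNth l x) : Function.update x l (y l) = y := by
  rw [← Fin.insertNth_removeNth, ← h, Fin.insertNth_self_removeNth]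

/-- the pairs with all hybrids up to the level `l` -/
noncomputable def P {n : ℕ} (S : Finset (Vz n)) (l : ℕ) : Finset (Vz n × Vz n) :=
  (S ×ˢ S).filter fun p => (∀ i : Fin n, l ≤ i → p.2 i = p.1 i) ∧ ∀ k, k ≤ l → hyb k p.1 p.2 ∈ S

theorem P_zero {n : ℕ} (S : Finset (Vz n)) : S.card ≤ (P S 0).card := by
  refine card_le_card_of_injOn (fun x => (x, x)) (fun x hx => mem_coe.mpr (mem_filter.mpr
    ⟨mem_product.mpr ⟨hx, hx⟩, fun _ _ => rfl, fun k _ => ?_⟩)) fun a _ b _ e => congrArg Prod.fst e
  have : hyb k x x = x := funext fun i => ite_self _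
  rw [this]
  exact hx

theorem P_succ {n N : ℕ} (S : Finset (Vz n)) (i : Fin n) :
    ∑ p ∈ P S i, ((rg N).filter fun h => Function.update p.2 i h ∈ S).card ≤
      (P S (i + 1)).card := by
  rw [← card_sigma]
  refine card_le_card_of_injOn (fun p => (p.1.1, Function.update p.1.2 i p.2)) ?_ ?_
  · rintro ⟨⟨x, z⟩, h⟩ hp
    obtain ⟨h1, h2⟩ := mem_sigma.mp (mem_coe.mp hp)
    obtain ⟨h3, h4, h5⟩ := mem_filter.mp h1
    have h6 := (mem_filter.mp h2).2
    have h7 : ∀ k : Fin n, (i : ℕ) + 1 ≤ k → Function.update z i h k = x k := fun k hk => by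
      rw [Function.update_of_ne fun e => by rw [e] at hk; omega]
      exact h4 k (by omega)
    refine mem_coe.mpr (mem_filter.mpr ⟨mem_product.mpr ⟨(mem_product.mp h3).1, h6⟩, h7,
      fun k hk => ?_⟩)
    rcases Nat.lt_or_ge (i : ℕ) k with a | a
    · have : hyb k x (Function.update z i h) = Function.update z i h := funext fun t => by
        unfold hyb
        split_ifs with b
        · rfl
        · exact (h7 t (by omega)).symm
      exact this ▸ h6
    · have : hyb k x (Function.update z i h) = hyb k x z := funext fun t => by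
        unfold hyb
        split_ifs with b
        · exact Function.update_of_ne (fun e => by rw [e] at b; omega) _ _
        · rfl
      exact this ▸ h5 k a
  · rintro ⟨⟨x, z⟩, h⟩ hp ⟨⟨x', z'⟩, h'⟩ hq e
    have a := (mem_filter.mp (mem_sigma.mp (mem_coe.mp hp)).1).2.1 i le_rfl
    have b := (mem_filter.mp (mem_sigma.mp (mem_coe.mp hq)).1).2.1 i le_rfl
    obtain rfl : x = x' := congrArg Prod.fst e
    have e2 : Function.update z i h = Function.update z' i h' := congrArg Prod.snd e
    obtain rfl : h = h' := by simpa using congrFun e2 i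
    obtain rfl : z = z' := funext fun t => by
      by_cases c : t = i
      · rw [c]; exact a.trans b.symm
      · simpa [c] using congrFun e2 t
    rfl

end Prune

open Prune in
theorem prune : PRUNE := by
  intro n N S hn hS
  obtain ⟨m, rfl⟩ : ∃ m, n = m + 1 := ⟨n - 1, by omega⟩
  rcases S.eq_empty_or_nonempty with rfl | ⟨x0, hx0⟩
  · exact ⟨∅, Subset.rfl, by simp, fun x hx => absurd hx (notMem_empty x)⟩
  have N0 : (0 : ℝ) < N := by
    have := mem_Ico.mp (Fintype.mem_piFinset.mp (hS hx0) 0)
    exact_mod_cast this.1.trans_lt this.2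
  set D : ℝ := 2 * ((m + 1 : ℕ) : ℝ) * (N : ℝ) ^ (m + 1 - 1) with hD
  have D0 : 0 < D := by positivity
  obtain ⟨T, hT, hm⟩ := exists_max_image S.powerset
    (fun T => D * (T.card : ℝ) - S.card * ((ln T).card : ℝ)) ⟨S, mem_powerset_self S⟩
  have hTS := mem_powerset.mp hT
  refine ⟨T, hTS, ?_, fun x hx l => ?_⟩
  · have h1 := hm S (mem_powerset_self S)
    have h2 : 2 * ((ln S).card : ℝ) ≤ D := by
      have : ((ln S).card : ℝ) ≤ ((m + 1) * N ^ m : ℕ) := by exact_mod_cast ln_card hS
      rw [hD, Nat.add_sub_cancel]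
      push_cast at this ⊢
      linarith
    have h3 : D * (S.card : ℝ) ≤ D * (2 * T.card) := by
      nlinarith [mul_le_mul_of_nonneg_left h2 (Nat.cast_nonneg (α := ℝ) S.card),
        mul_nonneg (Nat.cast_nonneg (α := ℝ) S.card) (Nat.cast_nonneg (α := ℝ) (ln T).card)]
    exact_mod_cast le_of_mul_le_mul_left h3 D0
  · set T' := T.filter fun y => ¬ Fin.removeNth l y = Fin.removeNth l x with hT'
    have h1 := hm T' (mem_powerset.mpr ((filter_subset _ _).trans hTS))
    have h2 : (ln T').card + 1 ≤ (ln T).card := by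
      refine card_lt_card ⟨image_subset_image (product_subset_product_right (filter_subset _ _)),
        fun h => ?_⟩
      obtain ⟨p, hp, e⟩ := mem_image.mp (h (mem_image_of_mem _
        (mem_product.mpr ⟨mem_univ l, hx⟩ : (l, x) ∈ univ ×ˢ T)))
      obtain ⟨l', y⟩ := p
      obtain rfl : l' = l := congrArg Prod.fst e
      exact (mem_filter.mp (mem_product.mp hp).2).2 (congrArg Prod.snd e)
    have h3 : T.card ≤ ((rg N).filter fun h => Function.update x l h ∈ T).card + T'.card := by
      rw [← card_filter_add_card_filter_not (s := T) fun y => Fin.removeNth l y = Fin.removeNth l x]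
      refine Nat.add_le_add_right (card_le_card_of_injOn (fun y => y l) (fun y hy => ?_)
        fun y hy z hz e => ?_) _
      · obtain ⟨a, b⟩ := mem_filter.mp (mem_coe.mp hy)
        exact mem_coe.mpr (mem_filter.mpr
          ⟨Fintype.mem_piFinset.mp (hS (hTS a)) l, by rw [same b]; exact a⟩)
      · rw [← same (mem_filter.mp (mem_coe.mp hy)).2, ← same (mem_filter.mp (mem_coe.mp hz)).2]
        exact congrArg _ e
    have h4 : ((ln T').card : ℝ) + 1 ≤ (ln T).card := by exact_mod_cast h2
    have h5 : (T.card : ℝ) ≤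
        ((rg N).filter fun h => Function.update x l h ∈ T).card + (T'.card : ℝ) := by
      exact_mod_cast h3
    nlinarith [mul_le_mul_of_nonneg_left h4 (Nat.cast_nonneg (α := ℝ) S.card),
      mul_le_mul_of_nonneg_left h5 D0.le]

open Prune in
theorem hyb_of (hP : PRUNE) : HYB := by
  intro n N S hn hN hS
  obtain ⟨T, hTS, h1, h2⟩ := hP n N S hn hS
  have N0 : (0 : ℝ) < N := by exact_mod_cast hN
  have n1 : (1 : ℝ) ≤ n := by exact_mod_cast hn
  set a : ℝ := S.card / (2 * n * (N : ℝ) ^ (n - 1)) with ha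
  have a0 : 0 ≤ a := by positivity
  have key : ∀ l, l ≤ n → S.card / 2 * a ^ l ≤ ((P T l).card : ℝ) := by
    intro l
    induction l with
    | zero =>
      intro _
      have e1 : (S.card : ℝ) ≤ 2 * T.card := by exact_mod_cast h1
      have e2 : (T.card : ℝ) ≤ (P T 0).card := by exact_mod_cast P_zero T
      rw [pow_zero]
      linarith
    | succ l ih =>
      intro hl
      have e1 : ((∑ p ∈ P T l, ((rg N).filter fun h =>
          Function.update p.2 ⟨l, hl⟩ h ∈ T).card : ℕ) : ℝ) ≤ (P T (l + 1)).card := by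
        exact_mod_cast P_succ (N := N) T ⟨l, hl⟩
      refine le_trans ?_ e1
      rw [Nat.cast_sum, pow_succ, ← mul_assoc]
      refine (mul_le_mul_of_nonneg_right (ih (by omega)) a0).trans ?_
      rw [← nsmul_eq_mul]
      refine card_nsmul_le_sum _ _ _ fun p hp => ?_
      rw [ha, div_le_iff₀' (by positivity)]
      exact h2 p.2 (mem_product.mp (mem_filter.mp hp).1).2 _
  refine le_trans ?_ ((key n le_rfl).trans (Nat.cast_le.mpr (card_le_card fun p hp => ?_)))
  · obtain ⟨m, rfl⟩ : ∃ m, n = m + 1 := ⟨n - 1, by omega⟩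
    have e : a = (S.card : ℝ) / (N : ℝ) ^ (m + 1) / (2 * ((m + 1 : ℕ) : ℝ)) * N := by
      rw [ha, Nat.add_sub_cancel]
      field_simp
      ring
    have e2 : (S.card : ℝ) / (N : ℝ) ^ (m + 1) / (2 * ((m + 1 : ℕ) : ℝ)) * (N : ℝ) ^ (m + 1) ≤
        S.card / 2 := by
      rw [div_div, div_mul_eq_mul_div, div_le_div_iff₀ (by positivity) (by positivity)]
      nlinarith [mul_nonneg (Nat.cast_nonneg (α := ℝ) S.card) (pow_pos N0 (m + 1)).le]
    rw [e]
    refine le_trans (le_of_eq ?_) (mul_le_mul_of_nonneg_right e2 (by positivity))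
    ring
  · obtain ⟨b, -, c⟩ := mem_filter.mp hp
    exact mem_filter.mpr ⟨product_subset_product hTS hTS b, fun l hl => hTS (c l hl)⟩

end Vale.Agent.P057L
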