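import Vale.Agent.P057L.Defs
import Vale.Agent.P057Z.Ke.Nm
import Vale.Agent.P057Z.Ke.Cr

/-! Row SCH: simultaneous recurrence for one monomial. -/

set_option linter.all false

open Finset
open scoped BigOperators

namespace Vale.Agent.P057L

open Vale.Agent.P057Z

namespace Sch

theorem ex_root (S N : ℕ) (hS : 1 ≤ S) : ∃ L : ℕ, L ^ S ≤ N ∧ N < (L + 1) ^ S := by
  induction N with
  | zero => exact ⟨0, by rw [zero_pow (by omega)], by simp⟩
  | succ N ih =>
    obtain ⟨L, h1, h2⟩ := ih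
    by_cases h : N + 1 < (L + 1) ^ S
    · exact ⟨L, by omega, h⟩
    · refine ⟨L + 1, by omega, ?_⟩
      have := Nat.pow_lt_pow_left (show L + 1 < L + 1 + 1 by omega) (show S ≠ 0 by omega)
      omega

theorem iter (hK : KER) (m C : ℕ) (hm : 1 ≤ m) (Q : ℕ) [Fact Q.Prime]
    (hW : ∀ (E : ℕ) (δ : ℝ) (β : ZMod Q), 0 < δ → δ ≤ 1 / 2 → (1 / δ) ^ C ≤ (E : ℝ) →
      δ ≤ ‖𝔼 e ∈ range E, ch (β * (e : ZMod Q) ^ m)‖ →
      ∃ n : ℕ, 1 ≤ n ∧ (n : ℝ) ≤ (1 / δ) ^ C ∧ nm ((n : ZMod Q) * β) ≤ (1 / δ) ^ C / (E : ℝ) ^ m)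
    (ι : Type) [Fintype ι] [DecidableEq ι] (U P : ℕ) (hU : 4 * Fintype.card ι + 8 ≤ U)
    (hP : P = 4 * Fintype.card ι + (3 * Fintype.card ι + 1) * (C + 1)) (n : ℕ) :
    ∀ (t : ℕ) (b : Fin t → ι → ℤ) (a : ι → ZMod Q), Fintype.card ι ≤ t + n →
      (∀ i, b i ∈ Sm ι (U ^ 3)) → LinearIndependent (ZMod Q) (fun i => cs Q (b i)) →
      (∀ i, cs Q (b i) ⬝ᵥ a = 0) →
      ∃ d : ℕ, 1 ≤ d ∧ d ≤ U ^ ((P + 1) * (n + 1)) ∧
        ∀ i, nm ((d : ZMod Q) ^ m * a i) ≤ (n + 1 : ℝ) / U := by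
  set R := Fintype.card ι with hR
  have hU1 : 1 < U := by omega
  have hU0 : (0 : ℝ) < U := by exact_mod_cast (by omega : 0 < U)
  have hU8 : (4 * R + 8 : ℝ) ≤ U := by exact_mod_cast hU
  have hR0 : (0 : ℝ) ≤ R := Nat.cast_nonneg _
  have hUr : (1 : ℝ) ≤ U := by linarith
  have hle : ∀ {x y : ℕ}, x ≤ y → U ^ x ≤ U ^ y := fun h => Nat.pow_le_pow_right (by omega) h
  have key : ∀ (n t : ℕ) (b : Fin t → ι → ℤ) (a : ι → ZMod Q),
      (∀ i, b i ∈ Sm ι (U ^ 3)) → LinearIndependent (ZMod Q) (fun i => cs Q (b i)) →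
      (∀ i, cs Q (b i) ⬝ᵥ a = 0) →
      (∃ d : ℕ, 1 ≤ d ∧ d ≤ U ^ ((P + 1) * (n + 1)) ∧ ∀ i, nm ((d : ZMod Q) ^ m * a i) ≤ 1 / U) ∨
      ∃ (b' : Fin (t + 1) → ι → ℤ) (a' : ι → ZMod Q) (M : ℕ), t + 1 ≤ R ∧
        (∀ i, b' i ∈ Sm ι (U ^ 3)) ∧ LinearIndependent (ZMod Q) (fun i => cs Q (b' i)) ∧
        (∀ i, cs Q (b' i) ⬝ᵥ a' = 0) ∧ 1 ≤ M ∧ M ≤ U ^ P ∧
        ∀ i, nm ((M : ZMod Q) ^ m * a i - a' i) ≤
          ((U : ℝ) ^ P / (U : ℝ) ^ ((P + 1) * (n + 1))) ^ m := by
    intro n t b a hb hi ha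
    set E := U ^ ((P + 1) * (n + 1)) with hE
    have hPE : P + 1 ≤ (P + 1) * (n + 1) := Nat.le_mul_of_pos_right _ (by omega)
    have hV : (0 : ℝ) < (U : ℝ) ^ (3 * R + 1) := by positivity
    have hVP : (3 * R + 1) * (C + 1) ≤ P := by omega
    have hVP1 : 3 * R + 1 ≤ P := (Nat.le_mul_of_pos_right _ (by omega)).trans hVP
    by_cases h : ∀ k ∈ Sm ι (U ^ 3), -(1 / (U : ℝ) ^ (3 * R + 1)) ≤
        (𝔼 e ∈ range E, ch (cs Q k ⬝ᵥ fun i => (e : ZMod Q) ^ m * a i)).re
    · left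
      have h1 := hK Q ι ℕ (range E) (fun e i => (e : ZMod Q) ^ m * a i) (1 / U)
        (1 / (U : ℝ) ^ (3 * R + 1)) (U ^ 3) ⟨0, mem_range.2 (by positivity)⟩ (by positivity)
        (by rw [← hR, one_div, ← div_eq_inv_mul, div_le_one hU0]; linarith)
        (by
          rw [← hR, div_le_iff₀ (by positivity)]
          push_cast
          have : (U : ℝ) ^ 3 * (1 / U) ^ 2 = U := by field_simp
          rw [this]; exact hU8) (by positivity)
        (by
          rw [← hR]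
          push_cast
          have : 4 * (1 / (U : ℝ) ^ (3 * R + 1)) * ((U : ℝ) ^ 3) ^ R = 4 / U := by
            rw [← pow_mul, pow_succ]; field_simp
          rw [this, div_le_one hU0]; linarith) h
      rw [card_range, one_div, ← div_eq_inv_mul, div_le_iff₀ hV] at h1
      have h2 : U ^ (3 * R + 1) < E := Nat.pow_lt_pow_right hU1 (by omega)
      have h3 : ∀ F : Finset ℕ, (E : ℝ) ≤ F.card * (U : ℝ) ^ (3 * R + 1) → 1 < F.card := by
        intro F h1
        by_contra h4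
        have h5 : (F.card : ℝ) ≤ 1 := by exact_mod_cast not_lt.1 h4
        have h6 : (U : ℝ) ^ (3 * R + 1) < E := by exact_mod_cast h2
        nlinarith
      obtain ⟨e, he, he0⟩ := exists_mem_ne (h3 _ h1) 0
      simp only [mem_filter] at he
      obtain ⟨he1, he2⟩ := he
      exact ⟨e, Nat.pos_of_ne_zero he0, (mem_range.1 he1).le, he2⟩
    · right
      push Not at h
      obtain ⟨k, hk, h⟩ := h
      set β := cs Q k ⬝ᵥ a with hβ
      have e1 : ∀ e : ℕ, (cs Q k ⬝ᵥ fun i => (e : ZMod Q) ^ m * a i) = β * (e : ZMod Q) ^ m := by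
        intro e
        simp only [hβ, dotProduct, sum_mul]
        exact sum_congr rfl fun i _ => by ring
      simp only [e1] at h
      have hβ0 : β ≠ 0 := by
        intro h0
        simp only [h0, zero_mul, Ke.ch_zero] at h
        rw [expect_const ⟨0, mem_range.2 (by positivity)⟩, Complex.one_re] at h
        have : 0 < 1 / (U : ℝ) ^ (3 * R + 1) := by positivity
        linarith
      obtain ⟨s, hs1, hs2, hs3⟩ := hW E (1 / (U : ℝ) ^ (3 * R + 1)) β (by positivity)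
        (by
          apply one_div_le_one_div_of_le (by norm_num)
          calc (2 : ℝ) ≤ U := by linarith
            _ = (U : ℝ) ^ 1 := (pow_one _).symm
            _ ≤ _ := pow_le_pow_right₀ hUr (by omega))
        (by
          rw [one_div_one_div, ← pow_mul, hE]
          push_cast
          exact pow_le_pow_right₀ hUr (by nlinarith))
        (by
          have := (Complex.abs_re_le_norm (𝔼 e ∈ range E, ch (β * (e : ZMod Q) ^ m)))
          have h2 := neg_abs_le (𝔼 e ∈ range E, ch (β * (e : ZMod Q) ^ m)).re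
          linarith)
      rw [one_div_one_div, ← pow_mul] at hs2 hs3
      let b' : Fin (t + 1) → ι → ℤ := Fin.cons k b
      have hb' : ∀ i, b' i ∈ Sm ι (U ^ 3) := fun i => Fin.cases hk hb i
      have hi' : LinearIndependent (ZMod Q) (fun i => cs Q (b' i)) := by
        have e2 : (fun i => cs Q (b' i)) = Fin.cons (cs Q k) (fun i => cs Q (b i)) := by
          funext i
          exact Fin.cases rfl (fun _ => rfl) i
        rw [e2]
        refine hi.finCons fun hs => hβ0 ?_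
        refine Submodule.span_induction (p := fun x _ => x ⬝ᵥ a = 0) ?_ (zero_dotProduct _)
          ?_ ?_ hs
        · rintro _ ⟨i, rfl⟩; exact ha i
        · intro x y _ _ hx hy; rw [add_dotProduct, hx, hy, add_zero]
        · intro c x _ hx; rw [smul_dotProduct, hx, smul_zero]
      have ht : t + 1 ≤ R := by
        have := hi'.fintype_card_le_finrank
        rwa [Fintype.card_fin, Module.finrank_fintype_fun_eq_card] at this
      obtain ⟨D, W, hD0, hD, hWb, hDW⟩ := Ke.cramer b' (K0 := U ^ 3) (Nat.one_le_pow _ _ (by omega))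
        (fun a i => abs_le.2 (mem_Icc.1 (Fintype.mem_piFinset.1 (hb' a) i))) hi'
      have hH : (t + 1).factorial * (U ^ 3) ^ (t + 1) ≤ U ^ (4 * R) := by
        calc (t + 1).factorial * (U ^ 3) ^ (t + 1) ≤ U ^ (t + 1) * (U ^ 3) ^ (t + 1) :=
              Nat.mul_le_mul_right _ ((Nat.factorial_le_pow _).trans
                (Nat.pow_le_pow_left (by omega) _))
          _ = U ^ (4 * (t + 1)) := by ring
          _ ≤ _ := hle (by omega)
      have hs4 : s ≤ U ^ ((3 * R + 1) * C) := by exact_mod_cast hs2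
      have hD1 : 1 ≤ D.natAbs := Int.natAbs_pos.2 (by rintro rfl; exact hD0 Int.cast_zero)
      have hD2 : D.natAbs ≤ U ^ (4 * R) := by
        have : (D.natAbs : ℤ) ≤ _ := (Int.natCast_natAbs D).le.trans hD
        exact le_trans (by exact_mod_cast this) hH
      have hBP : U ^ (4 * R) * U ^ ((3 * R + 1) * C) ≤ U ^ P := by
        rw [← pow_add]; exact hle (by nlinarith)
      set M := D.natAbs * s with hM
      have hMP : M ≤ U ^ P := (Nat.mul_le_mul hD2 hs4).trans hBP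
      obtain ⟨m', rfl⟩ : ∃ m', m = m' + 1 := ⟨m - 1, by omega⟩
      let z : ℤ := D.sign * (M : ℤ) ^ m'
      have hz : ((M : ZMod Q)) ^ (m' + 1) = (z : ZMod Q) * s * D := by
        have : ((M : ℤ)) ^ (m' + 1) = z * s * D := by
          have h3 := Int.sign_mul_self D
          simp only [z]
          rw [pow_succ, hM]
          push_cast
          rw [← Int.natCast_natAbs, ← h3]
          ring
        have h4 := congrArg (Int.cast : ℤ → ZMod Q) this
        push_cast at h4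
        exact h4
      refine ⟨b', fun i => (M : ZMod Q) ^ (m' + 1) * a i - ((z * W 0 i : ℤ) : ZMod Q) * (s * β), M,
        ht, hb', hi', fun j => ?_, Nat.mul_pos hD1 hs1, hMP, fun i => ?_⟩
      · have h3 := congrArg (Int.cast : ℤ → ZMod Q) (hDW j 0)
        push_cast at h3
        have h4 : (cs Q (b' j) ⬝ᵥ fun i => (M : ZMod Q) ^ (m' + 1) * a i -
            ((z * W 0 i : ℤ) : ZMod Q) * (s * β)) = (M : ZMod Q) ^ (m' + 1) * (cs Q (b' j) ⬝ᵥ a) -
            z * (s * β) * ∑ i, (b' j i : ZMod Q) * (W 0 i : ZMod Q) := by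
          simp only [dotProduct, cs, mul_sum, ← sum_sub_distrib]
          refine sum_congr rfl fun i _ => ?_
          push_cast
          ring
        rw [h4, h3]
        refine Fin.cases ?_ (fun j => ?_) j
        · rw [if_pos rfl, hz]
          change _ * β - _ = 0
          ring
        · rw [if_neg (Fin.succ_ne_zero j)]
          change _ * (cs Q (b j) ⬝ᵥ a) - _ = 0
          rw [ha, mul_zero, mul_zero, sub_zero]
      · rw [sub_sub_cancel]
        refine (Ke.nm_int_mul_le _ _).trans ?_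
        have h3 : |((z * W 0 i : ℤ) : ℝ)| ≤ ((U : ℝ) ^ P) ^ m' * (U : ℝ) ^ (4 * R) := by
          have h4 : |z| ≤ ((U : ℤ) ^ P) ^ m' := by
            simp only [z]
            rw [abs_mul, Int.abs_sign_of_ne_zero (by rintro rfl; exact hD0 Int.cast_zero), one_mul,
              abs_pow, Nat.abs_cast]
            exact pow_le_pow_left₀ (by positivity) (by exact_mod_cast hMP) _
          have h5 : |W 0 i| ≤ (U : ℤ) ^ (4 * R) := (hWb 0 i).trans (by exact_mod_cast hH)
          have h6 := mul_le_mul h4 h5 (abs_nonneg _) (by positivity)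
          rw [← abs_mul] at h6
          exact_mod_cast h6
        have h7 : (U : ℝ) ^ (4 * R) * (U : ℝ) ^ ((3 * R + 1) * C) ≤ (U : ℝ) ^ P := by
          exact_mod_cast hBP
        calc _ ≤ ((U : ℝ) ^ P) ^ m' * (U : ℝ) ^ (4 * R) *
              ((U : ℝ) ^ ((3 * R + 1) * C) / (E : ℝ) ^ (m' + 1)) :=
              mul_le_mul h3 hs3 (Ke.nm_nonneg _) (by positivity)
          _ = ((U : ℝ) ^ P) ^ m' * ((U : ℝ) ^ (4 * R) * (U : ℝ) ^ ((3 * R + 1) * C)) /
              (E : ℝ) ^ (m' + 1) := by ring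
          _ ≤ ((U : ℝ) ^ P) ^ m' * (U : ℝ) ^ P / (E : ℝ) ^ (m' + 1) := by gcongr
          _ = _ := by rw [div_pow, ← pow_succ, hE]; push_cast; rfl
  induction n with
  | zero =>
    intro t b a ht hb hi ha
    rcases key 0 t b a hb hi ha with ⟨d, h1, h2, h3⟩ | ⟨_, _, _, h, -⟩
    · exact ⟨d, h1, h2, fun i => by simpa using h3 i⟩
    · omega
  | succ n ih =>
    intro t b a ht hb hi ha
    rcases key (n + 1) t b a hb hi ha with ⟨d, h1, h2, h3⟩ | ⟨b', a', M, -, h1, h2, h3, h4, h5, h6⟩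
    · refine ⟨d, h1, h2, fun i => (h3 i).trans ?_⟩
      gcongr
      have : (0 : ℝ) ≤ ((n + 1 : ℕ) : ℝ) := Nat.cast_nonneg _
      linarith
    · obtain ⟨d, g1, g2, g3⟩ := ih (t + 1) b' a' (by omega) h1 h2 h3
      refine ⟨d * M, Nat.mul_pos g1 h4, (Nat.mul_le_mul g2 h5).trans ?_, fun i => ?_⟩
      · rw [← pow_add]; exact hle (by nlinarith)
      · have e1 : ((d * M : ℕ) : ZMod Q) ^ m * a i = (d : ZMod Q) ^ m * a' i +
            ((d ^ m : ℕ) : ZMod Q) * ((M : ZMod Q) ^ m * a i - a' i) := by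
          push_cast; ring
        rw [e1]
        refine (Ke.nm_add_le _ _).trans ?_
        have h7 := (Ke.nm_nat_mul_le (d ^ m) _).trans
          (mul_le_mul_of_nonneg_left (h6 i) (Nat.cast_nonneg _))
        have h8 : ((d ^ m : ℕ) : ℝ) * ((U : ℝ) ^ P / (U : ℝ) ^ ((P + 1) * (n + 1 + 1))) ^ m ≤
            1 / U := by
          push_cast
          rw [← mul_pow]
          have g4 : (d : ℝ) ≤ (U : ℝ) ^ ((P + 1) * (n + 1)) := by exact_mod_cast g2
          have h9 : (d : ℝ) * ((U : ℝ) ^ P / (U : ℝ) ^ ((P + 1) * (n + 1 + 1))) ≤ 1 / U := by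
            calc _ ≤ (U : ℝ) ^ ((P + 1) * (n + 1)) *
                ((U : ℝ) ^ P / (U : ℝ) ^ ((P + 1) * (n + 1 + 1))) := by gcongr
              _ = 1 / U := by
                rw [show (P + 1) * (n + 1 + 1) = (P + 1) * (n + 1) + P + 1 by ring, pow_succ,
                  pow_add]
                field_simp
          have h10 : 1 / (U : ℝ) ≤ 1 := by rw [div_le_one hU0]; exact hUr
          calc _ ≤ (1 / (U : ℝ)) ^ m := pow_le_pow_left₀ (by positivity) h9 _
            _ ≤ (1 / (U : ℝ)) ^ 1 := pow_le_pow_of_le_one (by positivity) h10 hm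
            _ = _ := pow_one _
        have h11 := g3 i
        have h12 : ((n + 1 : ℕ) + 1 : ℝ) / U = (n + 1 : ℝ) / U + 1 / U := by push_cast; ring
        linarith

end Sch

theorem sch (hK : KER) (hW : WEYL) : SCH := by
  intro m hm
  obtain ⟨C, hC⟩ := hW m hm
  refine ⟨60 * (C + 1) + 5, fun Y N Q _ ι _ _ a hY hR hN hQ => ?_⟩
  set R := Fintype.card ι with hRd
  set P := 4 * R + (3 * R + 1) * (C + 1) with hP
  set S := 2 * ((P + 1) * (R + 1)) + 1 with hS
  obtain ⟨L, hL1, hL2⟩ := Sch.ex_root S N (by omega)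
  push_cast at hY
  have hC0 : (0 : ℝ) ≤ C := Nat.cast_nonneg _
  have hR0 : (0 : ℝ) ≤ R := Nat.cast_nonneg _
  have hY1 : (65 : ℝ) ≤ Y := by linarith
  have hS3 : (S : ℝ) ≤ Y ^ 3 := by
    have h1 : (P + 1 : ℝ) ≤ 9 * (C + 1) * Y := by
      rw [hP]; push_cast; nlinarith
    have h2 : (P + 1 : ℝ) * (R + 1) ≤ 9 * (C + 1) * Y * (2 * Y) :=
      mul_le_mul h1 (by linarith) (by positivity) (by positivity)
    have h3 : 60 * (C + 1) * Y ^ 2 ≤ Y ^ 3 := by
      rw [pow_succ' Y 2]; exact mul_le_mul_of_nonneg_right (by linarith) (by positivity)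
    rw [hS]; push_cast; nlinarith
  have hY5 : Y ^ 5 ≤ Y ^ (60 * (C + 1) + 5) := pow_le_pow_right₀ (by linarith) (by omega)
  have hN0 : (0 : ℝ) < N := by
    rcases Nat.eq_zero_or_pos N with rfl | h
    · rw [Nat.cast_zero, Real.log_zero] at hN
      have : 0 < Y ^ (60 * (C + 1) + 5) := by positivity
      linarith
    · exact_mod_cast h
  have hlog : Real.log N ≤ Y ^ 3 * Real.log (L + 1) := by
    have h1 : (N : ℝ) ≤ (L + 1 : ℝ) ^ S := by exact_mod_cast hL2.le
    have h2 := Real.log_le_log hN0 h1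
    rw [Real.log_pow] at h2
    exact h2.trans (mul_le_mul_of_nonneg_right hS3 (Real.log_nonneg (by
      have : (0 : ℝ) ≤ L := Nat.cast_nonneg _
      linarith)))
  have hL0 : (0 : ℝ) ≤ L := Nat.cast_nonneg _
  have hLY : Y ^ 2 ≤ L := by
    have h1 := Real.log_le_sub_one_of_pos (show (0 : ℝ) < L + 1 by linarith)
    have h2 : Y ^ 3 * Y ^ 2 ≤ Y ^ 3 * L := by
      calc Y ^ 3 * Y ^ 2 = Y ^ 5 := by ring
        _ ≤ Y ^ 3 * Real.log (L + 1) := hY5.trans (hN.trans hlog)
        _ ≤ _ := mul_le_mul_of_nonneg_left (by linarith) (by positivity)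
    exact le_of_mul_le_mul_left h2 (by positivity)
  have hLR : (R + 4 : ℝ) ≤ L := by nlinarith
  have hLR' : R + 4 ≤ L := by exact_mod_cast hLR
  obtain ⟨d, h1, h2, h3⟩ := Sch.iter hK m C hm Q (hC Q) ι (L ^ 2) P (by nlinarith) hP R 0
    (fun i => i.elim0) a (by omega) (fun i => i.elim0) linearIndependent_empty_type
    (fun i => i.elim0)
  refine ⟨d, L, h1, le_trans ?_ hL1, ⟨by omega, hlog.trans ?_⟩, fun i => (h3 i).trans ?_⟩
  · rw [hS, pow_succ, pow_mul]
    exact Nat.mul_le_mul_right _ h2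
  · have h4 : Real.log (L + 1) ≤ 2 * Real.log L := by
      have := Real.log_le_log (show (0 : ℝ) < L + 1 by linarith)
        (show (L + 1 : ℝ) ≤ L ^ 2 by nlinarith)
      rwa [Real.log_pow] at this
    have h5 : 0 ≤ Real.log L := Real.log_nonneg (by linarith)
    calc Y ^ 3 * Real.log (L + 1) ≤ Y ^ 3 * (2 * Real.log L) := by gcongr
      _ = 2 * Y ^ 3 * Real.log L := by ring
      _ ≤ _ := mul_le_mul_of_nonneg_right (le_trans (by
        rw [show Y ^ 5 = Y ^ 2 * Y ^ 3 by ring]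
        exact mul_le_mul_of_nonneg_right (by nlinarith) (by positivity)) hY5) h5
  · push_cast
    rw [div_le_div_iff₀ (by nlinarith) (by linarith)]
    nlinarith

theorem kh0 (hS : SCH) : ∀ m : ℕ, 1 ≤ m → KH 0 m := by
  intro m hm
  obtain ⟨C, hC⟩ := hS m hm
  refine ⟨C, fun Y q N Q _ ι _ _ φ Ω hY _ _ hι hN hQ hd _ => ?_⟩
  obtain ⟨W0, hW0⟩ : Ω.Nonempty := by
    rw [← card_pos]
    have h1 : (0 : ℝ) < Ω.card := lt_of_lt_of_le (by simp [Real.exp_pos]) hd.2
    exact_mod_cast h1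
  obtain ⟨d, L, h1, h2, h3, h4⟩ := hC Y N Q ι (φ W0) hY hι hN hQ
  have e : ∀ t : Pt 0 q, lc W0 d t = W0 := fun t => Subsingleton.elim _ _
  refine ⟨W0, d, L, bp 0 q L, h1, h2, h3, fun t ht => ?_, ⟨Subset.rfl, ?_⟩, fun t _ i => ?_⟩
  · classical
    exact mem_filter.2 ⟨ht, by rw [e]; exact hW0⟩
  · have h5 : (0 : ℝ) ≤ Y := (Nat.cast_nonneg _).trans hY
    have h6 : 1 ≤ (bp 0 q L).card := card_pos.2 ⟨W0, Fintype.mem_piFinset.2 fun i => i.elim0⟩
    have h7 : (1 : ℝ) ≤ (bp 0 q L).card := by exact_mod_cast h6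
    rw [zero_mul, pow_zero, mul_one]
    exact (Real.exp_le_one_iff.2 (neg_nonpos.2 (pow_nonneg h5 _))).trans h7
  · rw [e]; exact h4 i

end Vale.Agent.P057L
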