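import Vale.Agent.P057L.Khb

/-! Row SLC: the slopes form a multi-homomorphism. -/

set_option linter.all false

open Finset
open scoped BigOperators

namespace Vale.Agent.P057L

open Vale.Agent.P057Z

namespace Slc

open Classical in
/-- many stars in a dense set -/
theorem stars (hP : PRUNE) {q L : ℕ} {Y : ℝ} (hY : 8 ≤ Y) (hq1 : 1 ≤ q) (hq : (q : ℝ) ≤ Y)
    (hL : Real.exp (3 * Y) ≤ L) (S : Finset (Vz q)) (hS : S ⊆ bz q L)
    (hd : Real.exp (-(Y + 1)) * (L : ℝ) ^ q ≤ S.card) :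
    Real.exp (-(3 * Y)) ^ (q + 1) * ((L : ℝ) ^ q * (L : ℝ) ^ q) ≤
      ((bz q L ×ˢ bz q L).filter fun p => p.1 ∈ S ∧
        ∀ l, p.2 l ≠ p.1 l ∧ Function.update p.1 l (p.2 l) ∈ S).card := by
  obtain ⟨S', h1, h2, h3⟩ := hP q L S hq1 hS
  have hL0 : (0 : ℝ) < L := (Real.exp_pos _).trans_le hL
  have e0 := Real.exp_pos (-(3 * Y))
  have e1 : 4 * Y * Real.exp (-(3 * Y)) ≤ Real.exp (-(Y + 1)) := by
    have a1 : 4 * Y ≤ Real.exp Y := by
      have := Real.quadratic_le_exp_of_nonneg (show 0 ≤ Y by linarith)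
      nlinarith
    refine (mul_le_mul_of_nonneg_right a1 e0.le).trans ?_
    rw [← Real.exp_add]
    exact Real.exp_le_exp.2 (by linarith)
  have e2 : 1 ≤ Real.exp (-(3 * Y)) * L := by
    rw [Real.exp_neg, ← div_eq_inv_mul, le_div_iff₀ (Real.exp_pos _), one_mul]
    exact hL
  set a := Real.exp (-(3 * Y)) with ha
  let G : Vz q → Fin q → Finset ℤ := fun x l =>
    ((rg L).filter fun h => Function.update x l h ∈ S').erase (x l)
  have g1 : ∀ x ∈ S', ∀ l, a * L ≤ (G x l).card := by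
    intro x hx l
    have b1 := hd.trans (h3 x hx l)
    have b2 : ((rg L).filter fun h => Function.update x l h ∈ S').card ≤ (G x l).card + 1 := by
      have := pred_card_le_card_erase
        (s := (rg L).filter fun h => Function.update x l h ∈ S') (a := x l)
      simp only [G]
      omega
    have b3 : (((rg L).filter fun h => Function.update x l h ∈ S').card : ℝ) ≤
        (G x l).card + 1 := by exact_mod_cast b2
    have b4 : (L : ℝ) ^ q = L * (L : ℝ) ^ (q - 1) := by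
      rw [← pow_succ']; congr 1; omega
    have b5 : (0 : ℝ) < (L : ℝ) ^ (q - 1) := by positivity
    have b6 : 4 * Y * a * L * (L : ℝ) ^ (q - 1) ≤
        2 * Y * ((G x l).card + 1) * (L : ℝ) ^ (q - 1) := by
      calc 4 * Y * a * L * (L : ℝ) ^ (q - 1) = 4 * Y * a * (L : ℝ) ^ q := by rw [b4]; ring
        _ ≤ Real.exp (-(Y + 1)) * (L : ℝ) ^ q := by gcongr
        _ ≤ _ := b1
        _ ≤ 2 * Y * (L : ℝ) ^ (q - 1) * ((G x l).card + 1) := by gcongr
        _ = _ := by ring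
    have b7 := le_of_mul_le_mul_right b6 b5
    have b8 : 2 * (a * L) ≤ (G x l).card + 1 :=
      le_of_mul_le_mul_left (a := 2 * Y) (by linarith) (by linarith)
    linarith
  have g2 : a * (L : ℝ) ^ q ≤ S'.card := by
    have b1 : (S.card : ℝ) ≤ 2 * S'.card := by exact_mod_cast h2
    have b2 : 2 * a * (L : ℝ) ^ q ≤ Real.exp (-(Y + 1)) * (L : ℝ) ^ q :=
      mul_le_mul_of_nonneg_right (by nlinarith) (by positivity)
    linarith
  have g3 : (S'.sigma fun x => Fintype.piFinset (G x)).card ≤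
      ((bz q L ×ˢ bz q L).filter fun p => p.1 ∈ S ∧
        ∀ l, p.2 l ≠ p.1 l ∧ Function.update p.1 l (p.2 l) ∈ S).card := by
    refine card_le_card_of_injOn (fun p => (p.1, p.2)) (fun p hp => ?_) ?_
    · obtain ⟨b1, b2⟩ := mem_sigma.1 (mem_coe.1 hp)
      have b3 := fun l => mem_erase.1 (Fintype.mem_piFinset.1 b2 l)
      exact mem_coe.2 (mem_filter.2 ⟨mem_product.2 ⟨hS (h1 b1), Fintype.mem_piFinset.2 fun l =>
        (mem_filter.1 (b3 l).2).1⟩, h1 b1, fun l => ⟨(b3 l).1, h1 (mem_filter.1 (b3 l).2).2⟩⟩)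
    · rintro ⟨x, y⟩ - ⟨x', y'⟩ - h
      obtain ⟨rfl, rfl⟩ := Prod.mk.inj h
      rfl
  refine le_trans ?_ (Nat.cast_le.2 g3)
  rw [card_sigma]
  push_cast
  calc a ^ (q + 1) * ((L : ℝ) ^ q * (L : ℝ) ^ q) = a * (L : ℝ) ^ q * (a * L) ^ q := by ring
    _ ≤ S'.card * (a * L) ^ q := by gcongr
    _ = ∑ x ∈ S', (a * L) ^ q := by rw [sum_const, nsmul_eq_mul]
    _ ≤ _ := sum_le_sum fun x hx => by
      rw [Fintype.card_piFinset]
      push_cast
      calc (a * L) ^ q = ∏ _l : Fin q, (a * L) := by simp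
        _ ≤ _ := prod_le_prod (fun _ _ => by positivity) fun l _ => g1 x hx l

theorem zd_upd {q : ℕ} {H : Type} [AddCommGroup H] (t : Vz q) (l : Fin q) (h : ℤ) (θ : Fin q → H) :
    zd (Function.update t l h - t) θ = (h - t l) • θ l := by
  unfold zd
  rw [sum_eq_single l (fun i _ hi => by simp [hi]) (fun h => (h (mem_univ _)).elim)]
  simp

end Slc

theorem slc (hB : BAS) (hP : PRUNE) : SLC := by
  classical
  intro j
  refine ⟨8, fun Y q L Q _ ι φ Ω Θ hY hq1 hq hL hQ hd hM hS => ?_⟩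
  have hY8 : (8 : ℝ) ≤ Y := by exact_mod_cast hY
  have y3 : Y ^ 3 ≤ Y ^ 8 := pow_le_pow_right₀ (by linarith) (by norm_num)
  have y2 : 3 * Y * (Y + 1) + (Y + 1) ≤ Y ^ 3 := by nlinarith [sq_nonneg Y]
  have y1 : 3 * Y ≤ Y ^ 8 := by nlinarith
  have hL1 : 1 ≤ L := one_le_of_log (by linarith) (y1.trans hL)
  have hL0 : (0 : ℝ) < L := by exact_mod_cast hL1
  obtain ⟨t0, X0, -, x1, x2⟩ := slice hB hd hL1
  let F : Pt j q → Finset (Vz q × Vz q) := fun u => (bz q L ×ˢ bz q L).filter fun p =>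
    p.1 ∈ fb Ω L u ∧ ∀ l, p.2 l ≠ p.1 l ∧ Function.update p.1 l (p.2 l) ∈ fb Ω L u
  have f1 : ∀ u ∈ X0, Real.exp (-(3 * Y)) ^ (q + 1) * ((L : ℝ) ^ q * (L : ℝ) ^ q) ≤ (F u).card :=
    fun u hu => by
      have := Slc.stars hP hY8 hq1 hq (exp_le_of_log (by linarith) (y1.trans hL)) (fb Ω L u)
        (fun y hy => (mem_fb.1 hy).1) (x2 u hu).2
      convert this
  have hne : (bz q L ×ˢ bz q L).Nonempty := by
    rw [← card_pos, card_product, (hB.1 q L).1]
    positivity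
  obtain ⟨p, hp, h⟩ := exists_le_of_sum_le (f := fun _ => Real.exp (-(3 * Y)) ^ (q + 1) * X0.card)
    (g := fun p => ((X0.filter fun u => p ∈ F u).card : ℝ)) hne (by
      rw [sum_card_swap _ X0 F fun u => filter_subset _ _, sum_const, card_product, (hB.1 q L).1,
        nsmul_eq_mul]
      refine le_trans (le_of_eq ?_) (sum_le_sum f1)
      rw [sum_const, nsmul_eq_mul]
      push_cast
      ring)
  have hX : ∀ u ∈ X0.filter fun u => p ∈ F u, cn p.1 u ∈ Ω ∧
      ∀ l, p.2 l ≠ p.1 l ∧ cn (Function.update p.1 l (p.2 l)) u ∈ Ω := fun u hu => by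
    obtain ⟨-, a1, a2⟩ := mem_filter.1 (mem_filter.1 hu).2
    exact ⟨(mem_fb.1 a1).2, fun l => ⟨(a2 l).1, (mem_fb.1 (a2 l).2).2⟩⟩
  refine ⟨X0.filter fun u => p ∈ F u, ⟨(filter_subset _ _).trans x1.1, le_trans ?_ h⟩, ?_,
    fun x hx => ex_mono (x2 x (mem_filter.1 hx).1).2 (by positivity) (by nlinarith)⟩
  · refine le_trans ?_ (mul_le_mul_of_nonneg_left x1.2 (by positivity))
    rw [← mul_assoc, ← Real.exp_nat_mul, ← Real.exp_add]
    refine mul_le_mul_of_nonneg_right (Real.exp_le_exp.2 ?_) (by positivity)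
    push_cast
    nlinarith
  · intro i W s t hs ht hst
    funext ⟨l, a⟩
    have m0 := hB.2.2.2.2.2.2.2.1 j q _ φ Ω _ p.1 hM (fun u hu => (hX u hu).1) i W s t hs ht hst
    have m1 := hB.2.2.2.2.2.2.2.1 j q _ φ Ω _ (Function.update p.1 l (p.2 l)) hM
      (fun u hu => ((hX u hu).2 l).2) i W s t hs ht hst
    have m2 : ∀ r : Fin 6 → Vz q, (∀ b, Function.update W i (r b) ∈ X0.filter fun u => p ∈ F u) →
        ∑ b, φ (cn (Function.update p.1 l (p.2 l)) (Function.update W i (r b))) -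
          ∑ b, φ (cn p.1 (Function.update W i (r b))) =
        (p.2 l - p.1 l) • ∑ b, Θ (Function.update W i (r b)) l := fun r hr => by
      rw [← sum_sub_distrib, smul_sum]
      refine sum_congr rfl fun b _ => ?_
      rw [hS _ _ _ ((hX _ (hr b)).2 l).2 (hX _ (hr b)).1, Slc.zd_upd]
    have m3 := congrFun ((m2 s hs).symm.trans ((congrArg₂ (· - ·) m1 m0).trans (m2 t ht))) a
    simp only [Pi.smul_apply, Finset.sum_apply, zsmul_eq_mul] at m3 ⊢
    refine mul_left_cancel₀ (fun h0 => ?_) m3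
    have b1 := mem_Ico.1 (Fintype.mem_piFinset.1 (mem_product.1 hp).1 l)
    have b2 := mem_Ico.1 (Fintype.mem_piFinset.1 (mem_product.1 hp).2 l)
    have b3 := ((hX _ (hs 0)).2 l).1
    have b4 := (ZMod.intCast_zmod_eq_zero_iff_dvd _ _).1 h0
    exact b3 (sub_eq_zero.1 (Int.eq_zero_of_abs_lt_dvd b4 (abs_lt.2 (by omega))))

end Vale.Agent.P057L
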