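import Vale.Agent.P057L.Defs

/-! The lemma of Steinitz with the constant of Grinberg and Sevastyanov. -/

set_option linter.all false

open Finset
open scoped BigOperators

namespace Vale.Agent.P057L

noncomputable section

namespace Stz

variable {D : Type} [Fintype D] {m : ℕ}

/-- feasible weights -/
def Fe (v : Fin m → D → ℝ) (s : ℝ) (μ : Fin m → ℝ) : Prop :=
  (∀ i, 0 ≤ μ i ∧ μ i ≤ 1) ∧ ∑ i, μ i = s ∧ ∑ i, μ i • v i = 0

open Classical in
/-- the fractional coordinates -/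
def fr (μ : Fin m → ℝ) : Finset (Fin m) := univ.filter fun i => μ i ≠ 0 ∧ μ i ≠ 1

theorem mem_fr {μ : Fin m → ℝ} {i : Fin m} : i ∈ fr μ ↔ μ i ≠ 0 ∧ μ i ≠ 1 := by
  simp [fr]

theorem dep (v : Fin m → D → ℝ) (F : Finset (Fin m)) (h : Fintype.card D + 1 < F.card) :
    ∃ c : Fin m → ℝ, (∀ i, i ∉ F → c i = 0) ∧ ∑ i, c i = 0 ∧ ∑ i, c i • v i = 0 ∧
      ∃ i ∈ F, c i ≠ 0 := by
  have nl : ¬ LinearIndependent ℝ (fun i : F => ((1, v i) : ℝ × (D → ℝ))) := by
    intro k
    have := k.fintype_card_le_finrank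
    rw [Module.finrank_prod, Module.finrank_self, Module.finrank_fintype_fun_eq_card,
      Fintype.card_coe] at this
    omega
  obtain ⟨g, g1, i₀, g2⟩ := Fintype.not_linearIndependent_iff.1 nl
  have key : ∑ i, (if k : i ∈ F then g ⟨i, k⟩ else 0) • ((1, v i) : ℝ × (D → ℝ)) = 0 := by
    rw [← g1, ← Finset.sum_subset (subset_univ F) (fun i _ k => by rw [dif_neg k, zero_smul]),
      ← Finset.sum_coe_sort F]
    exact Finset.sum_congr rfl fun i _ => by rw [dif_pos i.2]
  refine ⟨fun i => if k : i ∈ F then g ⟨i, k⟩ else 0, fun i k => dif_neg k, ?_, ?_, i₀, i₀.2, ?_⟩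
  · have := congrArg Prod.fst key
    rw [Prod.fst_sum] at this
    simpa only [Prod.smul_mk, smul_eq_mul, mul_one, Prod.fst_zero] using this
  · have := congrArg Prod.snd key
    rw [Prod.snd_sum] at this
    simpa only [Prod.smul_mk, Prod.snd_zero] using this
  · show (if k : (i₀ : Fin m) ∈ F then g ⟨i₀, k⟩ else 0) ≠ 0
    rw [dif_pos i₀.2]
    exact g2

theorem red {v : Fin m → D → ℝ} {s : ℝ} {μ : Fin m → ℝ} (h : Fe v s μ)
    (k : Fintype.card D + 1 < (fr μ).card) : ∃ μ', Fe v s μ' ∧ (fr μ').card < (fr μ).card := by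
  classical
  obtain ⟨c, c0, c1, c2, i₁, m1, n1⟩ := dep v (fr μ) k
  obtain ⟨i₀, m0, hmin⟩ := exists_min_image (univ.filter fun i => c i ≠ 0)
    (fun i => if 0 < c i then (1 - μ i) / c i else -μ i / c i) ⟨i₁, by simpa using n1⟩
  have n0 : c i₀ ≠ 0 := by simpa using m0
  set t := if 0 < c i₀ then (1 - μ i₀) / c i₀ else -μ i₀ / c i₀ with ht
  have t0 : 0 ≤ t := by
    rw [ht]
    split_ifs with p
    · exact div_nonneg (by linarith [(h.1 i₀).2]) p.le
    · exact div_nonneg_of_nonpos (by linarith [(h.1 i₀).1]) (not_lt.1 p)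
  refine ⟨fun i => μ i + t * c i, ⟨fun i => ?_, ?_, ?_⟩, ?_⟩
  · obtain ⟨a, b⟩ := h.1 i
    rcases lt_trichotomy (c i) 0 with p | p | p
    · have q : t ≤ -μ i / c i := by
        have := hmin i (by simpa using p.ne)
        rwa [if_neg (not_lt.2 p.le)] at this
      rw [le_div_iff_of_neg p] at q
      exact ⟨by linarith, by nlinarith⟩
    · simp [p, a, b]
    · have q : t ≤ (1 - μ i) / c i := by
        have := hmin i (by simpa using p.ne')
        rwa [if_pos p] at this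
      rw [le_div_iff₀ p] at q
      exact ⟨by nlinarith, by linarith⟩
  · rw [sum_add_distrib, ← mul_sum, c1, h.2.1, mul_zero, add_zero]
  · simp only [add_smul, mul_smul]
    rw [sum_add_distrib, ← smul_sum, c2, h.2.2, smul_zero, add_zero]
  · have m2 : i₀ ∈ fr μ := by
      by_contra p
      exact n0 (c0 i₀ p)
    refine card_lt_card ⟨fun i p => ?_, fun p => ?_⟩
    · by_contra q
      rw [mem_fr] at p
      rw [c0 i q, mul_zero, add_zero] at p
      exact q (mem_fr.2 p)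
    · have q := mem_fr.1 (p m2)
      rw [ht] at q
      split_ifs at q with r
      · exact q.2 (by rw [div_mul_cancel₀ _ n0]; ring)
      · exact q.1 (by rw [div_mul_cancel₀ _ n0]; ring)

theorem few {v : Fin m → D → ℝ} {s : ℝ} {μ : Fin m → ℝ} (h : Fe v s μ) :
    ∃ μ', Fe v s μ' ∧ (fr μ').card ≤ Fintype.card D + 1 := by
  induction hn : (fr μ).card using Nat.strong_induction_on generalizing μ with
  | _ n ih =>
    by_cases k : (fr μ).card ≤ Fintype.card D + 1
    · exact ⟨μ, h, k⟩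
    · obtain ⟨μ', h', k'⟩ := red h (not_le.1 k)
      exact ih _ (hn ▸ k') h' rfl

theorem zero {v : Fin m → D → ℝ} {μ : Fin m → ℝ} (h : Fe v (m - (Fintype.card D + 1)) μ) :
    ∃ μ', Fe v (m - (Fintype.card D + 1)) μ' ∧ ∃ i, μ' i = 0 := by
  obtain ⟨μ', h', k⟩ := few h
  refine ⟨μ', h', ?_⟩
  by_contra n0
  push Not at n0
  have e1 : ∑ i, (1 - μ' i) = Fintype.card D + 1 := by
    rw [sum_sub_distrib, h'.2.1]
    simp
  have e2 : ∑ i ∈ fr μ', (1 - μ' i) = ∑ i, (1 - μ' i) :=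
    sum_subset (subset_univ _) fun i _ p => by
      by_contra q
      exact p (mem_fr.2 ⟨n0 i, fun r => q (by rw [r, sub_self])⟩)
  have d0 : (0 : ℝ) ≤ Fintype.card D := Nat.cast_nonneg _
  rcases (fr μ').eq_empty_or_nonempty with p | p
  · rw [p, sum_empty, e1] at e2
    linarith
  · have e3 : ∑ i ∈ fr μ', (1 - μ' i) < ∑ i ∈ fr μ', (1 : ℝ) :=
      sum_lt_sum_of_nonempty p fun i _ => by
        linarith [lt_of_le_of_ne (h'.1 i).1 (n0 i).symm]
    rw [e2, e1, sum_const, nsmul_eq_mul, mul_one] at e3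
    have : ((fr μ').card : ℝ) ≤ Fintype.card D + 1 := by exact_mod_cast k
    linarith

theorem comb {D' : Type} {A : D' → D → ℝ} {ρ : ℝ} {v : Fin m → D → ℝ} (hv : ∀ i, Sa A ρ (v i))
    (w : Fin m → ℝ) (w0 : ∀ i, 0 ≤ w i) : Sa A ((∑ i, w i) * ρ) (∑ i, w i • v i) := by
  intro r
  have e : ∑ d, A r d * (∑ i, w i • v i) d = ∑ i, w i * ∑ d, A r d * v i d := by
    simp only [Finset.sum_apply, Pi.smul_apply, smul_eq_mul, mul_sum]
    rw [sum_comm]
    exact sum_congr rfl fun i _ => sum_congr rfl fun d _ => by ring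
  rw [e, sum_mul]
  refine (abs_sum_le_sum_abs _ _).trans (sum_le_sum fun i _ => ?_)
  rw [abs_mul, abs_of_nonneg (w0 i)]
  exact mul_le_mul_of_nonneg_left (hv i r) (w0 i)

theorem triv {D' : Type} {A : D' → D → ℝ} {ρ : ℝ} {v : Fin m → D → ℝ} (ρ0 : 0 ≤ ρ)
    (hv : ∀ i, Sa A ρ (v i)) (hm : m ≤ Fintype.card D) (k : ℕ) :
    Sa A (Fintype.card D * ρ) (∑ i ∈ univ.filter (fun i : Fin m => (i : ℕ) < k), v i) := by
  have h := comb hv (fun i => if (i : ℕ) < k then 1 else 0) fun i => by split_ifs <;> norm_num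
  have e : ∑ i : Fin m, (if (i : ℕ) < k then (1 : ℝ) else 0) • v i =
      ∑ i ∈ univ.filter (fun i : Fin m => (i : ℕ) < k), v i := by
    rw [sum_filter]
    exact sum_congr rfl fun i _ => by split_ifs <;> simp
  rw [e] at h
  refine fun r => (h r).trans (mul_le_mul_of_nonneg_right ?_ ρ0)
  have h1 : ∑ i : Fin m, (if (i : ℕ) < k then (1 : ℝ) else 0) ≤ ∑ i : Fin m, (1 : ℝ) :=
    sum_le_sum fun i _ => by split_ifs <;> norm_num
  rw [sum_const, card_univ, Fintype.card_fin, nsmul_eq_mul, mul_one] at h1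
  exact h1.trans (by exact_mod_cast hm)

theorem main {D' : Type} {A : D' → D → ℝ} {ρ : ℝ} (ρ0 : 0 ≤ ρ) : ∀ (n : ℕ) (v : Fin n → D → ℝ),
    (∀ i, Sa A ρ (v i)) → (∃ μ, Fe v (n - Fintype.card D) μ) →
    ∃ σ : Equiv.Perm (Fin n), ∀ k : ℕ,
      Sa A (Fintype.card D * ρ) (∑ i ∈ univ.filter (fun i : Fin n => (i : ℕ) < k), v (σ i)) := by
  intro n
  induction n with
  | zero => exact fun v hv _ => ⟨1, fun k => triv ρ0 hv (Nat.zero_le _) k⟩
  | succ n ih =>
    rintro v hv ⟨μ, h⟩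
    by_cases hn : n + 1 ≤ Fintype.card D
    · exact ⟨1, fun k => triv ρ0 hv hn k⟩
    have h1 : (Fintype.card D : ℝ) ≤ n := by exact_mod_cast Nat.le_of_lt_succ (not_le.1 hn)
    set s : ℝ := n - Fintype.card D with hs
    have s0 : 0 ≤ s := by linarith
    have e0 : ((n + 1 : ℕ) : ℝ) - Fintype.card D = s + 1 := by push_cast; ring
    have e1 : ((n + 1 : ℕ) : ℝ) - (Fintype.card D + 1) = s := by push_cast; ring
    have q0 : 0 ≤ s / (s + 1) := by positivity
    have q1 : s / (s + 1) ≤ 1 := div_le_one_of_le₀ (by linarith) (by linarith)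
    have h2 : Fe v (((n + 1 : ℕ) : ℝ) - (Fintype.card D + 1)) fun i => s / (s + 1) * μ i := by
      refine ⟨fun i => ⟨mul_nonneg q0 (h.1 i).1, mul_le_one₀ q1 (h.1 i).1 (h.1 i).2⟩, ?_, ?_⟩
      · rw [← mul_sum, h.2.1, e0, e1, div_mul_cancel₀ _ (by linarith)]
      · simp only [mul_smul]
        rw [← smul_sum, h.2.2, smul_zero]
    obtain ⟨ν, h3, i₀, z⟩ := zero h2
    rw [e1] at h3
    obtain ⟨σ, hσ⟩ := ih (fun j => v (i₀.succAbove j)) (fun j => hv _)
      ⟨fun j => ν (i₀.succAbove j), fun j => h3.1 _, by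
        have := h3.2.1
        rwa [Fin.sum_univ_succAbove _ i₀, z, zero_add] at this, by
        have := h3.2.2
        rwa [Fin.sum_univ_succAbove _ i₀, z, zero_smul, zero_add] at this⟩
    refine ⟨finSuccEquivLast.trans (σ.optionCongr.trans (finSuccEquiv' i₀).symm), fun k => ?_⟩
    by_cases hk : n < k
    · rw [filter_true_of_mem fun i _ => lt_of_le_of_lt (Nat.le_of_lt_succ i.2) hk,
        Equiv.sum_comp _ v]
      have c := comb hv (fun i => 1 - μ i) fun i => by linarith [(h.1 i).2]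
      have a1 : ∑ i, (1 - μ i) = Fintype.card D := by
        rw [sum_sub_distrib, h.2.1]
        simp
      have a2 : ∑ i, (1 - μ i) • v i = ∑ i, v i := by
        simp only [sub_smul, one_smul]
        rw [sum_sub_distrib, h.2.2, sub_zero]
      rwa [a1, a2] at c
    · have c := hσ k
      rw [sum_filter] at c ⊢
      rw [Fin.sum_univ_castSucc, if_neg (by rwa [Fin.val_last]), add_zero]
      simpa only [Fin.val_castSucc, Equiv.trans_apply, finSuccEquivLast_castSucc,
        Equiv.optionCongr_apply, Option.map_some, finSuccEquiv'_symm_some] using c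

end Stz

theorem stz : STZ := by
  intro D D' _ A ρ n v ρ0 hv h0
  by_cases hn : n ≤ Fintype.card D
  · exact ⟨1, fun k => Stz.triv ρ0 hv hn k⟩
  have h1 : (Fintype.card D : ℝ) < n := by exact_mod_cast not_le.1 hn
  have d0 : (0 : ℝ) ≤ Fintype.card D := Nat.cast_nonneg _
  have n0 : (0 : ℝ) < n := by linarith
  refine Stz.main ρ0 n v hv ⟨fun _ => (n - Fintype.card D) / n, fun _ =>
    ⟨div_nonneg (by linarith) n0.le, div_le_one_of_le₀ (by linarith) n0.le⟩, ?_, ?_⟩
  · rw [sum_const, card_univ, Fintype.card_fin, nsmul_eq_mul, mul_div_cancel₀ _ n0.ne']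
  · rw [← smul_sum, h0, smul_zero]

end

end Vale.Agent.P057L
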