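import Vale.Agent.P057L.Num

/-! Vanishing on small points, and linearity of the brackets on a short progression. -/

set_option linter.all false

open Finset
open scoped BigOperators

namespace Vale.Agent.P057L

open Vale.Agent.P057Z

noncomputable section

theorem Van.zd_smul {α H : Type} [Fintype α] [AddCommGroup H] (k : ℤ) (v : α → ℤ) (θ : α → H) :
    zd (k • v) θ = k • zd v θ := by
  simp only [zd, smul_sum, Pi.smul_apply, smul_eq_mul, mul_smul]

theorem Van.sl {κ : Type} {q Q T : ℕ} {γ : κ → Fin q → ZMod Q} {ε ρ : ℝ} {v : Vz q} {m : κ → ℤ}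
    {k : ℕ} (h : Sl γ T ε v m) (hk : k * ε ≤ ρ) : Sl γ T ρ ((k : ℤ) • v) ((k : ℤ) • m) := by
  have k0 : (0 : ℝ) ≤ k := Nat.cast_nonneg _
  constructor
  · intro l
    rw [Pi.smul_apply, smul_eq_mul, Int.cast_mul, Int.cast_natCast, abs_mul, abs_of_nonneg k0]
    refine (mul_le_mul_of_nonneg_left (h.1 l) k0).trans ?_
    rw [← mul_assoc]
    exact mul_le_mul_of_nonneg_right hk (Nat.cast_nonneg _)
  · intro r
    have e : (∑ l, ((γ r l).val : ℝ) / Q * (((k : ℤ) • v) l : ℤ)) - (((k : ℤ) • m) r : ℤ) =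
        k * ((∑ l, ((γ r l).val : ℝ) / Q * v l) - m r) := by
      simp only [Pi.smul_apply, smul_eq_mul, Int.cast_mul, Int.cast_natCast, mul_sub, mul_sum]
      rw [sum_congr rfl fun l _ => mul_left_comm _ _ _]
    rw [e, abs_mul, abs_of_nonneg k0]
    exact (mul_le_mul_of_nonneg_left (h.2 r) k0).trans hk

theorem van : VAN := by
  refine ⟨5, ?_⟩
  intro Y ρ q N T Q Q' _ κ ι _ γ Z θ c hY hq _ r0 r1 T1 TN _ hQ hZ hc h v m hv
  classical
  have Y5 : (5 : ℝ) ≤ Y := by exact_mod_cast hY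
  have N1 : (1 : ℝ) ≤ N := by exact_mod_cast T1.trans TN
  have TN' : (T : ℝ) ≤ N := by exact_mod_cast TN
  have y1 : 4 * Y + 1 ≤ Y ^ 5 := by
    have := pw_le (Y := Y) (by linarith) (show 2 ≤ 5 by norm_num)
    nlinarith
  set J := ⌈3 ^ q * Real.exp Y⌉₊ with hJ
  have J1 : 3 ^ q * Real.exp Y ≤ J := Nat.le_ceil _
  have J2 : (J : ℝ) ≤ Real.exp (3 * Y + 1) := by
    have a : (3 : ℝ) ^ q ≤ Real.exp (2 * Y) := by
      have b : (3 : ℝ) ^ q ≤ 2 ^ (2 * q) := by
        rw [pow_mul]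
        exact pow_le_pow_left₀ (by norm_num) (by norm_num) q
      refine b.trans ((two_pow_le_exp _).trans (Real.exp_le_exp.2 ?_))
      push_cast
      linarith
    have b : (J : ℝ) < 3 ^ q * Real.exp Y + 1 := Nat.ceil_lt_add_one (by positivity)
    have d : 3 ^ q * Real.exp Y ≤ Real.exp (3 * Y) := by
      rw [show 3 * Y = 2 * Y + Y by ring, Real.exp_add]
      exact mul_le_mul_of_nonneg_right a (Real.exp_pos _).le
    have e : 1 ≤ Real.exp (3 * Y) := Real.one_le_exp (by linarith)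
    have f : 2 ≤ Real.exp 1 := by linarith [Real.add_one_le_exp (1 : ℝ)]
    rw [Real.exp_add]
    nlinarith
  have J3 : J * Real.exp (-Y ^ 5) ≤ ρ := by
    refine (mul_le_mul_of_nonneg_right J2 (Real.exp_pos _).le).trans (le_trans ?_ r0)
    rw [← Real.exp_add]
    exact Real.exp_le_exp.2 (by linarith)
  have J4 : J < Q := by
    have : (J : ℝ) < Q := J2.trans_lt ((Real.exp_lt_exp.2 (by linarith)).trans_le hQ)
    exact_mod_cast this
  have sl : ∀ k : ℕ, k ≤ J → Sl γ T ρ ((k : ℤ) • v) ((k : ℤ) • m) := fun k hk =>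
    Van.sl hv ((mul_le_mul_of_nonneg_right (by exact_mod_cast hk) (Real.exp_pos _).le).trans J3)
  obtain ⟨⟨i, y⟩, hi, ⟨i', y'⟩, hi', ne, e⟩ := exists_ne_map_eq_of_card_lt_of_maps_to
    (s := range (J + 1) ×ˢ Z) (t := Fintype.piFinset fun _ : Fin q => Ico (-(N : ℤ)) (2 * N))
    (f := fun p => p.2 + (p.1 : ℤ) • v) (by
      rw [Fintype.card_piFinset, prod_const, card_univ, Fintype.card_fin, Int.card_Ico,
        card_product, card_range, show (2 * (N : ℤ) - -N).toNat = 3 * N by omega]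
      have a : Real.exp Y * Real.exp (-Y) = 1 := by rw [← Real.exp_add]; simp
      have b : (0 : ℝ) < Real.exp (-Y) * N ^ q := by positivity
      have d : (3 : ℝ) ^ q * Real.exp Y * (Real.exp (-Y) * N ^ q) ≤ J * Z.card :=
        mul_le_mul J1 hc b.le (Nat.cast_nonneg _)
      have f : (3 : ℝ) ^ q * Real.exp Y * (Real.exp (-Y) * N ^ q) = (3 * N) ^ q := by
        rw [mul_pow, mul_assoc, ← mul_assoc (Real.exp Y), a, one_mul]
      have g : ((3 : ℝ) * N) ^ q < (J + 1) * Z.card := by nlinarith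
      exact_mod_cast g)
    (fun p hp => by
      rw [mem_coe, mem_product, mem_range] at hp
      rw [mem_coe, Fintype.mem_piFinset]
      intro l
      have a := mem_Ico.1 (Fintype.mem_piFinset.1 (hZ hp.2) l)
      have b := (sl p.1 (by omega)).1 l
      have d : |(((p.1 : ℤ) • v) l : ℝ)| ≤ N := by nlinarith [Nat.cast_nonneg (α := ℝ) T]
      have f : |((p.1 : ℤ) • v) l| ≤ N := by exact_mod_cast d
      rw [abs_le] at f
      show p.2 l + ((p.1 : ℤ) • v) l ∈ _
      rw [mem_Ico]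
      omega)
  rw [mem_product, mem_range] at hi hi'
  have ne' : i ≠ i' := by
    rintro rfl
    exact ne (Prod.ext rfl (add_right_cancel e))
  clear ne
  wlog lt : i < i' generalizing i i' y y'
  · exact this i' y' hi' i y hi e.symm ne'.symm (by omega)
  have e2 : y - y' = ((i' - i : ℕ) : ℤ) • v := by
    rw [Nat.cast_sub lt.le, sub_smul, sub_eq_sub_iff_add_eq_add, e, add_comm]
  have k := h y hi.2 y' hi'.2 (((i' - i : ℕ) : ℤ) • m) (e2 ▸ sl _ (by omega))
  rw [e2, Van.zd_smul, Van.zd_smul, ← smul_add] at k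
  have n0 : ((i' - i : ℕ) : ZMod Q) ≠ 0 := fun k =>
    absurd (Nat.le_of_dvd (by omega) ((ZMod.natCast_eq_zero_iff _ _).1 k)) (by omega)
  ext a
  have := congrFun k a
  simp only [Pi.smul_apply, zsmul_eq_mul, Int.cast_natCast, Pi.zero_apply, mul_eq_zero] at this
  exact this.resolve_left n0

theorem Van.near {Q : ℕ} [Fact Q.Prime] (B : ℤ) : ∃ a : ℤ, |(B : ℝ) / Q - a| = nm (B : ZMod Q) := by
  have Q0 : (0 : ℝ) < Q := by exact_mod_cast (Fact.out : Q.Prime).pos
  obtain ⟨a, ha⟩ : (Q : ℤ) ∣ B - (B : ZMod Q).valMinAbs :=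
    (ZMod.intCast_zmod_eq_zero_iff_dvd _ _).1 (by rw [Int.cast_sub, ZMod.coe_valMinAbs, sub_self])
  refine ⟨a, ?_⟩
  have e : (B : ℝ) - (B : ZMod Q).valMinAbs = Q * a := by exact_mod_cast ha
  have e2 : (B : ℝ) / Q - a = (B : ZMod Q).valMinAbs / Q := by
    field_simp
    linarith
  rw [e2, abs_div, abs_of_pos Q0, nm]

theorem lin : LIN := by
  refine ⟨3, ?_⟩
  intro Y ρ q R T d L L1 Q' _ H _ γ σ θ c' g S hY hq hR r0 r1 hσ hL hd L0 hn hS h
  classical
  have Y3 : (3 : ℝ) ≤ Y := by exact_mod_cast hY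
  have L0' : (0 : ℝ) < L := by exact_mod_cast L0
  have hL' : (4 : ℝ) * q * L1 ≤ L := by exact_mod_cast hL
  set K := ⌈Real.exp (2 * Y + 1)⌉₊ with hK
  have e2 : 2 ≤ Real.exp 1 := by linarith [Real.add_one_le_exp (1 : ℝ)]
  have eY : Y ≤ Real.exp Y := by linarith [Real.add_one_le_exp Y]
  have K1 : Real.exp (2 * Y + 1) ≤ K := Nat.le_ceil _
  have K0 : (0 : ℝ) < K := (Real.exp_pos _).trans_le K1
  have K2 : (K : ℝ) ≤ Real.exp (2 * Y + 2) := by
    have a : (K : ℝ) < Real.exp (2 * Y + 1) + 1 := Nat.ceil_lt_add_one (Real.exp_pos _).le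
    have b : 1 ≤ Real.exp (2 * Y + 1) := Real.one_le_exp (by linarith)
    rw [show 2 * Y + 2 = 2 * Y + 1 + 1 by ring, Real.exp_add (2 * Y + 1)]
    nlinarith
  have K3 : 2 * (R * Real.exp Y) ≤ K := by
    refine le_trans ?_ K1
    rw [show 2 * Y + 1 = 1 + (Y + Y) by ring, Real.exp_add, Real.exp_add]
    exact mul_le_mul e2 (mul_le_mul_of_nonneg_right (hR.trans eY) (Real.exp_pos _).le)
      (by positivity) (by positivity)
  have K4 : 1 / (K : ℝ) ≤ ρ := by
    refine le_trans ?_ r0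
    rw [Real.exp_neg, one_div]
    exact inv_anti₀ (Real.exp_pos _) ((Real.exp_le_exp.2 (by linarith)).trans K1)
  set x : Vz q → Fin R → ℝ := fun t r => ∑ l, ((γ r l).val : ℝ) / Q' * (d * t l) with hx
  obtain ⟨y, -, hy⟩ := exists_le_card_fiber_of_nsmul_le_card_of_maps_to (s := S)
    (t := Fintype.piFinset fun _ : Fin R => Ico (0 : ℤ) K)
    (f := fun t r => ⌊K * Int.fract (x t r)⌋) (b := Real.exp (-Y ^ 3) * S.card)
    (fun t _ => Fintype.mem_piFinset.2 fun r => mem_Ico.2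
      ⟨Int.floor_nonneg.2 (mul_nonneg K0.le (Int.fract_nonneg _)), Int.floor_lt.2 (by
        rw [Int.cast_natCast]
        exact mul_lt_of_lt_one_right K0 (Int.fract_lt_one _))⟩)
    ⟨fun _ => 0, Fintype.mem_piFinset.2 fun r => mem_Ico.2 ⟨le_rfl, by exact_mod_cast K0⟩⟩ (by
      rw [Fintype.card_piFinset, prod_const, card_univ, Fintype.card_fin, Int.card_Ico, sub_zero,
        Int.toNat_natCast, nsmul_eq_mul, ← mul_assoc]
      refine mul_le_of_le_one_left (Nat.cast_nonneg _) ?_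
      have a : (K : ℝ) ^ R ≤ Real.exp (Y ^ 3) := by
        refine (pow_le_pow_left₀ K0.le K2 R).trans ?_
        rw [← Real.exp_nat_mul]
        refine Real.exp_le_exp.2 ?_
        have : (R : ℝ) * (2 * Y + 2) ≤ Y * (2 * Y + 2) :=
          mul_le_mul_of_nonneg_right hR (by linarith)
        nlinarith [mul_nonneg (sub_nonneg.2 Y3) (sq_nonneg Y)]
      push_cast
      rw [Real.exp_neg, ← div_eq_mul_inv, div_le_one (Real.exp_pos _)]
      exact a)
  have ha : ∀ s l, ∃ a : ℤ, |(d * ∑ r, (σ s r : ℝ) * (((γ r l).val : ℝ) / Q')) - a| ≤ 1 / L := by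
    intro s l
    obtain ⟨a, ha⟩ := Van.near (Q := Q') (d * ∑ r, σ s r * ((γ r l).val : ℤ))
    refine ⟨a, ?_⟩
    have e1 : ((d * ∑ r, σ s r * ((γ r l).val : ℤ) : ℤ) : ZMod Q') =
        (d : ZMod Q') * zd (σ s) γ l := by
      rw [Int.cast_mul, Int.cast_natCast, Int.cast_sum, zd, Finset.sum_apply]
      refine congrArg _ (sum_congr rfl fun r _ => ?_)
      rw [Int.cast_mul, Int.cast_natCast, ZMod.natCast_zmod_val, Pi.smul_apply, zsmul_eq_mul]
    have e3 : ((d * ∑ r, σ s r * ((γ r l).val : ℤ) : ℤ) : ℝ) / Q' =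
        d * ∑ r, (σ s r : ℝ) * (((γ r l).val : ℝ) / Q') := by
      rw [Int.cast_mul, Int.cast_natCast, Int.cast_sum, mul_div_assoc, sum_div]
      simp only [Int.cast_mul, Int.cast_natCast, mul_div_assoc]
    rw [e1, e3] at ha
    rw [ha]
    exact hn s l
  choose a ha using ha
  refine ⟨_, filter_subset _ _, fun l => (d : ℤ) • θ l + ∑ s, a s l • c' s, hy, ?_⟩
  intro t ht t' ht'
  rw [mem_filter] at ht ht'
  set m : Fin R → ℤ := fun r => ⌊x t r⌋ - ⌊x t' r⌋ with hm
  have m1 : ∀ r, |x t r - x t' r - m r| ≤ 1 / K := by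
    intro r
    have k := Int.abs_sub_lt_one_of_floor_eq_floor
      ((congrFun ht.2 r).trans (congrFun ht'.2 r).symm)
    rw [← mul_sub, abs_mul, abs_of_pos K0] at k
    have e : x t r - x t' r - m r = Int.fract (x t r) - Int.fract (x t' r) := by
      simp only [hm, Int.fract]
      push_cast
      ring
    rw [e, le_div_iff₀ K0]
    linarith
  have t1 : ∀ l, |((t - t') l : ℝ)| ≤ L1 := by
    intro l
    have a1 := mem_Ico.1 (Fintype.mem_piFinset.1 (hS ht.1) l)
    have a2 := mem_Ico.1 (Fintype.mem_piFinset.1 (hS ht'.1) l)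
    have : |(t - t') l| ≤ L1 := by
      rw [Pi.sub_apply, abs_le]
      omega
    exact_mod_cast this
  have x1 : ∀ r, x t r - x t' r = ∑ l, ((γ r l).val : ℝ) / Q' * (d * (t - t') l) := by
    intro r
    simp only [hx, Pi.sub_apply, Int.cast_sub, mul_sub, sum_sub_distrib]
  have sl : Sl γ T ρ ((d : ℤ) • (t - t')) m := by
    constructor
    · intro l
      rw [Pi.smul_apply, smul_eq_mul, Int.cast_mul, Int.cast_natCast, abs_mul,
        abs_of_nonneg (Nat.cast_nonneg _)]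
      exact (mul_le_mul_of_nonneg_left (t1 l) (Nat.cast_nonneg _)).trans hd
    · intro r
      have k := (m1 r).trans K4
      rw [x1] at k
      simpa only [Pi.smul_apply, smul_eq_mul, Int.cast_mul, Int.cast_natCast] using k
  have key : ∀ s, σ s ⬝ᵥ m = ∑ l, (t - t') l * a s l := by
    intro s
    have e : ((σ s ⬝ᵥ m - ∑ l, (t - t') l * a s l : ℤ) : ℝ) =
        ∑ l, ((t - t') l : ℝ) * ((d * ∑ r, (σ s r : ℝ) * (((γ r l).val : ℝ) / Q')) - a s l) -
          ∑ r, (σ s r : ℝ) * (x t r - x t' r - m r) := by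
      have e4 : ∑ l, ((t - t') l : ℝ) * (d * ∑ r, (σ s r : ℝ) * (((γ r l).val : ℝ) / Q')) =
          ∑ r, (σ s r : ℝ) * (x t r - x t' r) := by
        simp only [x1, mul_sum]
        rw [sum_comm]
        exact sum_congr rfl fun r _ => sum_congr rfl fun l _ => by ring
      simp only [mul_sub (_ : ℝ) _ (a s _ : ℝ), mul_sub (_ : ℝ) _ (m _ : ℝ), sum_sub_distrib, e4]
      rw [dotProduct, Int.cast_sub, Int.cast_sum, Int.cast_sum]
      simp only [Int.cast_mul]
      ring
    have b1 : |∑ l, ((t - t') l : ℝ) *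
        ((d * ∑ r, (σ s r : ℝ) * (((γ r l).val : ℝ) / Q')) - a s l)| ≤ 1 / 4 := by
      refine (abs_sum_le_sum_abs _ _).trans ((sum_le_sum (g := fun _ => (L1 : ℝ) * (1 / L))
        fun l _ => ?_).trans ?_)
      · rw [abs_mul]
        exact mul_le_mul (t1 l) (ha s l) (abs_nonneg _) (Nat.cast_nonneg _)
      · rw [sum_const, card_univ, Fintype.card_fin, nsmul_eq_mul, ← mul_assoc, mul_one_div,
          div_le_iff₀ L0']
        linarith
    have b2 : |∑ r, (σ s r : ℝ) * (x t r - x t' r - m r)| ≤ 1 / 2 := by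
      refine (abs_sum_le_sum_abs _ _).trans ((sum_le_sum (g := fun _ => Real.exp Y * (1 / K))
        fun r _ => ?_).trans ?_)
      · rw [abs_mul]
        exact mul_le_mul (hσ s r) (m1 r) (abs_nonneg _) (Real.exp_pos _).le
      · rw [sum_const, card_univ, Fintype.card_fin, nsmul_eq_mul, ← mul_assoc, mul_one_div,
          div_le_iff₀ K0]
        linarith
    have b3 : |((σ s ⬝ᵥ m - ∑ l, (t - t') l * a s l : ℤ) : ℝ)| < 1 := by
      rw [e]
      exact (abs_sub _ _).trans_lt (by linarith)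
    have b4 : |σ s ⬝ᵥ m - ∑ l, (t - t') l * a s l| < 1 := by exact_mod_cast b3
    exact sub_eq_zero.1 (Int.abs_lt_one_iff.1 b4)
  rw [h t ht.1 t' ht'.1 m sl]
  simp only [zd, key, smul_add, sum_add_distrib, smul_sum, sum_smul, Pi.smul_apply, smul_eq_mul,
    mul_smul]
  rw [sum_comm (f := fun s l => (t - t') l • a s l • c' s)]
  exact congrArg (· + _) (sum_congr rfl fun l _ => smul_comm _ _ _)

end

end Vale.Agent.P057L
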