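import Vale.Agent.P057L.Win

/-! From parallelograms along copies to the energy in a vector variable. -/

set_option linter.all false

open Finset
open scoped BigOperators Classical

namespace Vale.Agent.P057L

namespace Ven

theorem tel {H : Type} [AddCommGroup H] (F : ℕ → ℕ → H) (q : ℕ)
    (h : ∀ l < q, ∀ k < q, F l k + F (l + 1) (k + 1) = F (l + 1) k + F l (k + 1)) :
    F 0 0 + F q q = F q 0 + F 0 q := by
  have h1 : ∀ l < q, ∀ k ≤ q, F (l + 1) k - F l k = F (l + 1) 0 - F l 0 := by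
    intro l hl k
    induction k with
    | zero => intro _; rfl
    | succ k ih =>
      intro hk
      rw [← ih (by omega), sub_eq_sub_iff_add_eq_add, add_comm, h l hl k hk]
  have h2 : ∀ l ≤ q, F l q - F l 0 = F 0 q - F 0 0 := by
    intro l
    induction l with
    | zero => intro _; rfl
    | succ l ih =>
      intro hl
      rw [← ih (by omega), sub_eq_sub_iff_sub_eq_sub]
      exact h1 l hl q le_rfl
  have h3 := h2 q le_rfl
  rw [sub_eq_sub_iff_add_eq_add] at h3
  rw [add_comm, h3, add_comm]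

variable {j q : ℕ}

/-- the first coordinates -/
def cut (l : ℕ) (a : Vz q) : Vz q := fun k => if (k : ℕ) < l then a k else 0

theorem cut_zero (a : Vz q) : cut 0 a = 0 := funext fun k => if_neg (Nat.not_lt_zero _)

theorem cut_top (a : Vz q) : cut q a = a := funext fun k => if_pos k.2

theorem cut_succ (l : Fin q) (a : Vz q) : cut (l + 1) a = cut l a + Pi.single l (a l) := by
  funext k
  rw [Pi.add_apply]
  unfold cut
  by_cases h : k = l
  · subst h
    simp
  · have : (k : ℕ) ≠ l := fun e => h (Fin.ext e)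
    rw [Pi.single_eq_of_ne h, add_zero]
    exact if_congr (by omega) rfl rfl

theorem upd_add (W : Pt j q) (i : Fin j) (y v : Vz q) :
    Function.update W i (y + v) = Function.update W i y + ev i v := by
  funext k
  by_cases h : k = i
  · subst h
    simp [ev]
  · simp [ev, h]

theorem pg {H : Type} [AddCommGroup H] (φ : Pt j q → H) (E : Finset (Pt j q)) (i : Fin j)
    (h : ∀ l l', Pr φ E i l l') (W : Pt j q) (x a b : Vz q)
    (hm : ∀ l ≤ q, ∀ k ≤ q, Function.update W i (x + cut l a + cut k b) ∈ E) :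
    Pg φ E (Function.update W i x) (ev i a) (ev i b) := by
  have t := tel (fun l k => φ (Function.update W i (x + cut l a + cut k b))) q fun l hl k hk => by
    have e1' : Function.update W i (x + cut (l + 1) a + cut k b) =
        Function.update W i (x + cut l a + cut k b) + e1 i ⟨l, hl⟩ (a ⟨l, hl⟩) := by
      rw [cut_succ ⟨l, hl⟩ a, ← add_assoc, add_right_comm, upd_add]
      rfl
    have e2 : ∀ m, Function.update W i (x + cut m a + cut (k + 1) b) =
        Function.update W i (x + cut m a + cut k b) + e1 i ⟨k, hk⟩ (b ⟨k, hk⟩) := fun m => by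
      rw [cut_succ ⟨k, hk⟩ b, ← add_assoc, upd_add]
      rfl
    have k1 := hm (l + 1) hl k hk.le
    have k2 := hm l hl.le (k + 1) hk
    have k3 := hm (l + 1) hl (k + 1) hk
    rw [e2] at k2 k3
    rw [e1'] at k1 k3
    beta_reduce
    rw [e2, e2, e1']
    exact h _ _ _ _ _ (hm l hl.le k hk.le) k1 k2 k3
  have k0 := hm 0 q.zero_le 0 q.zero_le
  have k1 := hm q le_rfl 0 q.zero_le
  have k2 := hm 0 q.zero_le q le_rfl
  have k3 := hm q le_rfl q le_rfl
  simp only [cut_zero, cut_top, add_zero, upd_add] at t k0 k1 k2 k3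
  exact ⟨k0, k1, k2, k3, t⟩

/-- the points with all cuts in the set -/
noncomputable def S1 (N : ℕ) (S : Finset (Vz q)) (b : Vz q) : Finset (Vz q) :=
  (bz q N).filter fun x => ∀ l ≤ q, x + cut l b ∈ S

theorem one (hH : HYB) {N : ℕ} (hq : 1 ≤ q) (hN : 1 ≤ N) {S : Finset (Vz q)} (hS : S ⊆ bz q N) :
    ((S.card : ℝ) / (N : ℝ) ^ q / (2 * q)) ^ (q + 1) * (N : ℝ) ^ (2 * q) ≤
      ∑ b ∈ sz q N, ((S1 N S b).card : ℝ) := by
  refine (hH q N S hq hN hS).trans ?_
  rw [← Nat.cast_sum, Nat.cast_le, ← card_sigma]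
  refine card_le_card_of_injOn (fun p => ⟨p.2 - p.1, p.1⟩) ?_ ?_
  · rintro ⟨x, y⟩ hp
    obtain ⟨h1, h2⟩ := mem_filter.mp (mem_coe.mp hp)
    obtain ⟨hx, hy⟩ := mem_product.mp h1
    refine mem_coe.mpr (mem_sigma.mpr ⟨Fintype.mem_piFinset.mpr fun k => ?_,
      mem_filter.mpr ⟨hS hx, fun l hl => ?_⟩⟩)
    · have a := mem_Ico.mp (Fintype.mem_piFinset.mp (hS hx) k)
      have b := mem_Ico.mp (Fintype.mem_piFinset.mp (hS hy) k)
      refine mem_Ioo.mpr ?_
      change -(N : ℤ) < y k - x k ∧ y k - x k < N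
      dsimp only at a b
      omega
    · have e : x + cut l (y - x) = hyb l x y := funext fun k => by
        rw [Pi.add_apply]
        unfold cut hyb
        split_ifs
        · rw [Pi.sub_apply, add_sub_cancel]
        · rw [add_zero]
      exact e ▸ h2 l hl
  · rintro ⟨x, y⟩ _ ⟨x', y'⟩ _ e
    obtain ⟨e1, e2⟩ := Sigma.mk.inj e
    obtain rfl : x = x' := eq_of_heq e2
    obtain rfl : y = y' := sub_left_injective e1
    rfl

theorem card_sz (N : ℕ) : ((sz q N).card : ℝ) ≤ (2 * N) ^ q := by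
  have : (sz q N).card ≤ (2 * N) ^ q := by
    rw [sz, Win.cp]
    refine Nat.pow_le_pow_left ?_ q
    rw [sy, Int.card_Ioo]
    omega
  exact_mod_cast this

theorem two (hH : HYB) {N : ℕ} (hq : 1 ≤ q) (hN : 1 ≤ N) {S : Finset (Vz q)} (hS : S ⊆ bz q N) :
    ((S.card : ℝ) / (N : ℝ) ^ q) ^ ((q + 1) ^ 2) * (N : ℝ) ^ (3 * q) ≤
      (2 * q) ^ ((q + 1) ^ 2 + (q + 1)) * 2 ^ (q * q) *
        ∑ b ∈ sz q N, ∑ a ∈ sz q N, ((S1 N (S1 N S b) a).card : ℝ) := by
  have N0 : (0 : ℝ) < N := by exact_mod_cast hN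
  have q0 : (0 : ℝ) < q := by exact_mod_cast hq
  have h1 := one hH hq hN hS
  have h2 : (∑ b ∈ sz q N, (((S1 N S b).card : ℝ) / (N : ℝ) ^ q / (2 * q)) ^ (q + 1)) *
      (N : ℝ) ^ (2 * q) ≤ ∑ b ∈ sz q N, ∑ a ∈ sz q N, ((S1 N (S1 N S b) a).card : ℝ) := by
    rw [sum_mul]
    exact sum_le_sum fun b _ => one hH hq hN (filter_subset _ _)
  have h3 := (pow_sum_le_card_mul_sum_pow (s := sz q N)
    (f := fun b => ((S1 N S b).card : ℝ) / (N : ℝ) ^ q / (2 * q)) (fun _ _ => by positivity) q).trans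
    (mul_le_mul_of_nonneg_right (pow_le_pow_left₀ (Nat.cast_nonneg _) (card_sz N) q)
      (sum_nonneg fun _ _ => by positivity))
  rw [← sum_div, ← sum_div] at h3
  have h4 := (pow_le_pow_left₀ (by positivity) (div_le_div_of_nonneg_right
    (div_le_div_of_nonneg_right h1 (pow_pos N0 q).le) (by positivity : (0 : ℝ) ≤ 2 * q))
    (q + 1)).trans h3
  refine le_trans ?_ (mul_le_mul_of_nonneg_left h2 (by positivity))
  generalize ∑ b ∈ sz q N, (((S1 N S b).card : ℝ) / (N : ℝ) ^ q / (2 * q)) ^ (q + 1) = Z at h4 ⊢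
  generalize (S.card : ℝ) / (N : ℝ) ^ q = δ at h4 ⊢
  refine le_of_mul_le_mul_right ?_ (pow_pos N0 (q * q))
  have h5 := mul_le_mul_of_nonneg_left h4
    (by positivity : (0 : ℝ) ≤ (2 * q) ^ ((q + 1) ^ 2 + (q + 1)) * (N : ℝ) ^ (2 * q))
  refine le_of_eq_of_le ?_ (h5.trans_eq ?_)
  · simp only [div_pow, mul_pow, ← pow_mul]
    field_simp
    ring
  · simp only [mul_pow, ← pow_mul]
    ring

theorem swap (N : ℕ) (i : Fin j) (f : Pt j q → ℝ) :
    ∑ W ∈ bp j q N, ∑ y ∈ bz q N, f (Function.update W i y) =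
      (N : ℝ) ^ q * ∑ W ∈ bp j q N, f W := by
  have m : ∀ p ∈ bp j q N ×ˢ bz q N, (Function.update p.1 i p.2, p.1 i) ∈ bp j q N ×ˢ bz q N := by
    intro p hp
    obtain ⟨a, b⟩ := mem_product.mp hp
    refine mem_product.mpr ⟨Fintype.mem_piFinset.mpr fun k => ?_, Fintype.mem_piFinset.mp a i⟩
    by_cases h : k = i
    · subst h
      simpa using b
    · simpa [h] using Fintype.mem_piFinset.mp a k
  have v : ∀ p : Pt j q × Vz q, (Function.update (Function.update p.1 i p.2) i (p.1 i),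
      Function.update p.1 i p.2 i) = p := fun p => by simp
  rw [← sum_product', sum_nbij' (g := fun p => f p.1) (fun p => (Function.update p.1 i p.2, p.1 i))
    (fun p => (Function.update p.1 i p.2, p.1 i)) m m (fun p _ => v p) (fun p _ => v p)
    (fun p _ => rfl), sum_product, mul_sum]
  refine sum_congr rfl fun W _ => ?_
  dsimp only
  rw [sum_const, nsmul_eq_mul, bz, Win.cp, Win.c1, Nat.cast_pow]

theorem num {Y : ℝ} (hY : ((13 : ℕ) : ℝ) ≤ Y) (hq : (q : ℝ) ≤ Y) :
    (2 * q : ℝ) ^ ((q + 1) ^ 2 + (q + 1)) * 2 ^ (q * q) ≤ Real.exp (Y ^ 13) := by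
  have Y1 : (13 : ℝ) ≤ Y := by exact_mod_cast hY
  have q0 : (0 : ℝ) ≤ q := Nat.cast_nonneg q
  have a1 : (2 * q : ℝ) ≤ Real.exp (2 * Y) := by linarith [Real.add_one_le_exp (2 * Y)]
  have a2 : (2 : ℝ) ≤ Real.exp 1 := by linarith [Real.add_one_le_exp (1 : ℝ)]
  refine (mul_le_mul (pow_le_pow_left₀ (by positivity) a1 _) (pow_le_pow_left₀ (by positivity) a2 _)
    (by positivity) (by positivity)).trans ?_
  rw [← Real.exp_nat_mul, ← Real.exp_nat_mul, ← Real.exp_add]
  refine Real.exp_le_exp.mpr (le_trans ?_ (pow_le_pow_right₀ (by linarith) (by norm_num : 4 ≤ 13)))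
  push_cast
  have b1 : (q : ℝ) * q ≤ Y * Y := mul_le_mul hq hq q0 (by linarith)
  have b2 : ((q : ℝ) + 1) ^ 2 + (q + 1) ≤ 2 * (Y * Y) := by nlinarith
  have b3 := mul_le_mul_of_nonneg_right b2 (by linarith : 0 ≤ 2 * Y)
  have b4 : 13 * (Y * Y * Y) ≤ Y * (Y * Y * Y) := mul_le_mul_of_nonneg_right Y1 (by positivity)
  have b5 : 13 * (Y * Y) ≤ Y * (Y * Y) := mul_le_mul_of_nonneg_right Y1 (by positivity)
  nlinarith

end Ven

open Ven in
theorem ven (hH : HYB) : VEN := by
  refine ⟨13, fun Y j q N H _ φ E i hY hq hqY hN hE hP => ?_⟩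
  have N0 : (0 : ℝ) < N := by exact_mod_cast hN
  have q0 : (0 : ℝ) < q := by exact_mod_cast hq
  set c : ℝ := (2 * q) ^ ((q + 1) ^ 2 + (q + 1)) * 2 ^ (q * q) with hc
  have c0 : 0 < c := by positivity
  let S : Pt j q → Finset (Vz q) := fun W => (bz q N).filter fun y => Function.update W i y ∈ E
  let cnt : Pt j q → ℝ := fun W =>
    ∑ b ∈ sz q N, ∑ a ∈ sz q N, if Pg φ E W (ev i a) (ev i b) then 1 else 0
  have h1 : ∑ W ∈ bp j q N, ((S W).card : ℝ) / (N : ℝ) ^ q = E.card := by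
    have := swap N i fun W => if W ∈ E then (1 : ℝ) else 0
    simp only [sum_boole] at this
    rw [← sum_div, div_eq_iff (pow_pos N0 q).ne', this, filter_mem_eq_inter,
      inter_eq_right.mpr hE, mul_comm]
  have h2 : ∀ W, (((S W).card : ℝ) / (N : ℝ) ^ q) ^ ((q + 1) ^ 2) * (N : ℝ) ^ (3 * q) ≤
      c * ∑ y ∈ bz q N, cnt (Function.update W i y) := by
    intro W
    refine (two hH hq hN (filter_subset _ _)).trans (mul_le_mul_of_nonneg_left ?_ c0.le)
    rw [sum_comm (s := bz q N)]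
    refine sum_le_sum fun b _ => ?_
    rw [sum_comm (s := bz q N)]
    refine sum_le_sum fun a _ => ?_
    rw [sum_boole]
    refine Nat.cast_le.mpr (card_le_card fun x hx => ?_)
    obtain ⟨k1, k2⟩ := mem_filter.mp hx
    exact mem_filter.mpr ⟨k1, pg φ E i hP W x a b fun l hl k hk =>
      (mem_filter.mp ((mem_filter.mp (k2 l hl)).2 k hk)).2⟩
  have h3 : ∑ W ∈ bp j q N, cnt W = env φ E N i * (N : ℝ) ^ (j * q + 2 * q) := by
    rw [env, div_mul_cancel₀ _ (pow_pos N0 _).ne', ← sum_boole, sum_product,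
      ← sum_subset hE fun W _ hW => sum_eq_zero fun b _ => sum_eq_zero fun a _ =>
        if_neg fun h => hW h.1]
    refine sum_congr rfl fun W _ => ?_
    rw [sum_product, sum_comm]
  have h4 := sum_le_sum (s := bp j q N) fun W _ => h2 W
  rw [← sum_mul, ← mul_sum, swap, h3] at h4
  obtain ⟨m, hm⟩ : ∃ m, (q + 1) ^ 2 = m + 1 := ⟨q ^ 2 + 2 * q, by ring⟩
  have h5 := pow_sum_le_card_mul_sum_pow (s := bp j q N)
    (f := fun W => ((S W).card : ℝ) / (N : ℝ) ^ q) (fun _ _ => by positivity) m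
  rw [h1, bp, Win.cp, bz, Win.cp, Win.c1, ← bz, ← bp, ← pow_mul, mul_comm q j, Nat.cast_pow] at h5
  rw [hm] at h4 ⊢
  have h6 : ((E.card : ℝ) / (N : ℝ) ^ (j * q)) ^ (m + 1) ≤ c * env φ E N i := by
    rw [div_pow, div_le_iff₀ (by positivity)]
    refine le_of_mul_le_mul_right ?_ (pow_pos N0 (3 * q))
    refine (mul_le_mul_of_nonneg_right h5 (by positivity)).trans ?_
    rw [mul_assoc]
    refine (mul_le_mul_of_nonneg_left h4 (by positivity)).trans_eq ?_
    ring
  have e0 : 0 ≤ env φ E N i := by unfold env; positivity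
  rw [Real.exp_neg, inv_mul_le_iff₀ (Real.exp_pos _)]
  exact h6.trans (mul_le_mul_of_nonneg_right (num hY hqY) e0)

end Vale.Agent.P057L
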