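import Mathlib

/-! Weyl differencing for the top coefficient (copied from the P042 library). -/

set_option linter.all false

namespace Vale.Agent.P057L.WA

open Finset Polynomial

/-- The additive character e(x). -/
noncomputable def ee (x : ℝ) : ℂ := Complex.exp ((2 * Real.pi * x : ℝ) * Complex.I)

lemma norm_ee (x : ℝ) : ‖ee x‖ = 1 := Complex.norm_exp_ofReal_mul_I _

lemma ee_add (x y : ℝ) : ee (x + y) = ee x * ee y := by
  unfold ee
  rw [← Complex.exp_add]
  congr 1
  push_cast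
  ring

lemma ee_zero : ee 0 = 1 := by simp [ee]

lemma ee_int (n : ℤ) : ee n = 1 := by
  unfold ee
  rw [Complex.exp_eq_one_iff]
  exact ⟨n, by push_cast; ring⟩

lemma ee_add_int (x : ℝ) (n : ℤ) : ee (x + n) = ee x := by
  rw [ee_add, ee_int, mul_one]

lemma ee_sub_int (x : ℝ) (n : ℤ) : ee (x - n) = ee x := by
  have := ee_add_int x (-n)
  simpa only [sub_eq_add_neg, Int.cast_neg] using this

lemma ee_neg (x : ℝ) : ee (-x) = (starRingEnd ℂ) (ee x) := by
  unfold ee
  rw [← Complex.exp_conj]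
  congr 1
  rw [map_mul, Complex.conj_I, Complex.conj_ofReal]
  push_cast
  ring

lemma ee_sub (x y : ℝ) : ee (x - y) = ee x * (starRingEnd ℂ) (ee y) := by
  rw [sub_eq_add_neg, ee_add, ee_neg]

lemma ee_nat_mul (n : ℕ) (x : ℝ) : ee (n * x) = ee x ^ n := by
  unfold ee
  rw [← Complex.exp_nat_mul]
  congr 1
  push_cast
  ring

lemma norm_ee_sub_le (x y : ℝ) : ‖ee x - ee y‖ ≤ 2 * Real.pi * |x - y| := by
  have h1 : ee x - ee y = ee y * (ee (x - y) - 1) := by
    have : ee x = ee y * ee (x - y) := by rw [← ee_add]; congr 1; ring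
    rw [this]; ring
  rw [h1, norm_mul, norm_ee, one_mul]
  have h2 : ee (x - y) = Complex.exp (Complex.I * ((2 * Real.pi * (x - y) : ℝ) : ℂ)) := by
    unfold ee; rw [mul_comm]
  rw [h2]
  refine (Real.norm_exp_I_mul_ofReal_sub_one_le).trans ?_
  rw [Real.norm_eq_abs, abs_mul, abs_of_pos (by positivity : (0:ℝ) < 2 * Real.pi)]

/-- Distance to the nearest integer. -/
noncomputable def nz (x : ℝ) : ℝ := ‖((x : ℝ) : UnitAddCircle)‖

lemma nz_nonneg (x : ℝ) : 0 ≤ nz x := norm_nonneg _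

lemma nz_eq (x : ℝ) : nz x = |x - round x| := UnitAddCircle.norm_eq

lemma nz_le_abs_sub_int (x : ℝ) (n : ℤ) : nz x ≤ |x - n| := by
  rw [nz_eq]; exact round_le x n

lemma nz_le_half (x : ℝ) : nz x ≤ 1 / 2 := by
  rw [nz_eq]; exact abs_sub_round x

lemma nz_add_le (x y : ℝ) : nz (x + y) ≤ nz x + nz y := by
  unfold nz
  rw [AddCircle.coe_add]
  exact norm_add_le _ _

lemma nz_neg (x : ℝ) : nz (-x) = nz x := by
  unfold nz
  rw [AddCircle.coe_neg, norm_neg]

lemma nz_sub_le (x y : ℝ) : nz (x - y) ≤ nz x + nz y := by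
  rw [sub_eq_add_neg, ← nz_neg y]; exact nz_add_le _ _

lemma nz_nat_mul_le (n : ℕ) (x : ℝ) : nz (n * x) ≤ n * nz x := by
  have h := nz_le_abs_sub_int (n * x) (n * round x)
  refine h.trans (le_of_eq ?_)
  rw [nz_eq x]
  push_cast
  rw [← mul_sub, abs_mul, Nat.abs_cast]

lemma nz_int_mul_le (n : ℤ) (x : ℝ) : nz (n * x) ≤ |(n : ℝ)| * nz x := by
  have h := nz_le_abs_sub_int (n * x) (n * round x)
  refine h.trans (le_of_eq ?_)
  rw [nz_eq x]
  push_cast
  rw [← mul_sub, abs_mul]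

lemma nz_add_int (x : ℝ) (n : ℤ) : nz (x + n) = nz x := by
  unfold nz
  rw [AddCircle.coe_add]
  have : ((n : ℝ) : UnitAddCircle) = 0 := by
    rw [AddCircle.coe_eq_zero_iff]
    exact ⟨n, by simp⟩
  rw [this, add_zero]

lemma nz_sum_le {ι : Type*} (s : Finset ι) (f : ι → ℝ) : nz (∑ i ∈ s, f i) ≤ ∑ i ∈ s, nz (f i) := by
  classical
  induction s using Finset.induction_on with
  | empty => simp only [nz, sum_empty, QuotientAddGroup.mk_zero, norm_zero, Std.le_refl]
  | insert a s ha ih =>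
    rw [Finset.sum_insert ha, Finset.sum_insert ha]
    exact (nz_add_le _ _).trans (by linarith only [ih])

lemma four_nz_le (x : ℝ) : 4 * nz x ≤ ‖ee x - 1‖ := by
  -- reduce to t = x - round x
  set t : ℝ := x - round x with ht
  have hx : ee x = ee t := by rw [ht, ee_sub_int]
  have hnz : nz x = |t| := nz_eq x
  have htabs : |t| ≤ 1 / 2 := abs_sub_round x
  rw [hx, hnz]
  have h1 : ‖ee t - 1‖ = 2 * |Real.sin (Real.pi * t)| := by
    unfold ee
    have := Complex.norm_exp_I_mul_ofReal_sub_one (2 * Real.pi * t)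
    rw [mul_comm] at this
    rw [this, Real.norm_eq_abs, abs_mul, abs_two]
    congr 2
    ring_nf
  rw [h1]
  have h2 : |Real.sin (Real.pi * t)| = Real.sin (Real.pi * |t|) := by
    rcases le_or_gt 0 t with h | h
    · rw [abs_of_nonneg h, abs_of_nonneg]
      apply Real.sin_nonneg_of_nonneg_of_le_pi
      · (clear * - h; positivity)
      · rw [abs_of_nonneg h] at htabs
        nlinarith only [htabs, Real.pi_pos]
    · rw [abs_of_neg h]
      have : Real.sin (Real.pi * t) = - Real.sin (Real.pi * (-t)) := by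
        rw [← Real.sin_neg]; ring_nf
      rw [this, abs_neg, abs_of_nonneg]
      apply Real.sin_nonneg_of_nonneg_of_le_pi
      · have : 0 ≤ -t := by linarith only [h]
        (clear * - this; positivity)
      · rw [abs_of_neg h] at htabs
        nlinarith only [htabs, Real.pi_pos]
  rw [h2]
  have h3 := Real.mul_le_sin (x := Real.pi * |t|) (by (clear * -; positivity)) (by nlinarith only [htabs, Real.pi_pos])
  have h4 : 2 / Real.pi * (Real.pi * |t|) = 2 * |t| := by
    field_simp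
  linarith only [h3, h4]

/-- Exponential sum of a polynomial over an initial segment. -/
noncomputable def SS (g : ℝ[X]) (L : ℕ) : ℂ := ∑ n ∈ range L, ee (g.eval (n : ℝ))

lemma norm_SS_le (g : ℝ[X]) (L : ℕ) : ‖SS g L‖ ≤ L := by
  unfold SS
  refine (norm_sum_le _ _).trans ?_
  simp only [norm_ee, sum_const, card_range, nsmul_eq_mul, mul_one, Std.le_refl]

/-- Geometric sums. -/
lemma geom_bound (a b : ℝ) (L : ℕ) :
    2 * nz a * ‖∑ n ∈ range L, ee (a * n + b)‖ ≤ 1 := by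
  have h1 : ∑ n ∈ range L, ee (a * n + b) = ee b * ∑ n ∈ range L, (ee a) ^ n := by
    rw [Finset.mul_sum]
    refine Finset.sum_congr rfl fun n _ => ?_
    rw [ee_add, mul_comm a, ee_nat_mul, mul_comm]
  rw [h1, norm_mul, norm_ee, one_mul]
  have h2 : (∑ n ∈ range L, (ee a) ^ n) * (ee a - 1) = (ee a) ^ L - 1 := geom_sum_mul _ _
  have h3 : ‖∑ n ∈ range L, (ee a) ^ n‖ * ‖ee a - 1‖ ≤ 2 := by
    rw [← norm_mul, h2]
    refine (norm_sub_le _ _).trans ?_
    rw [norm_pow, norm_ee]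
    norm_num
  have h4 := four_nz_le a
  have h5 : 0 ≤ ‖∑ n ∈ range L, (ee a) ^ n‖ := norm_nonneg _
  nlinarith only [h3, h4, h5]

lemma sq_expand (f : ℕ → ℂ) (L : ℕ) :
    ‖∑ n ∈ range L, f n‖ ^ 2 = ∑ n ∈ range L, ‖f n‖ ^ 2 +
      2 * (∑ m ∈ range L, ∑ n ∈ range m, f m * (starRingEnd ℂ) (f n)).re := by
  induction L with
  | zero => simp only [range_zero, sum_empty, norm_zero, ne_eq, OfNat.ofNat_ne_zero, not_false_eq_true, zero_pow, Complex.zero_re, mul_zero, add_zero]
  | succ L ih =>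
    rw [Finset.sum_range_succ f, Finset.sum_range_succ (fun n => ‖f n‖ ^ 2),
      Finset.sum_range_succ (fun m => ∑ n ∈ range m, f m * (starRingEnd ℂ) (f n))]
    rw [← Finset.mul_sum, ← map_sum]
    have h : ∀ z w : ℂ, ‖z + w‖ ^ 2 = ‖z‖ ^ 2 + ‖w‖ ^ 2 + 2 * (w * (starRingEnd ℂ) z).re := by
      intro z w
      rw [← Complex.normSq_eq_norm_sq, ← Complex.normSq_eq_norm_sq, ← Complex.normSq_eq_norm_sq,
        Complex.normSq_add]
      congr 2
      simp only [Complex.mul_re, Complex.conj_re, Complex.conj_im, mul_neg, sub_neg_eq_add]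
      ring
    rw [h, ih, Complex.add_re]
    ring

lemma reindex (f : ℕ → ℂ) (L : ℕ) :
    ∑ m ∈ range L, ∑ n ∈ range m, f m * (starRingEnd ℂ) (f n) =
      ∑ h ∈ Ico 1 L, ∑ n ∈ range (L - h), f (n + h) * (starRingEnd ℂ) (f n) := by
  induction L with
  | zero => simp only [range_zero, sum_empty, zero_le, Ico_eq_empty_of_le, zero_tsub, sum_const_zero]
  | succ L ih =>
    rw [Finset.sum_range_succ, ih]
    rcases Nat.eq_zero_or_pos L with rfl | hL
    · simp only [zero_le, Ico_eq_empty_of_le, zero_tsub, range_zero, sum_empty, sum_const_zero, add_zero, zero_add, Std.le_refl]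
    rw [Finset.sum_Ico_succ_top (by omega : 1 ≤ L)]
    have h1 : ∀ h ∈ Ico 1 L, ∑ n ∈ range (L + 1 - h), f (n + h) * (starRingEnd ℂ) (f n) =
        ∑ n ∈ range (L - h), f (n + h) * (starRingEnd ℂ) (f n) +
          f L * (starRingEnd ℂ) (f (L - h)) := by
      intro h hh
      rw [Finset.mem_Ico] at hh
      have : L + 1 - h = (L - h) + 1 := by omega
      rw [this, Finset.sum_range_succ]
      congr 3
      omega
    rw [Finset.sum_congr rfl h1, Finset.sum_add_distrib]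
    have h2 : ∑ n ∈ range (L + 1 - L), f (n + L) * (starRingEnd ℂ) (f n) =
        f L * (starRingEnd ℂ) (f (L - L)) := by
      simp only [add_tsub_cancel_left, range_one, sum_singleton, zero_add, tsub_self]
    rw [h2, add_assoc]
    congr 1
    rw [← Finset.sum_Ico_succ_top (by omega : 1 ≤ L) (fun h => f L * (starRingEnd ℂ) (f (L - h)))]
    rw [← Finset.mul_sum, ← Finset.mul_sum]
    congr 1
    rw [Finset.range_eq_Ico]
    refine Finset.sum_bij' (fun n _ => L - n) (fun h _ => L - h) ?_ ?_ ?_ ?_ ?_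
    · intro n hn; rw [Finset.mem_Ico] at *; omega
    · intro n hn; rw [Finset.mem_Ico] at *; omega
    · intro n hn; rw [Finset.mem_Ico] at hn; omega
    · intro n hn; rw [Finset.mem_Ico] at hn; omega
    · intro n hn; rw [Finset.mem_Ico] at hn
      congr 2; omega

/-- Differencing inequality. -/
lemma diff_sq (f : ℕ → ℂ) (hf : ∀ n, ‖f n‖ ≤ 1) (L : ℕ) :
    ‖∑ n ∈ range L, f n‖ ^ 2 ≤
      L + 2 * ∑ h ∈ Ico 1 L, ‖∑ n ∈ range (L - h), f (n + h) * (starRingEnd ℂ) (f n)‖ := by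
  rw [sq_expand, reindex]
  have h1 : ∑ n ∈ range L, ‖f n‖ ^ 2 ≤ L := by
    calc ∑ n ∈ range L, ‖f n‖ ^ 2 ≤ ∑ n ∈ range L, (1 : ℝ) := by
          refine Finset.sum_le_sum fun n _ => ?_
          have := hf n
          have h0 := norm_nonneg (f n)
          nlinarith
      _ = L := by simp
  have h2 := (Complex.re_le_norm (∑ h ∈ Ico 1 L, ∑ n ∈ range (L - h), f (n + h) * (starRingEnd ℂ) (f n)))
  have h3 := norm_sum_le (Ico 1 L) (fun h => ∑ n ∈ range (L - h), f (n + h) * (starRingEnd ℂ) (f n))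
  linarith only [h1, h2, h3]

lemma card_le_of_diam (F : Finset ℤ) (D : ℝ) (hD : 0 ≤ D)
    (h : ∀ a ∈ F, ∀ b ∈ F, (a : ℝ) - b ≤ D) : (F.card : ℝ) ≤ D + 1 := by
  rcases F.eq_empty_or_nonempty with rfl | hne
  · simp only [card_empty, CharP.cast_eq_zero]; linarith
  have h1 : F ⊆ Finset.Icc (F.min' hne) (F.max' hne) := fun x hx =>
    Finset.mem_Icc.2 ⟨F.min'_le x hx, F.le_max' x hx⟩
  have h2 := Finset.card_le_card h1
  rw [Int.card_Icc] at h2
  have h3 := h _ (F.max'_mem hne) _ (F.min'_mem hne)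
  have h4 : F.min' hne ≤ F.max' hne := F.min'_le _ (F.max'_mem hne)
  have h5 : ((F.max' hne + 1 - F.min' hne).toNat : ℤ) = F.max' hne + 1 - F.min' hne :=
    Int.toNat_of_nonneg (by omega)
  have h6 : (F.card : ℤ) ≤ F.max' hne + 1 - F.min' hne := by omega
  have h7 : (F.card : ℝ) ≤ F.max' hne + 1 - F.min' hne := by exact_mod_cast h6
  linarith only [h3, h7]

lemma count_near_pos (β θ σ : ℝ) (T : ℕ) (A : Finset ℕ) (hA : A ⊆ range T) (hθ : 0 < θ)
    (hσ0 : 0 ≤ σ) (hσ : σ ≤ 1 / 2) (good : ∀ m ∈ A, nz (β + m * θ) ≤ σ) :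
    (A.card : ℝ) ≤ (T * θ + 2) * (2 * σ / θ + 1) := by
  classical
  set k : ℕ → ℤ := fun m => round (β + m * θ) with hk
  have hg : ∀ m ∈ A, |β + m * θ - k m| ≤ σ := fun m hm => by
    have := good m hm
    rwa [nz_eq] at this
  -- fibres
  have hfib : ∀ a ∈ A.image k, ((A.filter fun x => k x = a).card) ≤ ⌊2 * σ / θ + 1⌋₊ := by
    intro a _
    apply Nat.le_floor
    have h1 := card_le_of_diam ((A.filter fun x => k x = a).map ⟨fun n : ℕ => (n : ℤ), Nat.cast_injective⟩)
      (2 * σ / θ) (by (clear * - hσ0 hθ; positivity)) ?_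
    · rwa [Finset.card_map] at h1
    · intro x hx y hy
      rw [Finset.mem_map] at hx hy
      obtain ⟨m, hm, rfl⟩ := hx
      obtain ⟨n, hn, rfl⟩ := hy
      rw [Finset.mem_filter] at hm hn
      have e1 := abs_le.1 (hg m hm.1)
      have e2 := abs_le.1 (hg n hn.1)
      rw [hm.2] at e1
      rw [hn.2] at e2
      simp only [Function.Embedding.coeFn_mk, Int.cast_natCast]
      rw [le_div_iff₀ hθ]
      linarith
  have h1 := Finset.card_le_mul_card_image A _ hfib
  have h2 : ((A.image k).card : ℝ) ≤ T * θ + 1 + 1 := by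
    apply card_le_of_diam _ _ (by (clear * - hθ; positivity))
    intro x hx y hy
    rw [Finset.mem_image] at hx hy
    obtain ⟨m, hm, rfl⟩ := hx
    obtain ⟨n, hn, rfl⟩ := hy
    have e1 := abs_le.1 (hg m hm)
    have e2 := abs_le.1 (hg n hn)
    have e3 : (m : ℝ) ≤ T := by
      have := Finset.mem_range.1 (hA hm)
      exact_mod_cast this.le
    have e4 : (0 : ℝ) ≤ n := Nat.cast_nonneg n
    nlinarith only [hσ, e1, e2, e3, hθ]
  have h3 : (⌊2 * σ / θ + 1⌋₊ : ℝ) ≤ 2 * σ / θ + 1 := Nat.floor_le (by (clear * - hσ0 hθ; positivity))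
  calc (A.card : ℝ) ≤ ((⌊2 * σ / θ + 1⌋₊ * (A.image k).card : ℕ) : ℝ) := by exact_mod_cast h1
    _ = (⌊2 * σ / θ + 1⌋₊ : ℝ) * ((A.image k).card : ℝ) := by push_cast; ring
    _ ≤ (2 * σ / θ + 1) * (T * θ + 1 + 1) := by
        apply mul_le_mul h3 h2 (Nat.cast_nonneg _) (by (clear * - hσ0 hθ; positivity))
    _ = _ := by ring

lemma count_near (β θ σ : ℝ) (T : ℕ) (A : Finset ℕ) (hA : A ⊆ range T) (hθ : θ ≠ 0)
    (hσ0 : 0 ≤ σ) (hσ : σ ≤ 1 / 2) (good : ∀ m ∈ A, nz (β + m * θ) ≤ σ) :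
    (A.card : ℝ) ≤ (T * |θ| + 2) * (2 * σ / |θ| + 1) := by
  rcases lt_or_gt_of_ne hθ with h | h
  · rw [abs_of_neg h]
    apply count_near_pos (-β) (-θ) σ T A hA (by linarith only [h]) hσ0 hσ
    intro m hm
    have : -β + m * -θ = -(β + m * θ) := by ring
    rw [this, nz_neg]
    exact good m hm
  · rw [abs_of_pos h]
    exact count_near_pos β θ σ T A hA h hσ0 hσ good

/-- Vinogradov-type lemma. -/
lemma vino (α σ δ : ℝ) (M : ℕ) (S : Finset ℕ) (hS : S ⊆ range M) (hσ0 : 0 ≤ σ)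
    (good : ∀ h ∈ S, nz (h * α) ≤ σ) (hδ : 0 < δ) (hδ1 : δ ≤ 1) (hcard : δ * M ≤ S.card)
    (hσ : σ ≤ δ / 8) (hM : 2 < δ * M) :
    ∃ q : ℕ, 1 ≤ q ∧ δ * q ≤ 2 ∧ nz (q * α) * (δ ^ 2 * M) ≤ 48 * σ := by
  classical
  -- Step 1
  set B : ℕ := ⌈2 / δ⌉₊ with hB
  have hBpos : 0 < B := Nat.ceil_pos.2 (by positivity)
  have hB1 : 2 / δ ≤ B := Nat.le_ceil _
  have hB2 : (B : ℝ) < 2 / δ + 1 := Nat.ceil_lt_add_one (by positivity)
  have hmaps : Set.MapsTo (fun h : ℕ => h / B) (S : Set ℕ) (range (M / B + 1) : Finset ℕ) := by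
    intro h hh
    have h1 := Finset.mem_range.1 (hS hh)
    simp only [Finset.coe_range, Set.mem_Iio]
    exact Nat.lt_succ_of_le (Nat.div_le_div_right h1.le)
  have hlt : (range (M / B + 1)).card < S.card := by
    rw [Finset.card_range]
    have h1 : ((M / B : ℕ) : ℝ) ≤ M / B := Nat.cast_div_le
    have h2 : (M : ℝ) / B ≤ δ * M / 2 := by
      rw [div_le_iff₀ (by exact_mod_cast hBpos)]
      rw [div_le_iff₀ hδ] at hB1
      have : (0 : ℝ) ≤ M := Nat.cast_nonneg M
      nlinarith only [hB1]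
    have h3 : ((M / B + 1 : ℕ) : ℝ) < S.card := by
      push_cast
      linarith only [hcard, hM, h1, h2]
    exact_mod_cast h3
  obtain ⟨x, hx, y, hy, hxy, hdiv⟩ := Finset.exists_ne_map_eq_of_card_lt_of_maps_to hlt hmaps
  -- WLOG x < y
  have key : ∃ q : ℕ, 1 ≤ q ∧ q + 1 ≤ B ∧ nz (q * α) ≤ 2 * σ := by
    have aux : ∀ x ∈ S, ∀ y ∈ S, x < y → x / B = y / B →
        ∃ q : ℕ, 1 ≤ q ∧ q + 1 ≤ B ∧ nz (q * α) ≤ 2 * σ := by
      intro x hx y hy hlt' hdiv
      refine ⟨y - x, by omega, ?_, ?_⟩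
      · have e1 := Nat.div_add_mod x B
        have e2 := Nat.div_add_mod y B
        have e3 := Nat.mod_lt y hBpos
        rw [hdiv] at e1
        omega
      · rw [Nat.cast_sub hlt'.le, sub_mul]
        have := nz_sub_le (y * α) (x * α)
        have := good x hx
        have := good y hy
        (clear M hS hσ0 hδ hδ1 hcard hσ hM hB hBpos hB1 hB2 hmaps hlt hxy hlt' hdiv; linarith)
    rcases lt_or_gt_of_ne hxy with h | h
    · exact aux x hx y hy h hdiv
    · exact aux y hy x hx h hdiv.symm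
  obtain ⟨q, hq1, hqB, hq2⟩ := key
  have hqδ : δ * q ≤ 2 := by
    have h1 : ((q + 1 : ℕ) : ℝ) ≤ B := by exact_mod_cast hqB
    push_cast at h1
    have h2 : (q : ℝ) ≤ 2 / δ := by linarith only [hB2, h1]
    rw [le_div_iff₀ hδ] at h2
    linarith only [h2]
  refine ⟨q, hq1, hqδ, ?_⟩
  -- Step 2
  set θ : ℝ := q * α - round (q * α) with hθ
  have hnzθ : nz (q * α) = |θ| := nz_eq _
  rw [hnzθ]
  rcases eq_or_ne θ 0 with h0 | h0
  · rw [h0]; simp only [abs_zero, zero_mul, Nat.ofNat_pos, mul_nonneg_iff_of_pos_left, ge_iff_le]; linarith only [hσ0]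
  have hθpos : 0 < |θ| := abs_pos.2 h0
  have hθ2 : |θ| ≤ 2 * σ := by rw [← hnzθ]; exact hq2
  have hθ1 : |θ| ≤ 1 := by rw [← hnzθ]; exact (nz_le_half _).trans (by norm_num)
  have hσhalf : σ ≤ 1 / 2 := by linarith only [hδ1, hσ]
  set T : ℕ := M / q + 1 with hT
  have hTreal : (T : ℝ) ≤ M / q + 1 := by
    rw [hT]; push_cast
    have : ((M / q : ℕ) : ℝ) ≤ M / q := Nat.cast_div_le
    linarith only [this]
  have hcls : ∀ r ∈ range q, ((S.filter fun n => n % q = r).card : ℝ) ≤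
      (T * |θ| + 2) * (2 * σ / |θ| + 1) := by
    intro r _
    have hinj : Set.InjOn (fun n : ℕ => n / q) ((S.filter fun n => n % q = r : Finset ℕ) : Set ℕ) := by
      intro a ha b hb hab
      rw [Finset.mem_coe, Finset.mem_filter] at ha hb
      have e1 := Nat.div_add_mod a q
      have e2 := Nat.div_add_mod b q
      rw [ha.2] at e1
      rw [hb.2] at e2
      have hab' : a / q = b / q := hab
      rw [hab'] at e1
      omega
    rw [← Finset.card_image_of_injOn hinj]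
    apply count_near (r * α) θ σ T _ _ h0 hσ0 hσhalf
    · intro m hm
      rw [Finset.mem_image] at hm
      obtain ⟨n, hn, rfl⟩ := hm
      rw [Finset.mem_filter] at hn
      obtain ⟨hn1, hn2⟩ := hn
      have e1 := Nat.div_add_mod n q
      rw [hn2] at e1
      generalize n / q = j at e1 ⊢
      have e2 : (r : ℝ) * α + (j : ℝ) * θ = n * α + ((-(j * round (q * α)) : ℤ) : ℝ) := by
        rw [hθ]
        push_cast
        have e3 : (n : ℝ) = q * (j : ℝ) + r := by exact_mod_cast e1.symm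
        rw [e3]
        ring
      rw [e2, nz_add_int]
      exact good n hn1
    · intro m hm
      rw [Finset.mem_image] at hm
      obtain ⟨n, hn, rfl⟩ := hm
      rw [Finset.mem_filter] at hn
      have h1 := Finset.mem_range.1 (hS hn.1)
      rw [Finset.mem_range, hT]
      exact Nat.lt_succ_of_le (Nat.div_le_div_right h1.le)
  have hsum : (S.card : ℝ) ≤ q * ((T * |θ| + 2) * (2 * σ / |θ| + 1)) := by
    have h1 : S.card = ∑ r ∈ range q, (S.filter fun n => n % q = r).card := by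
      apply Finset.card_eq_sum_card_fiberwise
      intro n _
      simp only [Finset.coe_range, Set.mem_Iio]
      exact Nat.mod_lt _ (by omega)
    rw [h1]
    push_cast
    calc ∑ r ∈ range q, ((S.filter fun n => n % q = r).card : ℝ)
        ≤ ∑ r ∈ range q, (T * |θ| + 2) * (2 * σ / |θ| + 1) := Finset.sum_le_sum hcls
      _ = _ := by rw [Finset.sum_const, Finset.card_range, nsmul_eq_mul]
  have hqpos : (0 : ℝ) < q := by exact_mod_cast hq1
  have h4 : 2 * σ / |θ| + 1 ≤ 4 * σ / |θ| := by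
    rw [div_add_one hθpos.ne', div_le_div_iff_of_pos_right hθpos]
    linarith only [hq2, hnzθ]
  have h5 : q * (T * |θ| + 2) ≤ M * |θ| + 3 * q := by
    have : q * (T * |θ|) ≤ q * ((M / q + 1) * |θ|) := by
      apply mul_le_mul_of_nonneg_left _ hqpos.le
      exact mul_le_mul_of_nonneg_right hTreal hθpos.le
    have e : (q : ℝ) * ((M / q + 1) * |θ|) = M * |θ| + q * |θ| := by
      (clear * - hq1 h0; field_simp)
    nlinarith only [this, e, hδ1, hσ, hq2, hnzθ]
  have h6 : (S.card : ℝ) ≤ (M * |θ| + 3 * q) * (4 * σ / |θ|) := by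
    calc (S.card : ℝ) ≤ q * (T * |θ| + 2) * (2 * σ / |θ| + 1) := by linarith only [hsum]
      _ ≤ (M * |θ| + 3 * q) * (4 * σ / |θ|) := by
        apply mul_le_mul h5 h4 (by (clear * - hσ0 h0; positivity)) (by (clear * - h0 hq1; positivity))
  have h7 : (M * |θ| + 3 * q) * (4 * σ / |θ|) * |θ| = 4 * σ * (M * |θ| + 3 * q) := by
    (clear * - h0 hq1; field_simp)
  have h8 : δ * M * |θ| ≤ 4 * σ * (M * |θ| + 3 * q) := by
    rw [← h7]
    exact mul_le_mul_of_nonneg_right (hcard.trans h6) hθpos.le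
  have hMnn : (0 : ℝ) ≤ M := Nat.cast_nonneg M
  have h9 : 4 * σ * (M * |θ|) ≤ δ / 2 * (M * |θ|) := by
    apply mul_le_mul_of_nonneg_right _ (by (clear * - h0; positivity))
    linarith only [hσ]
  have h10 : δ * M * |θ| ≤ 24 * σ * q := by nlinarith only [h8, h9]
  calc |θ| * (δ ^ 2 * M) = δ * (δ * M * |θ|) := by ring
    _ ≤ δ * (24 * σ * q) := mul_le_mul_of_nonneg_left h10 hδ.le
    _ = 24 * σ * (δ * q) := by ring
    _ ≤ 24 * σ * 2 := by
        apply mul_le_mul_of_nonneg_left hqδ (by (clear * - hσ0; positivity))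
    _ = 48 * σ := by ring

lemma taylor_coeff_sum (r : ℝ) (f : ℝ[X]) (N n : ℕ) (hf : f.natDegree ≤ N) :
    (taylor r f).coeff n =
      ∑ j ∈ Finset.range (N + 1), (j.choose n : ℝ) * r ^ (j - n) * f.coeff j := by
  rw [taylor_coeff, hasseDeriv_apply, Polynomial.sum_over_range' f _ (N+1) (by omega),
    eval_finsetSum]
  · refine Finset.sum_congr rfl fun j _ => ?_
    simp only [eval_monomial]
    ring
  · intro j; simp only [mul_zero, monomial_zero_right]

/-- Discrete derivative. -/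
noncomputable def dd (h : ℝ) (g : ℝ[X]) : ℝ[X] := taylor h g - g

lemma dd_eval (h : ℝ) (g : ℝ[X]) (x : ℝ) : (dd h g).eval x = g.eval (x + h) - g.eval x := by
  unfold dd
  rw [eval_sub, taylor_eval]

lemma dd_coeff_top (h : ℝ) (g : ℝ[X]) (k : ℕ) (hg : g.natDegree ≤ k + 1) :
    (dd h g).coeff k = (k + 1) * h * g.coeff (k + 1) := by
  unfold dd
  rw [coeff_sub, taylor_coeff_sum h g (k + 1) k hg, Finset.sum_range_succ, Finset.sum_range_succ]
  have h0 : ∑ x ∈ range k, (x.choose k : ℝ) * h ^ (x - k) * g.coeff x = 0 := by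
    apply Finset.sum_eq_zero
    intro x hx
    rw [Finset.mem_range] at hx
    rw [Nat.choose_eq_zero_of_lt hx]
    simp only [CharP.cast_eq_zero, zero_mul]
  rw [h0]
  simp

lemma dd_natDegree (h : ℝ) (g : ℝ[X]) (k : ℕ) (hg : g.natDegree ≤ k + 1) :
    (dd h g).natDegree ≤ k := by
  rw [natDegree_le_iff_coeff_eq_zero]
  intro N hN
  unfold dd
  rw [coeff_sub, taylor_coeff_sum h g (k + 1) N hg, Finset.sum_range_succ]
  have h0 : ∑ x ∈ range (k + 1), (x.choose N : ℝ) * h ^ (x - N) * g.coeff x = 0 := by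
    apply Finset.sum_eq_zero
    intro x hx
    rw [Finset.mem_range] at hx
    rw [Nat.choose_eq_zero_of_lt (by omega)]
    simp only [CharP.cast_eq_zero, zero_mul]
  rw [h0]
  rcases Nat.lt_or_ge (k + 1) N with h1 | h1
  · rw [Nat.choose_eq_zero_of_lt h1, coeff_eq_zero_of_natDegree_lt (lt_of_le_of_lt hg h1)]
    simp only [CharP.cast_eq_zero, zero_mul, add_zero, sub_self]
  · have : N = k + 1 := by omega
    subst this
    simp

/-- Weyl: leading coefficient. -/
theorem weylA (k : ℕ) : ∃ C : ℕ, ∀ (g : ℝ[X]), g.natDegree ≤ k + 1 → ∀ (Q : ℝ), 2 ≤ Q →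
    ∀ (M L : ℕ), L ≤ M → 1 ≤ M → (M : ℝ) ≤ Q * ‖SS g L‖ →
    ∃ s : ℕ, 1 ≤ s ∧ (s : ℝ) ≤ Q ^ C ∧ nz (s * g.coeff (k + 1)) * M ^ (k + 1) ≤ Q ^ C := by
  classical
  induction k with
  | zero =>
    refine ⟨1, fun g hg Q hQ M L hL hM h => ⟨1, le_refl _, by simp only [Nat.cast_one, pow_one]; linarith only [hQ], ?_⟩⟩
    have h1 : ∀ x : ℝ, g.eval x = g.coeff 1 * x + g.coeff 0 := by
      intro x
      rw [eval_eq_sum_range' (lt_of_le_of_lt hg (by norm_num : 0 + 1 < 2))]
      simp only [sum_range_succ, range_one, sum_singleton, pow_zero, mul_one, pow_one]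
      ring
    have h2 := geom_bound (g.coeff 1) (g.coeff 0) L
    have h3 : ‖SS g L‖ = ‖∑ n ∈ range L, ee (g.coeff 1 * n + g.coeff 0)‖ := by
      unfold SS
      congr 1
      exact Finset.sum_congr rfl fun n _ => by rw [h1]
    rw [← h3] at h2
    have h4 := nz_nonneg (g.coeff 1)
    have h5 : nz (g.coeff 1) * M ≤ nz (g.coeff 1) * (Q * ‖SS g L‖) :=
      mul_le_mul_of_nonneg_left h h4
    simp only [zero_add, Nat.cast_one, one_mul, pow_one]
    nlinarith only [hQ, h2, h5]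
  | succ k ih =>
    obtain ⟨C, hC⟩ := ih
    set a : ℕ := 10 * C + 8 with ha
    set C' : ℕ := a * (k + 2) + 16 + 15 * C + k with hC'
    refine ⟨C', fun g hg Q hQ M L hL hM hS => ?_⟩
    have hQ0 : (0 : ℝ) < Q := by linarith only [hQ]
    have hQ1 : (1 : ℝ) ≤ Q := by linarith only [hQ]
    have hM0 : (0 : ℝ) < M := by exact_mod_cast hM
    have powle : ∀ {x y : ℕ}, x ≤ y → Q ^ x ≤ Q ^ y := fun h => pow_le_pow_right₀ hQ1 h
    rcases lt_or_ge (M : ℝ) (Q ^ a) with hsmall | hlarge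
    · -- trivial case
      refine ⟨1, le_refl _, ?_, ?_⟩
      · simp only [Nat.cast_one]
        exact one_le_pow₀ hQ1
      · calc nz ((1 : ℕ) * g.coeff (k + 1 + 1)) * (M : ℝ) ^ (k + 1 + 1)
            ≤ 1 * (M : ℝ) ^ (k + 1 + 1) := by
              apply mul_le_mul_of_nonneg_right _ (by positivity)
              exact (nz_le_half _).trans (by norm_num)
          _ ≤ 1 * (Q ^ a) ^ (k + 1 + 1) := by
              apply mul_le_mul_of_nonneg_left _ (by norm_num)
              exact pow_le_pow_left₀ hM0.le hsmall.le _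
          _ = Q ^ (a * (k + 2)) := by rw [one_mul, ← pow_mul]
          _ ≤ Q ^ C' := powle (by (clear * -; omega))
    -- main case
    set w : ℕ → ℝ := fun h => ‖SS (dd h g) (L - h)‖ with hw
    have hw0 : ∀ h, 0 ≤ w h := fun h => norm_nonneg _
    have hwM : ∀ h, w h ≤ M := fun h => by
      refine (norm_SS_le _ _).trans ?_
      exact_mod_cast (by omega : L - h ≤ M)
    have hdiff : ‖SS g L‖ ^ 2 ≤ L + 2 * ∑ h ∈ Ico 1 L, w h := by
      have := diff_sq (fun n => ee (g.eval (n : ℝ))) (fun n => (norm_ee _).le) L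
      refine this.trans (le_of_eq ?_)
      congr 2
      refine Finset.sum_congr rfl fun h _ => ?_
      rw [hw]
      simp only
      congr 1
      unfold SS
      refine Finset.sum_congr rfl fun n _ => ?_
      rw [dd_eval, ee_sub]
      push_cast
      rfl
    have hML : (L : ℝ) ≤ M := by exact_mod_cast hL
    have hQa2 : 2 * Q ^ 2 ≤ Q ^ a := by
      calc 2 * Q ^ 2 ≤ Q * Q ^ 2 := mul_le_mul_of_nonneg_right hQ (by positivity)
        _ = Q ^ 3 := by ring
        _ ≤ Q ^ a := powle (by omega)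
    have hsq : (M : ℝ) ^ 2 ≤ Q ^ 2 * ‖SS g L‖ ^ 2 := by
      rw [← mul_pow]
      exact pow_le_pow_left₀ hM0.le hS 2
    have hmain : (M : ℝ) ^ 2 ≤ 4 * Q ^ 2 * ∑ h ∈ Ico 1 L, w h := by
      have h1 : Q ^ 2 * ‖SS g L‖ ^ 2 ≤ Q ^ 2 * (M + 2 * ∑ h ∈ Ico 1 L, w h) := by
        apply mul_le_mul_of_nonneg_left _ (by positivity)
        linarith only [hdiff, hML]
      have h2 : Q ^ 2 * (M : ℝ) ≤ M ^ 2 / 2 := by
        have : 2 * Q ^ 2 ≤ (M : ℝ) := hQa2.trans hlarge
        nlinarith only [hlarge, hQa2]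
      nlinarith only [hsq, h1, h2]
    set S0 : Finset ℕ := (Ico 1 L).filter (fun h => (M : ℝ) ≤ 8 * Q ^ 2 * w h) with hS0
    have hS0card : (M : ℝ) ≤ 8 * Q ^ 2 * S0.card := by
      have h1 : ∑ h ∈ Ico 1 L, w h ≤ ∑ h ∈ Ico 1 L, (M / (8 * Q ^ 2) +
          if (M : ℝ) ≤ 8 * Q ^ 2 * w h then (M : ℝ) else 0) := by
        refine Finset.sum_le_sum fun h _ => ?_
        split_ifs with hh
        · have := hwM h
          have : 0 ≤ (M : ℝ) / (8 * Q ^ 2) := by positivity
          (clear hC a ha C' hC' hg hS hQ0 hQ1 hM0 powle hlarge hw hw0 hdiff hML hQa2 hsq hmain S0 hS0 hh; linarith)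
        · rw [not_le] at hh
          rw [add_zero, le_div_iff₀ (by positivity)]
          linarith only [hh]
      rw [Finset.sum_add_distrib, ← Finset.sum_filter, Finset.sum_const, Finset.sum_const,
        nsmul_eq_mul, nsmul_eq_mul, ← hS0, Nat.card_Ico] at h1
      have h2 : ((L - 1 : ℕ) : ℝ) * (M / (8 * Q ^ 2)) ≤ M * (M / (8 * Q ^ 2)) := by
        apply mul_le_mul_of_nonneg_right _ (by positivity)
        exact_mod_cast (by omega : L - 1 ≤ M)
      have h3 : (M : ℝ) ^ 2 ≤ 4 * Q ^ 2 * (M * (M / (8 * Q ^ 2)) + S0.card * M) :=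
        hmain.trans (mul_le_mul_of_nonneg_left (by linarith only [h1, h2]) (by positivity))
      have h4 : 4 * Q ^ 2 * (M * (M / (8 * Q ^ 2)) + S0.card * M) =
          M ^ 2 / 2 + 4 * Q ^ 2 * S0.card * M := by
        field_simp
        ring
      rw [h4] at h3
      have h5 : (M : ℝ) * M ≤ (8 * Q ^ 2 * S0.card) * M := by nlinarith only [h3]
      exact le_of_mul_le_mul_right h5 hM0
    have h8Q : 8 * Q ^ 2 ≤ Q ^ 5 := by
      have : (8 : ℝ) ≤ Q ^ 3 := by
        calc (8 : ℝ) = 2 ^ 3 := by norm_num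
          _ ≤ Q ^ 3 := pow_le_pow_left₀ (by norm_num) hQ 3
      calc 8 * Q ^ 2 ≤ Q ^ 3 * Q ^ 2 := mul_le_mul_of_nonneg_right this (by positivity)
        _ = Q ^ 5 := by ring
    -- apply the induction hypothesis
    have hIH : ∀ h ∈ S0, ∃ s : ℕ, 1 ≤ s ∧ (s : ℝ) ≤ Q ^ (5 * C) ∧
        nz (h * (s * ((k + 2) * g.coeff (k + 2)))) * M ^ (k + 1) ≤ Q ^ (5 * C) := by
      intro h hh
      rw [hS0, Finset.mem_filter, Finset.mem_Ico] at hh
      obtain ⟨s, hs1, hs2, hs3⟩ := hC (dd h g) (dd_natDegree _ _ _ hg) (Q ^ 5)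
        (hQ.trans (by simpa only [pow_one] using powle (show 1 ≤ 5 by norm_num))) M (L - h) (by (clear * - hL hh; omega)) hM
        (hh.2.trans (mul_le_mul_of_nonneg_right h8Q (hw0 h)))
      rw [← pow_mul] at hs2 hs3
      refine ⟨s, hs1, hs2, ?_⟩
      rw [dd_coeff_top _ _ _ hg] at hs3
      convert hs3 using 3
      push_cast
      ring
    choose! sf hsf using hIH
    set K : ℕ := ⌊Q ^ (5 * C)⌋₊ with hK
    have hKle : (K : ℝ) ≤ Q ^ (5 * C) := Nat.floor_le (by positivity)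
    have hK1 : 1 ≤ K := by
      rw [hK]
      apply Nat.le_floor
      simpa only [Nat.cast_one] using one_le_pow₀ (n := 5 * C) hQ1
    have hmaps : ∀ h ∈ S0, sf h ∈ Icc 1 K := by
      intro h hh
      rw [Finset.mem_Icc]
      exact ⟨(hsf h hh).1, Nat.le_floor (hsf h hh).2.1⟩
    obtain ⟨s, hsK, hscard⟩ := Finset.exists_le_card_fiber_of_nsmul_le_card_of_maps_to
      (b := (S0.card : ℝ) / K) hmaps ⟨1, Finset.mem_Icc.2 ⟨le_refl _, hK1⟩⟩ (by
        rw [Nat.card_Icc, nsmul_eq_mul]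
        simp only [Nat.add_sub_cancel]
        rw [mul_div_cancel₀]
        exact_mod_cast (by omega : K ≠ 0))
    rw [Finset.mem_Icc] at hsK
    set S1 : Finset ℕ := S0.filter (fun h => sf h = s) with hS1
    set δ : ℝ := (Q ^ (5 + 5 * C))⁻¹ with hδ
    have hδ0 : 0 < δ := by positivity
    have hδ1 : δ ≤ 1 := inv_le_one_of_one_le₀ (one_le_pow₀ hQ1)
    have hK0 : (0 : ℝ) < K := by exact_mod_cast hK1
    have hS1card : δ * M ≤ S1.card := by
      refine le_trans ?_ hscard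
      rw [hδ, inv_mul_le_iff₀ (by positivity), mul_div_assoc', le_div_iff₀ hK0]
      calc (M : ℝ) * K ≤ (8 * Q ^ 2 * S0.card) * K := mul_le_mul_of_nonneg_right hS0card hK0.le
        _ ≤ (Q ^ 5 * S0.card) * Q ^ (5 * C) := by
            apply mul_le_mul _ hKle hK0.le (by (clear * - hQ; positivity))
            exact mul_le_mul_of_nonneg_right h8Q (Nat.cast_nonneg _)
        _ = _ := by rw [pow_add]; ring
    set α : ℝ := s * ((k + 2) * g.coeff (k + 2)) with hα
    set σ : ℝ := Q ^ (5 * C) / M ^ (k + 1) with hσ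
    have hσ0 : 0 ≤ σ := by positivity
    have hgood : ∀ h ∈ S1, nz (h * α) ≤ σ := by
      intro h hh
      rw [hS1, Finset.mem_filter] at hh
      have := (hsf h hh.1).2.2
      rw [hh.2] at this
      rw [hσ, le_div_iff₀ (by positivity)]
      exact this
    have hMk : (M : ℝ) ≤ M ^ (k + 1) := by
      calc (M : ℝ) = M ^ 1 := (pow_one _).symm
        _ ≤ M ^ (k + 1) := pow_le_pow_right₀ (by exact_mod_cast hM) (by omega)
    have hσδ : σ ≤ δ / 8 := by
      rw [hσ, hδ, div_le_iff₀ (by positivity)]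
      have h1 : Q ^ (5 * C) * (8 * Q ^ (5 + 5 * C)) ≤ M ^ (k + 1) := by
        refine le_trans ?_ (hlarge.trans hMk)
        calc Q ^ (5 * C) * (8 * Q ^ (5 + 5 * C)) = (8 * Q ^ 2) * Q ^ (3 + 10 * C) := by ring
          _ ≤ Q ^ 5 * Q ^ (3 + 10 * C) := mul_le_mul_of_nonneg_right h8Q (by positivity)
          _ = Q ^ a := by rw [← pow_add, ha]; congr 1; ring
      rw [div_mul_eq_mul_div, le_div_iff₀ (by norm_num), inv_mul_eq_div, le_div_iff₀ (by positivity)]
      linarith only [h1]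
    have hδM : 2 < δ * M := by
      rw [hδ, inv_mul_eq_div, lt_div_iff₀ (by positivity)]
      calc 2 * Q ^ (5 + 5 * C) < 4 * Q ^ (5 + 5 * C) := by
            have : 0 < Q ^ (5 + 5 * C) := by positivity
            linarith only [this]
        _ ≤ Q ^ 2 * Q ^ (5 + 5 * C) := by
            apply mul_le_mul_of_nonneg_right _ (by positivity)
            nlinarith only [hQ]
        _ = Q ^ (7 + 5 * C) := by rw [← pow_add]; congr 1; ring
        _ ≤ Q ^ a := powle (by (clear * -; omega))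
        _ ≤ M := hlarge
    have hS1sub : S1 ⊆ range M := by
      intro h hh
      rw [hS1, Finset.mem_filter, hS0, Finset.mem_filter, Finset.mem_Ico] at hh
      rw [Finset.mem_range]
      omega
    obtain ⟨q, hq1, hq2, hq3⟩ := vino α σ δ M S1 hS1sub hσ0 hgood hδ0 hδ1 hS1card hσδ hδM
    refine ⟨q * s * (k + 2), ?_, ?_, ?_⟩
    · have := Nat.mul_pos (Nat.mul_pos hq1 hsK.1) (show 0 < k + 2 by omega)
      exact this
    · have hqle : (q : ℝ) ≤ Q ^ (6 + 5 * C) := by
        rw [hδ, inv_mul_le_iff₀ (by positivity)] at hq2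
        calc (q : ℝ) ≤ Q ^ (5 + 5 * C) * 2 := hq2
          _ ≤ Q ^ (5 + 5 * C) * Q := mul_le_mul_of_nonneg_left hQ (by positivity)
          _ = _ := by ring
      have hsle : (s : ℝ) ≤ Q ^ (5 * C) := le_trans (by exact_mod_cast hsK.2) hKle
      have hkle : ((k : ℝ) + 2) ≤ Q ^ (k + 2) := by
        have h1 : k + 2 ≤ 2 ^ (k + 2) := Nat.lt_two_pow_self.le
        calc ((k : ℝ) + 2) ≤ 2 ^ (k + 2) := by exact_mod_cast h1
          _ ≤ Q ^ (k + 2) := pow_le_pow_left₀ (by norm_num) hQ _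
      push_cast
      calc (q : ℝ) * s * (k + 2) ≤ Q ^ (6 + 5 * C) * Q ^ (5 * C) * Q ^ (k + 2) := by
            apply mul_le_mul _ hkle (by (clear * -; positivity)) (by positivity)
            apply mul_le_mul hqle hsle (by (clear * -; positivity)) (by positivity)
        _ = Q ^ (6 + 10 * C + (k + 2)) := by rw [← pow_add, ← pow_add]; congr 1; ring
        _ ≤ Q ^ C' := powle (by
            rw [hC', ha]
            nlinarith only [])
    · have h48 : (48 : ℝ) ≤ Q ^ 6 := by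
        calc (48 : ℝ) ≤ 2 ^ 6 := by norm_num
          _ ≤ Q ^ 6 := pow_le_pow_left₀ (by norm_num) hQ 6
      have h1 : ((q * s * (k + 2) : ℕ) : ℝ) * g.coeff (k + 1 + 1) = q * α := by
        rw [hα]; push_cast; ring
      rw [h1]
      have h2 : nz (q * α) * (M : ℝ) ^ (k + 1 + 1) =
          (nz (q * α) * (δ ^ 2 * M)) * (Q ^ (10 + 10 * C) * M ^ (k + 1)) := by
        have e : δ ^ 2 * Q ^ (10 + 10 * C) = 1 := by
          rw [hδ, inv_pow, ← pow_mul]
          have : (5 + 5 * C) * 2 = 10 + 10 * C := by ring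
          rw [this, inv_mul_cancel₀ (by positivity)]
        calc nz (q * α) * (M : ℝ) ^ (k + 1 + 1) = nz (q * α) * (M : ℝ) ^ (k + 1 + 1) * 1 := by ring
          _ = nz (q * α) * (M : ℝ) ^ (k + 1 + 1) * (δ ^ 2 * Q ^ (10 + 10 * C)) := by rw [e]
          _ = _ := by ring
      rw [h2]
      calc (nz (q * α) * (δ ^ 2 * M)) * (Q ^ (10 + 10 * C) * M ^ (k + 1))
          ≤ (48 * σ) * (Q ^ (10 + 10 * C) * M ^ (k + 1)) :=
            mul_le_mul_of_nonneg_right hq3 (by positivity)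
        _ = 48 * Q ^ (10 + 15 * C) := by
            rw [hσ, div_eq_mul_inv]
            have e1 : ((M : ℝ) ^ (k + 1))⁻¹ * M ^ (k + 1) = 1 := inv_mul_cancel₀ (by positivity)
            calc 48 * (Q ^ (5 * C) * ((M : ℝ) ^ (k + 1))⁻¹) * (Q ^ (10 + 10 * C) * M ^ (k + 1))
                = 48 * (Q ^ (5 * C) * Q ^ (10 + 10 * C)) * (((M : ℝ) ^ (k + 1))⁻¹ * M ^ (k + 1)) := by
                  ring
              _ = 48 * Q ^ (10 + 15 * C) := by
                  rw [e1, mul_one, ← pow_add]; congr 2; ring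
        _ ≤ Q ^ 6 * Q ^ (10 + 15 * C) := mul_le_mul_of_nonneg_right h48 (by positivity)
        _ = Q ^ (16 + 15 * C) := by rw [← pow_add]; congr 1; ring
        _ ≤ Q ^ C' := powle (by (clear * -; omega))

end Vale.Agent.P057L.WA
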