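import Vale.Agent.P057L.Defs
import Vale.Agent.P057L.WeylA
import Vale.Agent.P057Z.Ke.Nm

/-! Row WEYL. -/

set_option linter.all false

open Finset Polynomial
open scoped BigOperators

namespace Vale.Agent.P057L

open Vale.Agent.P057Z

theorem nm_le_nz {Q : ℕ} [Fact Q.Prime] (z : ℤ) : nm (z : ZMod Q) ≤ WA.nz ((z : ℝ) / Q) := by
  have hQ : (0 : ℝ) < Q := Ke.Qpos
  have h1 : ((z - round ((z : ℝ) / Q) * Q : ℤ) : ZMod Q) = (z : ZMod Q) := by
    push_cast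
    rw [ZMod.natCast_self, mul_zero, sub_zero]
  rw [← h1, WA.nz_eq]
  refine (Ke.nm_cast_le _).trans (le_of_eq ?_)
  rw [← abs_of_pos hQ, ← abs_div, abs_of_pos hQ]
  congr 1
  push_cast
  field_simp

theorem weyl : WEYL := by
  intro m hm
  obtain ⟨k, rfl⟩ : ∃ k, m = k + 1 := ⟨m - 1, by omega⟩
  obtain ⟨C, hC⟩ := WA.weylA k
  refine ⟨C, fun Q _ E δ β hδ hδ2 hE h => ?_⟩
  have hQ : (0 : ℝ) < Q := Ke.Qpos
  obtain ⟨z, rfl, -⟩ := Ke.exists_int β
  have h2 : (2 : ℝ) ≤ 1 / δ := by rw [le_div_iff₀ hδ]; linarith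
  have hE1 : (1 : ℝ) ≤ E := (one_le_pow₀ (by linarith)).trans hE
  have hE0 : (0 : ℝ) < E := by linarith
  have hS : ∑ e ∈ range E, ch ((z : ZMod Q) * (e : ZMod Q) ^ (k + 1)) =
      WA.SS (monomial (k + 1) ((z : ℝ) / Q)) E := by
    refine sum_congr rfl fun e _ => ?_
    have e1 : (z : ZMod Q) * (e : ZMod Q) ^ (k + 1) = ((z * (e : ℤ) ^ (k + 1) : ℤ) : ZMod Q) := by
      push_cast; rfl
    rw [e1, Ke.ch_int, eval_monomial, WA.ee, mul_comm]
    congr 3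
    push_cast
    ring
  rw [Finset.expect_eq_sum_div_card, hS, card_range, norm_div, Complex.norm_natCast,
    le_div_iff₀ hE0] at h
  obtain ⟨s, hs1, hs2, hs3⟩ := hC (monomial (k + 1) ((z : ℝ) / Q)) (natDegree_monomial_le _)
    (1 / δ) h2 E E le_rfl (by exact_mod_cast hE1) (by
      rw [one_div, ← div_eq_inv_mul, le_div_iff₀ hδ]; linarith)
  refine ⟨s, hs1, hs2, ?_⟩
  rw [coeff_monomial, if_pos rfl] at hs3
  rw [le_div_iff₀ (by positivity)]
  refine le_trans (mul_le_mul_of_nonneg_right ?_ (by positivity)) hs3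
  have e2 : (s : ZMod Q) * (z : ZMod Q) = (((s : ℤ) * z : ℤ) : ZMod Q) := by push_cast; rfl
  rw [e2]
  refine (nm_le_nz _).trans (le_of_eq ?_)
  congr 1
  push_cast
  ring

end Vale.Agent.P057L
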