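import Vale.Agent.P057L.Num
import Vale.Agent.P057L.Win
import Vale.Agent.P057Z.Ke.Kill

/-! The weight is constant on short progressions. -/

set_option linter.all false

open Finset
open scoped BigOperators

namespace Vale.Agent.P057L

open Vale.Agent.P057Z

namespace Cst

theorem sum_rg (T : ℕ) (f : ℤ → ℝ) : ∑ o ∈ rg T, f o = ∑ i ∈ range T, f i := by
  refine (sum_nbij' (fun i : ℕ => (i : ℤ)) Int.toNat ?_ ?_ ?_ ?_ ?_).symm <;> simp [rg] <;> omega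

theorem shift (T : ℕ) {f : ℤ → ℝ} {P : ℝ} (h : ∀ s, |f s| ≤ P) (c : ℕ) :
    ∑ o ∈ rg T, f o - 2 * c * P ≤ ∑ o ∈ rg T, f (o + c) := by
  induction c with
  | zero => simp
  | succ c ih =>
    have h1 := sum_range_succ (fun i : ℕ => f (i + c)) T
    rw [sum_range_succ'] at h1
    rw [sum_rg T fun o => f (o + c)] at ih
    rw [sum_rg T fun o => f (o + (c + 1 : ℕ))]
    have e : ∀ i : ℕ, (i : ℤ) + (c + 1 : ℕ) = (i + 1 : ℕ) + c := fun i => by push_cast; ring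
    simp only [e]
    push_cast at h1 ⊢
    linarith [abs_le.1 (h (T + c)), abs_le.1 (h (0 + c))]

open Classical in
theorem core {T L d : ℕ} {ψ G : ℤ → ℝ} {θ P κ τ : ℝ} (hT : 1 ≤ T) (hL : 1 ≤ L)
    (hψ : ∀ s, 0 ≤ ψ s ∧ ψ s ≤ 1) (hG : ∀ s, 0 ≤ G s ∧ G s ≤ P) (h0 : 0 ≤ θ) (h1 : θ ≤ P)
    (ho : ∀ o, ∀ v ∈ rg L, |ψ (o + d * v) - ψ o| ≤ τ) (hd : (d * L : ℝ) ≤ τ * T)
    (hκ : κ ≤ 𝔼 s ∈ rg T, ψ s * (G s - θ)) : (κ - 3 * τ * P) * T ≤
      P * ((rg T).filter fun o => θ ≤ 𝔼 v ∈ rg L, G (o + d * v)).card := by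
  have P0 : 0 ≤ P := h0.trans h1
  have ne : (rg L).Nonempty := ⟨0, by simp [rg]; omega⟩
  have gb : ∀ s, |G s - θ| ≤ P := fun s => abs_le.2 ⟨by linarith [(hG s).1], by linarith [(hG s).2]⟩
  rw [expect_eq_sum_div_card, Win.c1, le_div_iff₀ (by exact_mod_cast hT)] at hκ
  have k : ∀ v ∈ rg L, (κ - 3 * τ * P) * T ≤ ∑ o ∈ rg T, ψ o * (G (o + d * v) - θ) := by
    intro v hv
    obtain ⟨v0, v1⟩ := mem_Ico.1 hv
    lift v to ℕ using v0
    have s := shift T (f := fun s => ψ s * (G s - θ)) (P := P) (fun s => by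
      rw [abs_mul, abs_of_nonneg (hψ s).1]
      nlinarith [hψ s, gb s, abs_nonneg (G s - θ)]) (d * v)
    have s2 : ∑ o ∈ rg T, ψ (o + d * v) * (G (o + d * v) - θ) ≤
        ∑ o ∈ rg T, (ψ o * (G (o + d * v) - θ) + τ * P) := sum_le_sum fun o _ => by
      have := mul_le_mul (ho o v hv) (gb (o + d * v)) (abs_nonneg _)
        ((abs_nonneg _).trans (ho o v hv))
      rw [← abs_mul] at this
      linarith [(abs_le.1 this).2]
    rw [sum_add_distrib, sum_const, Win.c1, nsmul_eq_mul] at s2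
    have v2 : (d * v : ℝ) ≤ d * L := by
      have : (v : ℝ) ≤ L := by exact_mod_cast v1.le
      gcongr
    push_cast at s
    nlinarith [mul_le_mul_of_nonneg_right (v2.trans hd) P0]
  refine (le_expect ne k).trans ?_
  rw [expect_sum_comm, card_filter, Nat.cast_sum, mul_sum]
  refine sum_le_sum fun o _ => ?_
  rw [← mul_expect, expect_sub_distrib, expect_const ne]
  have u : 𝔼 v ∈ rg L, G (o + d * v) ≤ P := expect_le ne fun v _ => (hG _).2
  split_ifs with h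
  · push_cast
    nlinarith [hψ o]
  · push_cast
    nlinarith [hψ o]

theorem osc {Q r : ℕ} [Fact Q.Prime] {Ψ : (Fin r → ZMod Q) → ℝ} {lam δ : ℝ} (h : LL lam Ψ)
    (u z : Fin r → ZMod Q) (hz : lam * l1 z ≤ δ) (h0 : 0 ≤ δ) (h1 : δ ≤ 1) :
    |Ψ (u + z) - Ψ u| ≤ 2 * δ := by
  have a := h.lip u z
  have b := h.lip (u + z) (-z)
  rw [add_neg_cancel_right, show l1 (-z) = l1 z by simp [l1, Fr.nm_neg]] at b
  have c := (abs_le.1 (Real.abs_exp_sub_one_le (x := δ) (by rwa [abs_of_nonneg h0]))).2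
  rw [abs_of_nonneg h0] at c
  have e := Real.exp_le_exp.2 hz
  have p1 := h.pos u
  have p2 := h.pos (u + z)
  exact abs_le.2 ⟨by nlinarith [h.le_one (u + z)], by nlinarith [h.le_one u]⟩

theorem dec {Q r t F d L : ℕ} [Fact Q.Prime] {b w : Fin t → Fin r → ℤ} {D0 : ℤ}
    (hw : ∀ i, w i ∈ Sm (Fin r) F) (hb : ∀ i i', b i ⬝ᵥ w i' = if i = i' then D0 else 0)
    {ξ : Fin r → ZMod Q} (hξ : ∀ a, nm ((d : ZMod Q) * (cs Q (b a) ⬝ᵥ ξ)) ≤ 1 / L) (k : ℤ) :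
    ∃ z v, ((D0 * d * k : ℤ) : ZMod Q) • ξ = z + v ∧ (∀ i, cs Q (b i) ⬝ᵥ v = 0) ∧
      l1 z ≤ r * (t * (F * |(k : ℝ)| * (1 / L))) := by
  refine ⟨fun l => ∑ a, ((w a l * k : ℤ) : ZMod Q) * (d * (cs Q (b a) ⬝ᵥ ξ)), _,
    (add_sub_cancel _ _).symm, fun i => ?_, ?_⟩
  · have e : ∀ a, ∑ l, (b i l : ZMod Q) * w a l = if i = a then (D0 : ZMod Q) else 0 := fun a => by
      have := congrArg (Int.cast : ℤ → ZMod Q) (hb i a)
      simpa [dotProduct] using this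
    rw [dotProduct_sub, dotProduct_smul, sub_eq_zero]
    generalize hX : (fun a => cs Q (b a) ⬝ᵥ ξ) = X
    have hX' : ∀ a, cs Q (b a) ⬝ᵥ ξ = X a := congrFun hX
    simp only [hX']
    simp only [dotProduct, cs, mul_sum]
    rw [sum_comm]
    push_cast
    have : ∀ a, ∑ l, (b i l : ZMod Q) * (w a l * k * (d * X a)) =
        (if i = a then (D0 : ZMod Q) else 0) * (k * (d * X a)) := fun a => by
      rw [← e, sum_mul]
      exact sum_congr rfl fun l _ => by ring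
    simp [this]
    ring
  · refine (sum_le_card_nsmul _ _ (t * (F * |(k : ℝ)| * (1 / L))) fun l _ => ?_).trans (by simp)
    refine (Fr.nm_sum _ _).trans ((sum_le_card_nsmul _ _ (F * |(k : ℝ)| * (1 / L)) fun a _ =>
      (Fr.nm_int_mul _ _).trans ?_).trans (by simp))
    have : |(w a l : ℝ)| ≤ F := by exact_mod_cast Ke.mem_Sm.1 (hw a) l
    push_cast
    rw [abs_mul]
    gcongr
    exacts [Fr.nm_nonneg _, hξ a]

theorem fac {t K : ℕ} {Y : ℝ} (ht : (t : ℝ) ≤ Y) (hK : (K : ℝ) ≤ Real.exp Y) :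
    ((t.factorial * K ^ t : ℕ) : ℝ) ≤ Real.exp (2 * Y ^ 2) := by
  have h1 : (t.factorial : ℝ) ≤ t ^ t := by exact_mod_cast Nat.factorial_le_pow t
  have h2 : (t : ℝ) ≤ Real.exp Y := by linarith [Real.add_one_le_exp Y]
  have h0 : (0 : ℝ) ≤ t := Nat.cast_nonneg _
  push_cast
  calc _ ≤ Real.exp Y ^ t * Real.exp Y ^ t := mul_le_mul (h1.trans (by gcongr)) (by gcongr)
        (by positivity) (by positivity)
    _ = Real.exp (t * Y + t * Y) := by rw [Real.exp_add, Real.exp_nat_mul]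
    _ ≤ _ := Real.exp_le_exp.2 (by nlinarith)

open Classical in
theorem many {Q r t F d L L' N T : ℕ} [Fact Q.Prime] {b w : Fin t → Fin r → ℤ} {D0 : ℤ}
    {Y ρ θ : ℝ} {G : ℤ → ℝ} {Ψ : (Fin r → ZMod Q) → ℝ} {ξ γ : Fin r → ZMod Q} (hY : 10 ≤ Y)
    (ht : (t : ℝ) ≤ Y) (hr : (r : ℝ) ≤ Y) (hρ : Real.exp (-Y) ≤ ρ) (hT : 1 ≤ T) (l1' : 1 ≤ L')
    (L0 : (0 : ℝ) < L) (NT : N ≤ T * Real.exp Y) (dL : d * L ≤ N)
    (hG : ∀ s, 0 ≤ G s ∧ G s ≤ Real.exp Y) (h0 : 0 ≤ θ) (h1 : θ ≤ Real.exp Y) (hl : LL (1 / ρ) Ψ)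
    (hp : ∀ u v, (∀ i, cs Q (b i) ⬝ᵥ v = 0) → Ψ (u + v) = Ψ u) (d2 : ∀ i, w i ∈ Sm (Fin r) F)
    (d3 : ∀ i i', b i ⬝ᵥ w i' = if i = i' then D0 else 0)
    (hs : ∀ a, nm ((d : ZMod Q) * (cs Q (b a) ⬝ᵥ ξ)) ≤ 1 / L)
    (key : (F : ℝ) * L' * Real.exp Y ^ 8 ≤ L) (eL : (D0.natAbs : ℝ) * L' * Real.exp Y ^ 8 ≤ L)
    (hx : Real.exp (-Y) ≤ exc Ψ ξ γ T G θ) : (T : ℝ) / Real.exp Y ^ 3 ≤ ((rg T).filter fun o =>
      θ ≤ 𝔼 v ∈ rg L', G (o + (d * D0.natAbs : ℕ) * v)).card := by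
  have P1 : Y + 1 ≤ Real.exp Y := Real.add_one_le_exp Y
  have ρ0 : 0 < ρ := (Real.exp_pos _).trans_le hρ
  rw [Real.exp_neg] at hρ hx
  generalize Real.exp Y = P at *
  have P0 : 0 < P := by linarith
  have T0 : (0 : ℝ) < T := by exact_mod_cast hT
  have ρ1 : 1 / ρ ≤ P := by
    rw [inv_le_comm₀ P0 ρ0] at hρ
    rwa [one_div]
  have k := core (τ := 2 * (1 / P ^ 5)) (d := d * D0.natAbs) hT l1'
    (ψ := fun s => Ψ ((s : ZMod Q) • ξ + γ))
    (fun s => ⟨(hl.pos _).le, hl.le_one _⟩) hG h0 h1 (fun o v hv => ?_) ?_ hx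
  · refine le_of_mul_le_mul_left (le_trans ?_ k) P0
    rw [show P * (T / P ^ 3) = 1 / P ^ 2 * T by field_simp]
    refine mul_le_mul_of_nonneg_right ?_ T0.le
    rw [show P⁻¹ - 3 * (2 * (1 / P ^ 5)) * P = (P ^ 3 - 6) / P ^ 4 by field_simp; ring,
      div_le_div_iff₀ (by positivity) (by positivity)]
    have : 0 ≤ P ^ 3 - 6 - P ^ 2 := by nlinarith
    nlinarith [mul_nonneg this (sq_nonneg P)]
  · obtain ⟨z, v', z1, z2, z3⟩ := dec d2 d3 hs (D0.sign * v)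
    have e : o + ((d * D0.natAbs : ℕ) : ℤ) * v = o + D0 * d * (D0.sign * v) := by
      rw [Nat.cast_mul, ← Int.sign_mul_self_eq_natAbs]; ring
    rw [e, Int.cast_add, add_smul, z1, show ∀ a b : Fin r → ZMod Q,
      a + (z + v') + b = a + b + z + v' from fun a b => by abel, hp _ _ z2]
    have P5 : 1 ≤ P ^ 5 := one_le_pow₀ (by linarith)
    refine osc hl _ _ ?_ (by positivity) ((div_le_one (by positivity)).2 P5)
    have v1 : |((D0.sign * v : ℤ) : ℝ)| ≤ L' := by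
      obtain ⟨a, b⟩ := mem_Ico.1 hv
      have : |D0.sign * v| ≤ L' := by
        rcases lt_trichotomy D0 0 with h | h | h <;>
          simp [Int.sign_eq_neg_one_of_neg, Int.sign_eq_one_of_pos, h, abs_of_nonneg a, b.le]
      exact_mod_cast this
    calc _ ≤ P * (P * (P * (F * L' * (1 / L)))) := by
          refine mul_le_mul ρ1 (z3.trans ?_) (sum_nonneg fun _ _ => Fr.nm_nonneg _) P0.le
          gcongr <;> linarith
      _ = F * L' * P ^ 8 / L * (1 / P ^ 5) := by field_simp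
      _ ≤ _ := mul_le_of_le_one_left (by positivity) ((div_le_one L0).2 key)
  · have dL' : (d * L : ℝ) ≤ N := by exact_mod_cast dL
    have a : ((d * D0.natAbs : ℕ) : ℝ) * L' * P ^ 8 ≤ T * P := by
      rw [Nat.cast_mul, mul_assoc, mul_assoc, ← mul_assoc (D0.natAbs : ℝ)]
      exact (mul_le_mul_of_nonneg_left eL (by positivity)).trans (dL'.trans NT)
    refine le_of_mul_le_mul_right (a.trans ?_) (by positivity : 0 < P ^ 8)
    rw [show 2 * (1 / P ^ 5) * T * P ^ 8 = T * P * (2 * P ^ 2) by field_simp]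
    exact le_mul_of_one_le_right (by positivity) (by nlinarith)

end Cst

open Cst

theorem cst (hB : BAS) (hW : WIN) : CST := by
  classical
  refine fun j ε ε0 ε1 => ⟨j + 10, fun Y q N T Q r t K0 d L _ ρ θ G ξ γ b Ψ Ω Ω' W0 hY hq hr hL hρ
    hT NT hG h0 h1 I hd dL sub hD hs => ?_⟩
  push_cast at hY
  have j0 : (0 : ℝ) ≤ j := Nat.cast_nonneg _
  have Y1 : 1 ≤ Y := by linarith
  have Y5 : Y ^ 5 ≤ Y ^ (j + 10) := pw_le Y1 (by omega)
  have Y4 : 4 * Y ^ 4 ≤ Y ^ 5 := mul_pw_le (by linarith) (by linarith) 4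
  obtain ⟨L', l1', l2, l3, -⟩ := exists_side (L := L) (Y := Y ^ 4) (one_le_pow₀ Y1) (by linarith)
  obtain ⟨D0, w, d0, d1, d2, d3⟩ := Ke.cr Q (Fin r) t K0 b I.hK I.hb I.hi
  have ht : (t : ℝ) ≤ Y := le_trans (by exact_mod_cast I.ht) hr
  have hF := fac ht I.hK'
  generalize t.factorial * K0 ^ t = F at d1 d2 hF
  set P := Real.exp Y with hP
  have P1 : Y + 1 ≤ P := Real.add_one_le_exp Y
  have P0 : 0 < P := by linarith
  have L0 : (0 : ℝ) < L := lt_of_lt_of_le (by positivity) l2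
  have T0 : (0 : ℝ) < T := by exact_mod_cast hT
  have key : (F : ℝ) * L' * P ^ 8 ≤ L := by
    refine le_trans ?_ l2
    rw [hP, ← Real.exp_nat_mul, mul_right_comm, mul_comm]
    refine mul_le_mul_of_nonneg_left ((mul_le_mul_of_nonneg_right hF (by positivity)).trans ?_)
      (by positivity)
    rw [← Real.exp_add]
    refine Real.exp_le_exp.2 ?_
    have : 100 ≤ Y ^ 2 := by nlinarith
    push_cast
    nlinarith
  have e1 : 1 ≤ D0.natAbs := Int.natAbs_pos.2 fun h => d0 (by simp [h])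
  have eF : (D0.natAbs : ℝ) ≤ F := by
    rw [Int.abs_eq_natAbs] at d1
    exact_mod_cast d1
  have P8 : 1 ≤ P ^ 8 := one_le_pow₀ (by linarith)
  have eL : (D0.natAbs : ℝ) * L' * P ^ 8 ≤ L := le_trans (by gcongr) key
  have good : ∀ u ∈ Ω', (T : ℝ) / P ^ 3 ≤ ((rg T).filter fun o =>
      θ ≤ 𝔼 v ∈ rg L', G (lc W0 d u) (o + (d * D0.natAbs : ℕ) * v)).card := fun u hu =>
    many (by linarith) ht hr hρ hT l1' L0 NT dL (hG _) h0 h1 I.hl I.hp d2 d3 (hs u hu) key eL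
      (I.hx _ (mem_pre.1 (sub hu)).2)
  obtain ⟨o, -, ho⟩ := exists_le_of_sum_le (s := rg T) (f := fun _ => (Ω'.card : ℝ) / P ^ 3)
    (g := fun o => ((Ω'.filter fun u => o ∈ (rg T).filter fun o =>
      θ ≤ 𝔼 v ∈ rg L', G (lc W0 d u) (o + (d * D0.natAbs : ℕ) * v)).card : ℝ))
    ⟨0, by simp [rg]; omega⟩ (by
      rw [sum_card_swap _ _ _ fun u => filter_subset _ _, sum_const, Win.c1, nsmul_eq_mul]
      refine le_trans (le_of_eq ?_) (card_nsmul_le_sum _ _ _ good)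
      rw [nsmul_eq_mul]; ring)
  obtain ⟨W1, hW1⟩ := dn_win hW (Y := Y + 3 * Y) ⟨(filter_subset _ _).trans hD.1,
    le_trans (by
      rw [le_div_iff₀ (by positivity), hP, ← Real.exp_nat_mul, mul_right_comm, ← Real.exp_add]
      refine le_trans (le_of_eq ?_) hD.2
      push_cast; ring_nf) ho⟩ l1' (by exact_mod_cast L0) (e := D0.natAbs)
    (by exact_mod_cast (le_mul_of_one_le_right (by positivity) P8).trans eL)
  refine ⟨o, lc W0 d W1, d * D0.natAbs, L', _, Nat.mul_pos hd e1, l1',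
    l3.trans (by gcongr; nlinarith [pow_nonneg (by linarith : (0 : ℝ) ≤ Y) 4]), hW1.mono ?_,
    fun u hu => ?_⟩
  · have : (j : ℝ) * q ≤ Y * Y := by gcongr; linarith
    have Y3 : Y ^ 3 ≤ Y ^ (j + 10) := pw_le Y1 (by omega)
    nlinarith
  · have := (mem_filter.1 (mem_filter.1 (mem_pre.1 hu).2).2).2
    rw [hB.2.2.2.2.2.1] at this
    exact le_trans (by nlinarith) this

end Vale.Agent.P057L
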