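import Vale.Agent.P057L.Num
import Vale.Agent.P057L.Win
import Vale.Agent.P057Z.Ke.Sm
import Vale.Agent.P057Z.Ke.Pop

/-! Dropping the frequencies without energy. -/

set_option linter.all false

open Finset
open scoped BigOperators Classical

namespace Vale.Agent.P057L

open Vale.Agent.P057Z Vale.Agent.P057Z.Ke

namespace Drop

variable {Q : ℕ} [Fact Q.Prime] {r : ℕ}

theorem lap_ll {ρ : ℝ} (hρ : 0 < ρ) : LL (1 / ρ) (lap ρ : (Fin r → ZMod Q) → ℝ) := by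
  refine ⟨fun u => Real.exp_pos _, fun u => ?_, fun u v => ?_⟩
  · unfold lap
    rw [Real.exp_le_one_iff]
    exact div_nonpos_of_nonpos_of_nonneg (neg_nonpos.2 (l1_nonneg u)) hρ.le
  · unfold lap
    rw [← Real.exp_add]
    refine Real.exp_le_exp.2 ?_
    have h := l1_sub_le (u + v) v
    rw [add_sub_cancel_right] at h
    have e : 1 / ρ * l1 v + -l1 u / ρ = (l1 v - l1 u) / ρ := by ring
    rw [e]
    exact div_le_div_of_nonneg_right (by linarith) hρ.le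

theorem rgne {T : ℕ} (hT : 1 ≤ T) : (rg T).Nonempty := by
  rw [← card_pos, Win.c1]
  exact hT

/-- one Fourier mode -/
noncomputable def md (k : Fin r → ℤ) (ξ γ : Fin r → ZMod Q) (T : ℕ) (G : ℤ → ℝ) : ℂ :=
  ch (cs Q k ⬝ᵥ γ) * 𝔼 s ∈ rg T, (G s : ℂ) * ch (cs Q k ⬝ᵥ ξ * (s : ZMod Q))

theorem exc_fa {Φ : (Fin r → ZMod Q) → ℝ} {S : Finset (Fin r → ℤ)} {c : (Fin r → ℤ) → ℂ}
    {η B θ : ℝ} {T : ℕ} {G : ℤ → ℝ} (ξ γ : Fin r → ZMod Q) (hT : 1 ≤ T)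
    (h : ∀ u, ‖(Φ u : ℂ) - ∑ k ∈ S, c k * ch (cs Q k ⬝ᵥ u)‖ ≤ η) (hG : ∀ s, |G s - θ| ≤ B) :
    ‖(exc Φ ξ γ T G θ : ℂ) - ∑ k ∈ S, c k * (md k ξ γ T G - md k ξ γ T fun _ => θ)‖ ≤ η * B := by
  have e : ∑ k ∈ S, c k * (md k ξ γ T G - md k ξ γ T fun _ => θ) = 𝔼 s ∈ rg T,
      (∑ k ∈ S, c k * ch (cs Q k ⬝ᵥ ((s : ZMod Q) • ξ + γ))) * ((G s - θ : ℝ) : ℂ) := by
    simp only [sum_mul]
    rw [expect_sum_comm]
    refine sum_congr rfl fun k _ => ?_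
    rw [md, md, ← mul_sub, ← expect_sub_distrib, mul_expect, mul_expect]
    refine expect_congr rfl fun s _ => ?_
    rw [dotProduct_add, dotProduct_smul, ch_add, smul_eq_mul, mul_comm (s : ZMod Q)]
    push_cast
    ring
  rw [e, exc, ofReal_expect', ← expect_sub_distrib]
  refine norm_expect_le' (rgne hT) fun s _ => ?_
  rw [Complex.ofReal_mul, ← sub_mul, norm_mul, Complex.norm_real, Real.norm_eq_abs]
  exact mul_le_mul (h _) (hG s) (abs_nonneg _) ((norm_nonneg _).trans (h 0))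

theorem split {α τ : Type} (B : Finset α) (F : α → ℂ) (p : τ → α → Prop) {δ : ℝ}
    (h : ∀ t, ∀ U ⊆ B, (∀ W ∈ U, p t W) → ‖∑ W ∈ U, F W‖ ≤ δ) (s : Finset τ) :
    ∀ U ⊆ B, (∀ W ∈ U, ∃ t ∈ s, p t W) → ‖∑ W ∈ U, F W‖ ≤ s.card * δ := by
  induction s using Finset.induction_on with
  | empty =>
    intro U _ hU
    rw [eq_empty_of_forall_notMem (s := U) fun W hW => by simpa using hU W hW]
    simp
  | insert t s ht ih =>
    intro U hB hU
    rw [← sum_filter_add_sum_filter_not U (p t), card_insert_of_notMem ht]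
    have h1 := h t (U.filter (p t)) ((filter_subset _ _).trans hB) fun W hW => (mem_filter.1 hW).2
    have h2 := ih (U.filter fun W => ¬ p t W) ((filter_subset _ _).trans hB) fun W hW => by
      obtain ⟨t', h3, h4⟩ := hU W (mem_filter.1 hW).1
      rcases mem_insert.1 h3 with rfl | h3
      · exact absurd h4 (mem_filter.1 hW).2
      · exact ⟨t', h3, h4⟩
    refine (norm_add_le _ _).trans ?_
    push_cast
    linarith

/-- the labels with entries in P -/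
def labs {α : Type} (r : ℕ) (P : Finset α) : Finset (Σ t : ℕ, Fin t → α) :=
  (range (r + 1)).sigma fun t => Fintype.piFinset fun _ : Fin t => P

theorem card_labs {α : Type} (P : Finset α) :
    (labs r P).card ≤ (r + 1) * (P.card + 1) ^ r := by
  rw [labs, card_sigma]
  refine (sum_le_card_nsmul _ _ ((P.card + 1) ^ r) fun j hj => ?_).trans (by simp)
  rw [Win.cp]
  exact (Nat.pow_le_pow_left (Nat.le_succ _) j).trans
    (Nat.pow_le_pow_right (Nat.succ_pos _) (Nat.lt_succ_iff.1 (mem_range.1 hj)))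

/-- the span of a label -/
def spn {α : Type} (f : α → Fin r → ZMod Q) (d : Σ t : ℕ, Fin t → α) :
    Submodule (ZMod Q) (Fin r → ZMod Q) :=
  Submodule.span (ZMod Q) (Set.range fun i => f (d.2 i))

theorem spn_perp {α : Type} {f : α → Fin r → ZMod Q} {d : Σ t : ℕ, Fin t → α}
    {v : Fin r → ZMod Q} (h : ∀ i, f (d.2 i) ⬝ᵥ v = 0) : v ∈ perp (spn f d) := by
  refine mem_perp.2 fun k hk => Submodule.span_induction (p := fun k _ => k ⬝ᵥ v = 0) ?_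
    (zero_dotProduct v) (fun x y _ _ hx hy => by rw [add_dotProduct, hx, hy, add_zero])
    (fun a x _ hx => by rw [smul_dotProduct, hx, smul_zero]) hk
  rintro _ ⟨i, rfl⟩
  exact h i

theorem pick {α β : Type} [DecidableEq β] (Ω : Finset α) (D : Finset β) (lab : α → β)
    (h : ∀ W, lab W ∈ D) (a : α) {n A B : ℝ} (hA : 0 ≤ A) (h1 : n ≤ A * Ω.card) (h2 : A * D.card ≤ Real.exp B) :
    ∃ d, Real.exp (-B) * n ≤ (Ω.filter fun W => lab W = d).card := by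
  have D0 : (0 : ℝ) < D.card := by exact_mod_cast card_pos.2 ⟨_, h a⟩
  obtain ⟨d, -, hd⟩ := exists_le_card_fiber_of_nsmul_le_card_of_maps_to (s := Ω) (f := lab)
    (t := D) (b := (Ω.card : ℝ) / D.card) (fun W _ => h W) ⟨_, h a⟩
    (by rw [nsmul_eq_mul, mul_div_cancel₀ _ D0.ne'])
  refine ⟨d, ?_⟩
  rw [div_le_iff₀ D0] at hd
  rw [Real.exp_neg, inv_mul_le_iff₀ (Real.exp_pos _)]
  refine h1.trans ((mul_le_mul_of_nonneg_left hd hA).trans ?_)
  rw [mul_comm _ (D.card : ℝ), ← mul_assoc]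
  exact mul_le_mul_of_nonneg_right h2 (Nat.cast_nonneg _)

theorem card_P {τ : Type} [Fintype τ] [DecidableEq τ] (K0 n : ℕ) :
    (labs r (Sm (Fin r) K0 ×ˢ Fintype.piFinset fun _ : τ => Icc 1 n)).card ≤
      (r + 1) * ((2 * K0 + 1) ^ r * n ^ (univ : Finset τ).card + 1) ^ r := by
  refine (card_labs _).trans_eq ?_
  have h : (Icc (-(K0 : ℤ)) K0).card = 2 * K0 + 1 := by
    rw [Int.card_Icc]
    omega
  rw [card_product, Sm, Win.cp, h, Fintype.card_piFinset, prod_const, Nat.card_Icc,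
    Nat.add_sub_cancel]

theorem Sm_succ {K0 : ℕ} {k : Fin r → ℤ} (h : k ∈ Sm (Fin r) K0) : k ∈ Sm (Fin r) (K0 + 1) := by
  refine Fintype.mem_piFinset.2 fun i => ?_
  have := mem_Icc.1 (Fintype.mem_piFinset.1 h i)
  refine mem_Icc.2 ?_
  push_cast
  omega

theorem ex_lab {α : Type} (P : Finset α) (f : α → Fin r → ZMod Q) (S : α → Prop) :
    ∃ d ∈ labs r P, (∀ i, S (d.2 i)) ∧ LinearIndependent (ZMod Q) (fun i => f (d.2 i)) ∧
      ∀ a ∈ P, S a → f a ∈ spn f d := by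
  obtain ⟨κ, a, -, h1, h2⟩ := exists_linearIndependent' (ZMod Q)
    fun p : {p : α // p ∈ P ∧ S p} => f p.1
  have := h2.finite
  have := Fintype.ofFinite κ
  have h3 := h2.fintype_card_le_finrank
  rw [Module.finrank_fin_fun] at h3
  let ε := (Fintype.equivFin κ).symm
  refine ⟨⟨Fintype.card κ, fun i => (a (ε i)).1⟩, ?_, fun i => (a (ε i)).2.2,
    h2.comp ε ε.injective, fun b hb hS => ?_⟩
  · rw [labs, mem_sigma, mem_range, Fintype.mem_piFinset]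
    exact ⟨Nat.lt_succ_of_le h3, fun i => (a (ε i)).2.1⟩
  · exact ((congrArg _ (ε.surjective.range_comp _)).trans h1).ge
      (Submodule.subset_span ⟨⟨b, hb, hS⟩, rfl⟩)

theorem smooth {Ψ Φ : (Fin r → ZMod Q) → ℝ} {ε θ κ : ℝ} {T : ℕ} {G : ℤ → ℝ}
    {ξ γ : Fin r → ZMod Q} (h0 : 0 < ε) (h1 : ε ≤ 1) (hθ : 0 ≤ θ) (hG : ∀ s, 0 ≤ G s)
    (hΨ : ∀ u, 0 ≤ Ψ u) (h : ∀ u, (1 - ε / 2) * Ψ u ≤ Φ u ∧ Φ u ≤ (1 + ε / 2) * Ψ u) (hκ : 0 ≤ κ)
    (hx : κ ≤ exc Ψ ξ γ T G θ) : κ / 2 ≤ exc Φ ξ γ T G ((1 - ε) * θ) := by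
  have a : (1 - ε / 2) * exc Ψ ξ γ T G θ ≤ exc Φ ξ γ T G ((1 - ε) * θ) := by
    rw [exc, exc, mul_expect]
    refine expect_le_expect fun s _ => ?_
    obtain ⟨a1, a2⟩ := h ((s : ZMod Q) • ξ + γ)
    have a3 := mul_le_mul_of_nonneg_right a1 (hG s)
    have a4 := mul_le_mul_of_nonneg_right a2 (mul_nonneg (sub_nonneg.2 h1) hθ)
    have a5 := mul_nonneg (mul_nonneg (hΨ ((s : ZMod Q) • ξ + γ)) hθ) (sq_nonneg ε)
    nlinarith
  nlinarith

theorem mark {α : Type} (Ω : Finset α) (b : α → ℝ) {κ E n : ℝ} (κ0 : 0 < κ) (κE : κ * E = 1)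
    (hb : ∀ W, b W ≤ E) (hn : κ * n ≤ Ω.card)
    (h : ∑ W ∈ Ω, (κ / 2 - κ / 8 - b W) ≤ Ω.card * (κ / 8)) :
    n ≤ 8 * E ^ 3 * (Ω.filter fun W => κ / 8 ≤ b W).card := by
  have s3 : ∑ W ∈ Ω, b W ≤ (Ω.filter fun W => κ / 8 ≤ b W).card * E + Ω.card * (κ / 8) := by
    rw [← nsmul_eq_mul, ← nsmul_eq_mul, ← sum_const, ← sum_const, sum_filter, ← sum_add_distrib]
    refine sum_le_sum fun W _ => ?_
    split_ifs with h
    · linarith [hb W]
    · linarith [not_le.1 h]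
  rw [sum_sub_distrib, sum_const, nsmul_eq_mul] at h
  have a1 : Ω.card * κ ≤ 8 * ((Ω.filter fun W => κ / 8 ≤ b W).card * E) := by linarith
  have a2 := (mul_le_mul_of_nonneg_right hn κ0.le).trans a1
  have a3 := mul_le_mul_of_nonneg_right a2 (sq_nonneg E)
  calc _ = (κ * E) ^ 2 * n := by rw [κE]; ring
    _ ≤ _ := by linarith

theorem est {α : Type} (Ω : Finset α) {Ψ : (Fin r → ZMod Q) → ℝ} {K0 T : ℕ} {M η κ E θ δ : ℝ}
    (ξ γ : α → Fin r → ZMod Q) (G : α → ℤ → ℝ) (K : α → Submodule (ZMod Q) (Fin r → ZMod Q))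
    (hT : 1 ≤ T) (hΨ : FA Ψ K0 M η) (gθ : ∀ W s, |G W s - θ| ≤ E) (ηE : η * E ≤ κ / 16)
    (hx : ∀ W ∈ Ω, κ / 2 ≤ exc Ψ (ξ W) (γ W) T (G W) θ) (δ0 : 0 ≤ δ)
    (hδ : M * δ ≤ Ω.card * (κ / 8))
    (hF : ∀ k ∈ Sm (Fin r) K0, ‖∑ W ∈ Ω.filter fun W => cs Q k ∉ K W,
      (md k (ξ W) (γ W) T (G W) - md k (ξ W) (γ W) T fun _ => θ)‖ ≤ δ) :
    ∑ W ∈ Ω, (κ / 2 - κ / 8 - exc (avg (K W) Ψ) (ξ W) (γ W) T (G W) θ) ≤ Ω.card * (κ / 8) := by
  obtain ⟨cf, hc, hc'⟩ := hΨ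
  set F : (Fin r → ℤ) → α → ℂ := fun k W =>
    md k (ξ W) (γ W) T (G W) - md k (ξ W) (γ W) T fun _ => θ with hF'
  have s1 : ∀ W ∈ Ω, κ / 2 - κ / 8 - exc (avg (K W) Ψ) (ξ W) (γ W) T (G W) θ ≤
      (∑ k ∈ Sm (Fin r) K0, cf k * if cs Q k ∉ K W then F k W else 0).re := fun W hW => by
    have a1 := exc_fa (ξ W) (γ W) hT hc' (gθ W)
    have a2 := exc_fa (ξ W) (γ W) hT (avg_fa (K := K W) hc') (gθ W)
    have a4 : ∑ k ∈ Sm (Fin r) K0, (cf k * if cs Q k ∉ K W then F k W else 0) =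
        ∑ k ∈ Sm (Fin r) K0, cf k * F k W -
          ∑ k ∈ Sm (Fin r) K0, (if cs Q k ∈ K W then cf k else 0) * F k W := by
      rw [← sum_sub_distrib]
      refine sum_congr rfl fun k _ => ?_
      by_cases h : cs Q k ∈ K W <;> simp [h]
    have a5 := (le_abs_self _).trans ((Complex.abs_re_le_norm _).trans a1)
    have a6 := (neg_le_abs _).trans ((Complex.abs_re_le_norm _).trans a2)
    rw [Complex.sub_re, Complex.ofReal_re] at a5 a6
    rw [a4, Complex.sub_re]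
    simp only [F]
    linarith [hx W hW]
  refine (sum_le_sum s1).trans ?_
  rw [← Complex.re_sum, sum_comm]
  refine (Complex.re_le_norm _).trans ((norm_sum_le_of_le _
    (n := fun k => ‖cf k‖ * δ) fun k hk => ?_).trans ?_)
  · rw [← mul_sum, ← sum_filter, norm_mul]
    exact mul_le_mul_of_nonneg_left (hF k hk) (norm_nonneg _)
  · rw [← sum_mul]
    exact (mul_le_mul_of_nonneg_right hc δ0).trans hδ

theorem num0 {Y ε ρ : ℝ} (hY : 10 ≤ Y) (e0 : 0 < ε) (he : 2 / ε ≤ Y) (hρ : Real.exp (-Y) ≤ ρ) :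
    1 / ρ ≤ Real.exp Y ∧ Real.exp (-Y) ≤ ε / 2 ∧ 3 * Y ≤ Real.exp Y ∧
      Real.exp (-(3 * Y)) * Real.exp Y ≤ Real.exp (-Y) / 16 ∧
      Real.exp (5 * Y) + 1 ≤ Real.exp (6 * Y) ∧ Real.exp (-(6 * Y)) ≤ Real.exp (-Y) / 8 := by
  have E1 : Y + 1 ≤ Real.exp Y := Real.add_one_le_exp Y
  have κ0 := Real.exp_pos (-Y)
  have κE : Real.exp (-Y) * Real.exp Y = 1 := by rw [← Real.exp_add]; simp
  have κ1 : Real.exp (-Y) ≤ 1 / 16 := by nlinarith [num_exp hY]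
  refine ⟨?_, ?_, by nlinarith [num_exp hY], ?_, ?_, ?_⟩
  · rw [div_le_iff₀ (κ0.trans_le hρ)]
    nlinarith
  · rw [div_le_iff₀ e0] at he
    nlinarith
  · rw [show -(3 * Y) = -Y + -Y + -Y by ring, Real.exp_add, Real.exp_add, mul_assoc, κE, mul_one]
    nlinarith
  · rw [show 6 * Y = Y + 5 * Y by ring, Real.exp_add]
    nlinarith [Real.one_le_exp (by linarith : 0 ≤ 5 * Y)]
  · refine (Real.exp_le_exp.2 (by linarith : -(6 * Y) ≤ -Y + -Y)).trans ?_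
    rw [Real.exp_add]
    nlinarith

theorem num1 {Y n : ℝ} (hY : 10 ≤ Y) (hn : n ≤ Y ^ 3) :
    Real.exp (6 * Y ^ 2) * (n * (2 * (Real.exp (-Y ^ 3) * Real.exp Y ^ 2))) ≤
      Real.exp (-Y) * (Real.exp (-Y) / 8) := by
  have a1 : Y ≤ Real.exp Y := by linarith [Real.add_one_le_exp Y]
  have a2 : 16 ≤ Real.exp Y := by nlinarith [num_exp hY]
  have a3 : n ≤ Real.exp Y ^ 3 := hn.trans (pow_le_pow_left₀ (by linarith) a1 3)
  rw [← mul_div_assoc, le_div_iff₀ (by norm_num)]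
  calc _ = 16 * n * (Real.exp (6 * Y ^ 2) * Real.exp (-Y ^ 3) * Real.exp Y ^ 2) := by ring
    _ ≤ Real.exp Y * Real.exp Y ^ 3 *
        (Real.exp (6 * Y ^ 2) * Real.exp (-Y ^ 3) * Real.exp Y ^ 2) := by
      rcases le_total 0 n with h | h
      · gcongr
      · exact (mul_nonpos_of_nonpos_of_nonneg (by linarith) (by positivity)).trans (by positivity)
    _ ≤ _ := by
      simp only [← Real.exp_nat_mul, ← Real.exp_add]
      refine Real.exp_le_exp.2 ?_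
      push_cast
      nlinarith [mul_le_mul_of_nonneg_right hY (sq_nonneg Y)]

theorem num2 {Y : ℝ} {K n D m : ℕ} (hY : 10 ≤ Y) (hr : (r : ℝ) ≤ Y)
    (hK : (K : ℝ) ≤ Real.exp (5 * Y)) (hn : (n : ℝ) ≤ Real.exp (Y ^ D)) (hm : (m : ℝ) ≤ Y ^ 3) :
    8 * Real.exp Y ^ 3 * ((r + 1) * ((2 * K + 1) ^ r * n ^ m + 1) ^ r : ℕ) ≤
      Real.exp (Y ^ (D + 6)) := by
  have y1 : (1 : ℝ) ≤ Y := by linarith
  have a1 : Y + 1 ≤ Real.exp Y := Real.add_one_le_exp Y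
  have a2 : (2 * K + 1 : ℝ) ≤ Real.exp (6 * Y) := by
    rw [show 6 * Y = Y + 5 * Y by ring, Real.exp_add]
    nlinarith [Real.one_le_exp (by linarith : 0 ≤ 5 * Y)]
  have p3 : Y ^ 3 ≤ Y ^ (D + 3) := pw_le y1 (by omega)
  have p4 := mul_pw_le (by linarith : (0 : ℝ) ≤ Y) hY (D + 3)
  have p5 := mul_pw_le (by linarith : (0 : ℝ) ≤ Y) hY (D + 5)
  have p6 : Y ≤ Y ^ (D + 5) := le_pw y1 (by omega)
  have p7 : 0 ≤ Y ^ D := by positivity
  have a3 : ((2 * K + 1) ^ r * n ^ m : ℝ) ≤ Real.exp (2 * Y ^ (D + 3)) := by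
    calc _ ≤ Real.exp (6 * Y) ^ r * Real.exp (Y ^ D) ^ m := by gcongr
      _ ≤ _ := by
        simp only [← Real.exp_nat_mul, ← Real.exp_add]
        refine Real.exp_le_exp.2 ?_
        have := mul_le_mul_of_nonneg_right hm p7
        rw [← pow_add, add_comm 3] at this
        nlinarith [mul_le_mul_of_nonneg_right hY (sq_nonneg Y)]
  have a4 : ((2 * K + 1) ^ r * n ^ m + 1 : ℝ) ≤ Real.exp (Y ^ (D + 4)) := by
    have b1 : 1 ≤ Real.exp (2 * Y ^ (D + 3)) := Real.one_le_exp (by positivity)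
    have b2 : Real.exp Y * Real.exp (2 * Y ^ (D + 3)) ≤ Real.exp (Y ^ (D + 4)) := by
      rw [← Real.exp_add]
      refine Real.exp_le_exp.2 ?_
      linarith [le_pw y1 (by omega : 1 ≤ D + 3)]
    nlinarith
  push_cast
  calc _ ≤ Real.exp Y * Real.exp Y ^ 3 * (Real.exp Y * Real.exp (Y ^ (D + 4)) ^ r) := by
        gcongr <;> linarith
    _ ≤ _ := by
      simp only [← Real.exp_nat_mul, ← Real.exp_add]
      refine Real.exp_le_exp.2 ?_
      have := mul_le_mul_of_nonneg_right hr (by positivity : 0 ≤ Y ^ (D + 4))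
      rw [← pow_succ'] at this
      push_cast
      linarith

end Drop

open Drop in
theorem drop (h1 : DRP1) (h2 : COV) : DROP := by
  intro j ε e0 e1
  obtain ⟨C1, h1⟩ := h1 j
  obtain ⟨C2, h2⟩ := h2 j
  refine ⟨3 * (C1 + 1) * C2 + 16 + j + C1 + C2 + ⌈2 / ε⌉₊, ?_⟩
  intro Y q N T Q r _ ρ θ G ξ γ Ω hY hq hN hG t0 t1 hF I
  set C := 3 * (C1 + 1) * C2 + 16 + j + C1 + C2 + ⌈2 / ε⌉₊ with hC
  have c : ∀ n : ℕ, n ≤ C → (n : ℝ) ≤ Y := fun n h => le_trans (by exact_mod_cast h) hY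
  have y10 : (10 : ℝ) ≤ Y := by exact_mod_cast c 10 (by omega)
  have y1 : (1 : ℝ) ≤ Y := by linarith
  have E0 := Real.exp_pos Y
  have κ0 := Real.exp_pos (-Y)
  have κE : Real.exp (-Y) * Real.exp Y = 1 := by rw [← Real.exp_add]; simp
  have y2 : 6 * Y ≤ Y ^ C := le_trans (by nlinarith) (pw_le y1 (by omega : 2 ≤ C))
  have ρ0 : 0 < ρ := κ0.trans_le I.hρ
  obtain ⟨u1, u2, u3, u4, u5, u6⟩ := num0 y10 e0 ((Nat.le_ceil _).trans (c _ (by omega))) I.hρ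
  obtain ⟨Ψ, K0, hK, hL, hΨ, hc⟩ := sm Q (Fin r) Y (3 * Y) (1 / ρ) (ε / 2) (lap ρ) y10
    (by simpa using I.hr) (by positivity) u1 u2 (by linarith) u3
    ((exp_le_of_log (by linarith) (by linarith)).trans
      (by exact_mod_cast (by have := I.hNQ; omega : N ≤ Q))) (lap_ll ρ0)
  have y3 : Y ≤ Y ^ 3 := le_pw y1 (by omega)
  have E3 : Real.exp Y ≤ Real.exp (Y ^ 3) := Real.exp_le_exp.2 y3
  choose col k1 k2 k3 using fun (k : Fin r → ℤ) (τ : Fin j × Fin q × Fin q) =>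
    h2 ((Y ^ 3) ^ (C1 + 1)) q N Q (fun W => cs Q k ⬝ᵥ ξ W) τ.1 τ.2.1 τ.2.2
      ((c _ (by omega)).trans (y3.trans (le_pw (y1.trans y3) (by omega)))) (I.hT.trans I.hTN)
  set δ := Real.exp (-Y ^ 3) * Real.exp Y ^ 2 * (N : ℝ) ^ (j * q) with hδ
  have d1 : ∀ (k : Fin r → ℤ) (τ : Fin j × Fin q × Fin q) (G' : Pt j q → ℤ → ℝ),
      Fac G' (Real.exp Y) τ.1 τ.2.1 τ.2.2 → ∀ U ⊆ bp j q N, (∀ W ∈ U, col k τ W = 0) →
      ‖∑ W ∈ U, md k (ξ W) (γ W) T (G' W)‖ ≤ δ := fun k τ G' hG' U hU h0 => by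
    by_contra hlt
    have a := h1 (Y ^ 3) (Real.exp Y) q N T Q (fun W => cs Q k ⬝ᵥ ξ W) U
      (fun W => ch (cs Q k ⬝ᵥ γ W)) G' τ.1 τ.2.1 τ.2.2 ((c _ (by omega)).trans y3) (hq.trans y3)
      I.hT I.hTN (I.hNT.trans (by gcongr)) I.hNQ (I.hQN.trans (by gcongr)) E0 hU
      (fun W => (norm_ch _).le) hG' (not_le.1 hlt).le
    have b := a.trans_lt (k3 k τ U hU h0)
    rw [Real.exp_lt_exp, neg_lt_neg_iff] at b
    exact absurd (pw_le (y1.trans y3) (Nat.le_succ C1)) (not_le.2 b)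
  set θ' := (1 - ε) * θ with hθ'
  have θ0 : 0 ≤ θ' := mul_nonneg (by linarith) t0
  have θ1 : θ' ≤ Real.exp Y := (mul_le_of_le_one_left t0 (by linarith)).trans t1
  have d2 := fun k => split (bp j q N)
    (fun W => md k (ξ W) (γ W) T (G W) - md k (ξ W) (γ W) T fun _ => θ')
    (fun τ W => col k τ W = 0) (δ := 2 * δ) (fun τ U hU h0 => by
      rw [sum_sub_distrib, two_mul]
      refine (norm_sub_le _ _).trans (add_le_add (d1 k τ G (hF _ _ _) U hU h0)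
        (d1 k τ (fun _ _ => θ') (fun W0 => ⟨0, fun _ _ => θ', fun _ _ => 1, Or.inl rfl,
          fun _ _ => ?_, fun _ _ => ?_, fun _ _ _ => (mul_one _).symm⟩) U hU h0))
      · rwa [abs_of_nonneg θ0]
      · rw [abs_one]
        exact Real.one_le_exp (by linarith)) univ
  set m := (univ : Finset (Fin j × Fin q × Fin q)).card with hm
  have m3 : (m : ℝ) ≤ Y ^ 3 := by
    rw [hm, card_univ, Fintype.card_prod, Fintype.card_prod, Fintype.card_fin, Fintype.card_fin]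
    push_cast
    calc _ ≤ Y * (Y * Y) := by gcongr; exact c _ (by omega)
      _ = _ := by ring
  set n := ⌊Real.exp (((Y ^ 3) ^ (C1 + 1)) ^ C2)⌋₊ with hn
  set P := Sm (Fin r) K0 ×ˢ Fintype.piFinset fun _ : Fin j × Fin q × Fin q => Icc 1 n with hP
  choose lab l1 l2 l3 l4 using fun W : Pt j q =>
    ex_lab P (fun a => cs Q a.1) fun a => ∀ τ, col a.1 τ W = a.2 τ
  set K : Pt j q → Submodule (ZMod Q) (Fin r → ZMod Q) := fun W =>
    spn (fun a => cs Q a.1) (lab W) with hK'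
  set b : Pt j q → ℝ := fun W => exc (avg (K W) Ψ) (ξ W) (γ W) T (G W) θ' with hb
  have gθ : ∀ W s, |G W s - θ'| ≤ Real.exp Y := fun W s =>
    abs_le.2 ⟨by linarith [(hG W s).1], by linarith [(hG W s).2]⟩
  have s4 := est Ω ξ γ G K I.hT hc gθ u4 (fun W hW => smooth e0 (by linarith) t0
    (fun s => (hG W s).1) (fun u => (lap_pos ρ u).le) hΨ κ0.le (I.hx W hW)) (δ := m * (2 * δ))
    (by positivity)
    (by
      calc _ = Real.exp (6 * Y ^ 2) * (m * (2 * (Real.exp (-Y ^ 3) * Real.exp Y ^ 2))) *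
          (N : ℝ) ^ (j * q) := by rw [hδ]; ring
        _ ≤ _ := mul_le_mul_of_nonneg_right (num1 y10 m3) (by positivity)
        _ = _ := mul_right_comm _ _ _
        _ ≤ _ := mul_le_mul_of_nonneg_right I.hd.2 (by positivity))
    fun k hk => d2 k _ ((filter_subset _ _).trans I.hd.1) fun W hW => by
      by_contra h
      refine (mem_filter.1 hW).2 (l4 W (k, fun τ => col k τ W) (mem_product.2 ⟨hk,
        Fintype.mem_piFinset.2 fun τ => mem_Icc.2 ⟨?_, Nat.le_floor (k1 k τ W)⟩⟩) fun _ => rfl)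
      exact Nat.one_le_iff_ne_zero.2 fun h' => h ⟨τ, mem_univ _, h'⟩
  have s5 := mark Ω b κ0 κE (fun W => expect_le (rgne I.hT) fun s _ =>
    (mul_le_mul_of_nonneg_left (le_of_abs_le (gθ W s)) ((avg_ll hL).pos _).le).trans
      (mul_le_of_le_one_left E0.le ((avg_ll hL).le_one _))) I.hd.2 s4
  set Ω' := Ω.filter fun W => Real.exp (-Y) / 8 ≤ b W with hΩ'
  obtain ⟨d, hd⟩ := pick Ω' (labs r P) lab l1 0 (B := Y ^ C) (by positivity) s5
    (le_trans (mul_le_mul_of_nonneg_left (Nat.cast_le.2 (card_P K0 n)) (by positivity))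
      ((num2 (D := 3 * (C1 + 1) * C2) y10 I.hr hK
        (by rw [pow_mul, pow_mul]; exact Nat.floor_le (Real.exp_pos _).le) m3).trans
        (Real.exp_le_exp.2 (pw_le y1 (by omega)))))
  set Ω1 := Ω'.filter fun W => lab W = d with hΩ1
  have s6 : Dn Ω1 N (Y ^ C) :=
    ⟨((filter_subset _ _).trans (filter_subset _ _)).trans I.hd.1, hd⟩
  have hΩ : ∀ W ∈ Ω1, W ∈ bp j q N ∧ lab W = d ∧ Real.exp (-Y) / 8 ≤ b W := fun W hW =>
    ⟨s6.1 hW, (mem_filter.1 hW).2, (mem_filter.1 (mem_filter.1 hW).1).2⟩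
  obtain ⟨W0, hW0⟩ := s6.nonempty (I.hT.trans I.hTN)
  obtain rfl := (hΩ W0 hW0).2.1
  obtain ⟨p1, p2⟩ := mem_sigma.1 (l1 W0)
  have p3 := fun a => mem_product.1 (Fintype.mem_piFinset.1 p2 a)
  refine ⟨(lab W0).1, K0 + 1, fun a => ((lab W0).2 a).1, avg (K W0) Ψ, Ω1,
    ⟨Nat.lt_succ_iff.1 (mem_range.1 p1), Nat.le_add_left _ _, ?_, fun a => Sm_succ (p3 a).1,
      l3 W0, avg_ll hL, fun u v h => avg_add Ψ u (spn_perp h), s6, fun W hW => ?_⟩, ?_⟩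
  · push_cast
    linarith [Real.exp_le_exp.2 y2]
  · have a1 : _ ≤ exc (avg (K W) Ψ) (ξ W) (γ W) T (G W) θ' := (hΩ W hW).2.2
    rw [show K W = K W0 from congrArg (spn _) (hΩ W hW).2.1] at a1
    exact ((Real.exp_le_exp.2 (neg_le_neg y2)).trans u6).trans a1
  · intro i l l' W a a' w1 w2 w3 w4
    funext x
    have hm : ∀ V ∈ Ω1, V ∈ (bp j q N).filter fun V =>
        col ((lab W0).2 x).1 (i, l, l') V = ((lab W0).2 x).2 (i, l, l') := fun V hV => by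
      refine mem_filter.2 ⟨(hΩ V hV).1, ?_⟩
      have := l2 V
      rw [(hΩ V hV).2.1] at this
      exact this x _
    exact k2 ((lab W0).2 x).1 (i, l, l') _ (Nat.one_le_iff_ne_zero.1
      (mem_Icc.1 (Fintype.mem_piFinset.1 (p3 x).2 _)).1) W a a' (hm _ w1) (hm _ w2) (hm _ w3)
      (hm _ w4)

end Vale.Agent.P057L
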