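import Vale.Agent.P057L.HgDefs

/-! The lower tail of the full marginal. -/

open Finset
open scoped BigOperators

namespace Vale.Agent.P057L

namespace Tail

theorem exists_eta (r : ℕ) {δ : ℝ} (hδ : 0 < δ) : ∃ η : ℝ, 0 < η ∧ η ≤ δ ∧
    (((1 + η) ^ 2) ^ r * (1 + (1 + η) ^ 2 / 2)) ^ 2 * (1 + η) ≤ 9 / 4 + δ / 2 := by
  have c : ContinuousAt (fun η : ℝ => (((1 + η) ^ 2) ^ r * (1 + (1 + η) ^ 2 / 2)) ^ 2 * (1 + η)) 0 :=
    by fun_prop
  obtain ⟨ε, hε, h⟩ := Metric.continuousAt_iff.1 c (δ / 2) (by positivity)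
  have p : 0 < min δ (ε / 2) := by positivity
  refine ⟨_, p, min_le_left _ _, ?_⟩
  have := h (x := min δ (ε / 2)) (by
    rw [Real.dist_eq, sub_zero, abs_of_pos p]
    linarith [min_le_right δ (ε / 2)])
  rw [Real.dist_eq] at this
  have := (abs_lt.1 this).2
  norm_num at this ⊢
  linarith

theorem exists_m {η D : ℝ} (hη : 0 < η) (hD : 0 < D) :
    ∃ m : ℕ, 1 ≤ m ∧ D * (2 * m + 1) ≤ (1 + η) ^ m := by
  obtain ⟨j, hj⟩ := exists_nat_ge (5 * D / η ^ 2 + 1)
  have h0 : 0 < 5 * D / η ^ 2 := by positivity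
  have j1 : (1 : ℝ) ≤ j := by linarith
  have h1 : 5 * D ≤ j * η ^ 2 := (div_le_iff₀ (by positivity)).1 (by linarith)
  have h2 := one_add_mul_le_pow (a := η) (by linarith) j
  refine ⟨j * 2, by have : 1 ≤ j := by exact_mod_cast j1
                    omega, ?_⟩
  have h3 : (j * η) ^ 2 ≤ ((1 + η) ^ j) ^ 2 := pow_le_pow_left₀ (by positivity) (by linarith) 2
  rw [pow_mul]
  push_cast
  nlinarith

end Tail

open Tail in
theorem tail (hP : PAIR) : TAIL := by
  classical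
  intro r
  obtain ⟨δ, hδ⟩ : ∃ δ : ℝ, δ = 1 / (4 * 13 ^ (r + 2)) := ⟨_, rfl⟩
  have δ0 : 0 < δ := by rw [hδ]; positivity
  have δ1 : δ * 13 ^ (r + 2) = 1 / 4 := by rw [hδ]; field_simp
  have δ2 : ∀ t ≤ r + 2, δ * 13 ^ t ≤ 1 / 4 := fun t ht =>
    δ1 ▸ mul_le_mul_of_nonneg_left (pow_le_pow_right₀ (by norm_num) ht) δ0.le
  obtain ⟨η, η0, η1, hη⟩ := exists_eta r δ0
  obtain ⟨m, m1, hm⟩ := exists_m η0 (D := 30 * 4 ^ (r + 2)) (by positivity)
  refine ⟨η, η0, by linarith [δ2 1 (by omega)], 4 * m + 2, fun X hX => ?_⟩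
  have m0 : (1 : ℝ) ≤ m := by exact_mod_cast m1
  push_cast at hX
  obtain ⟨k, k1, k2, k3⟩ : ∃ k : ℕ, 1 ≤ k ∧ X ≤ k ∧ (k : ℝ) ≤ 2 * X :=
    ⟨⌈X⌉₊, Nat.ceil_pos.2 (by linarith), Nat.le_ceil X,
      by linarith [Nat.ceil_lt_add_one (show 0 ≤ X by linarith)]⟩
  have key : ((2 * (m * k) : ℕ) + 1 : ℝ) * (10 * 4 ^ (r + 2) * Real.exp X) ≤ (1 + η) ^ (m * k) := by
    have a1 := one_add_mul_le_pow (a := 2 * (m : ℝ)) (by linarith) k
    have a2 : Real.exp X ≤ 3 ^ k := by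
      refine (Real.exp_le_exp.2 k2).trans ?_
      rw [← Real.exp_one_pow]
      exact pow_le_pow_left₀ (Real.exp_pos _).le (by linarith [Real.exp_one_lt_d9]) k
    have a3 : (10 * 4 ^ (r + 2) : ℝ) ≤ (10 * 4 ^ (r + 2)) ^ k :=
      le_self_pow₀ (by linarith [one_le_pow₀ (n := r + 2) (show (1 : ℝ) ≤ 4 by norm_num)]) (by omega)
    rw [pow_mul]
    refine le_trans ?_ (pow_le_pow_left₀ (by positivity) hm k)
    rw [show (30 * 4 ^ (r + 2) * (2 * m + 1) : ℝ) = (1 + 2 * m) * (10 * 4 ^ (r + 2) * 3) by ring,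
      mul_pow, mul_pow _ (3 : ℝ)]
    refine mul_le_mul (le_trans (le_of_eq ?_) a1) (mul_le_mul a3 a2 (by positivity) (by positivity))
      (by positivity) (by positivity)
    push_cast
    ring
  have n0 : 2 * (m * k) ≠ 0 := by positivity
  refine ⟨2 * (m * k), ⟨n0⟩, ?_, fun Ω _ _ _ f hf h1 => ?_⟩
  · refine le_trans ?_ (pow_le_pow_right₀ (by linarith) (show 2 ≤ 4 * m + 2 by omega))
    push_cast
    nlinarith
  have : NeZero (2 * (m * k)) := ⟨n0⟩
  have e1 : (1 : ℝ) ≤ 1 + η := by linarith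
  have N0 : (0 : ℝ) < Fintype.card (Fin (r + 2) → Ω) := by exact_mod_cast Fintype.card_pos
  have x0 := Real.exp_pos X
  have hK : (1 + η) ^ (2 * (m * k)) * Real.exp X ≤ ((1 + η) ^ 2) ^ (2 * (m * k)) := by
    rw [sq, mul_pow]
    refine mul_le_mul_of_nonneg_left (le_trans (le_trans ?_ key)
      (pow_le_pow_right₀ e1 (by omega))) (by positivity)
    have a1 : (1 : ℝ) ≤ 4 ^ (r + 2) := one_le_pow₀ (by norm_num)
    have a2 : (0 : ℝ) ≤ (2 * (m * k) : ℕ) := Nat.cast_nonneg _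
    nlinarith [mul_nonneg a2 (show 0 ≤ 10 * 4 ^ (r + 2) * Real.exp X by positivity)]
  obtain ⟨σ, hσ⟩ : ∃ σ : ℝ, σ = Fintype.card (Fin (r + 2) → Ω) /
    (10 * 4 ^ (r + 2) * Real.exp X) := ⟨_, rfl⟩
  have σ0 : 0 < σ := by rw [hσ]; positivity
  have ind : ∀ I : Finset (Fin (r + 2)), ((univ.filter fun y : Fin (r + 2) → Ω =>
      mg f I y < 1 - δ * 13 ^ I.card).card : ℝ) ≤ 4 ^ I.card * σ := by
    intro I
    induction I using Finset.strongInduction with
    | H I ih =>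
    by_cases c : I.card ≤ 1
    · rw [filter_eq_empty_iff.2 fun y _ => not_lt.2 ?_, card_empty, Nat.cast_zero]
      · positivity
      obtain ⟨a, ha⟩ := card_le_one_iff_subset_singleton.1 c
      rcases subset_singleton_iff.1 ha with rfl | rfl
      · simp [mg, δ0.le]
      · simp only [mg, prod_singleton, card_singleton]
        linarith [h1 a y]
    obtain ⟨a, ha, b, hb, hab⟩ := one_lt_card.1 (not_le.1 c)
    obtain ⟨t, ht⟩ : ∃ t, I.card = t + 2 := ⟨I.card - 2, by omega⟩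
    have t1 : t + 2 ≤ r + 2 := ht ▸ (card_le_univ I).trans (Fintype.card_fin _).le
    have hb' : b ∈ I.erase a := mem_erase.2 ⟨hab.symm, hb⟩
    have i1 := ih _ (erase_ssubset ha)
    have i2 := ih _ (erase_ssubset hb)
    have i3 := ih _ ((erase_ssubset hb').trans (erase_ssubset ha))
    rw [card_erase_of_mem ha, ht] at i1
    rw [card_erase_of_mem hb, ht] at i2
    rw [card_erase_of_mem hb', card_erase_of_mem ha, ht] at i3
    simp only [Nat.add_one_sub_one] at i1 i2 i3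
    have p0 : (1 : ℝ) ≤ 13 ^ t := one_le_pow₀ (by norm_num)
    have p1 := mul_le_mul_of_nonneg_left p0 δ0.le
    have i4 := hP r Ω (2 * (m * k)) (Real.exp X) (1 + η) ((1 + η) ^ 2) (δ * 13 ^ (t + 1))
      (δ * 13 ^ (t + 2)) f I a b (even_two_mul _) e1 (Real.one_le_exp (by linarith))
      (by positivity) hK hf ha hb hab (by positivity) (δ2 _ (by omega)) (by positivity)
      (by linarith [δ2 _ t1])
    generalize hA : (univ.filter fun y : Fin (r + 2) → Ω =>
      1 - δ * 13 ^ (t + 1) ≤ mg f ((I.erase a).erase b) y ∧ 1 - δ * 13 ^ (t + 1) ≤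
        mg f (I.erase a) y ∧ 1 - δ * 13 ^ (t + 1) ≤ mg f (I.erase b) y ∧
        mg f I y ≤ 1 - δ * 13 ^ (t + 2)) = A at i4
    have i5 : (A.card : ℝ) ≤ σ := by
      obtain ⟨ρ, hρ⟩ : ∃ ρ, ρ = (((1 + η) ^ 2) ^ r * (1 + (1 + η) ^ 2 / 2)) ^ 2 := ⟨_, rfl⟩
      have ρ0 : 0 < ρ := by rw [hρ]; positivity
      rw [Nat.mul_div_cancel_left _ two_pos, mul_assoc, pow_mul _ r, ← mul_pow, pow_mul _ 2,
        ← hρ] at i4
      rw [← hρ] at hη
      have a1 : (ρ * (1 + η)) ^ (m * k) ≤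
          (9 / 4 + δ * 13 ^ (t + 2) / 2 - 6 * (δ * 13 ^ (t + 1))) ^ (m * k) := by
        refine pow_le_pow_left₀ (by positivity) (hη.trans ?_) _
        rw [pow_succ, pow_succ]
        linarith
      have a2 := (mul_le_mul_of_nonneg_left a1 (by positivity)).trans i4
      rw [mul_pow, mul_comm (ρ ^ _), ← mul_assoc] at a2
      have a3 := (mul_le_mul_of_nonneg_left key (by positivity)).trans
        (le_of_mul_le_mul_right a2 (by positivity))
      rw [mul_left_comm] at a3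
      have a4 := le_of_mul_le_mul_left (a3.trans_eq (mul_one _).symm) (by positivity)
      rw [div_mul_eq_mul_div, div_le_one N0] at a4
      rwa [hσ, le_div_iff₀ (by positivity)]
    have i6 := card_le_card (s := univ.filter fun y : Fin (r + 2) → Ω =>
      mg f I y < 1 - δ * 13 ^ (t + 2)) (t := _ ∪ _ ∪ _ ∪ A) fun y hy => by
        rw [← hA]
        simp only [mem_union, mem_filter, mem_univ, true_and] at hy ⊢
        by_contra o
        simp only [not_or] at o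
        obtain ⟨⟨⟨o1, o2⟩, o3⟩, o4⟩ := o
        refine o4 ⟨?_, not_lt.1 fun k => o1 (mem_filter.2 ⟨mem_univ y, k⟩),
          not_lt.1 fun k => o2 (mem_filter.2 ⟨mem_univ y, k⟩), hy.le⟩
        have : ¬ mg f ((I.erase a).erase b) y < 1 - δ * 13 ^ t :=
          fun k => o3 (mem_filter.2 ⟨mem_univ y, k⟩)
        rw [pow_succ]
        linarith [not_lt.1 this]
    have i7 := i6.trans ((card_union_le _ _).trans (Nat.add_le_add_right ((card_union_le _ _).trans
      (Nat.add_le_add_right (card_union_le _ _) _)) _))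
    have i8 := (Nat.cast_le (α := ℝ)).2 i7
    have p2 := mul_le_mul_of_nonneg_right (one_le_pow₀ (n := t) (show (1 : ℝ) ≤ 4 by norm_num)) σ0.le
    rw [ht]
    push_cast at i8
    rw [pow_succ (4 : ℝ)] at i1 i2
    rw [pow_succ (4 : ℝ), pow_succ (4 : ℝ)]
    linarith
  have := ind univ
  rw [card_univ, Fintype.card_fin, δ1, show (1 : ℝ) - 1 / 4 = 3 / 4 by norm_num] at this
  refine this.trans (le_of_eq ?_)
  rw [hσ, Real.exp_neg]
  field_simp

end Vale.Agent.P057L
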