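import Vale.Agent.P057L.All0
import Vale.Agent.P057L.Drop
import Vale.Agent.P057L.Cst
import Vale.Agent.P057L.Tail

/-! The closed result. -/

namespace Vale.Agent.P057L.All

theorem final : RESULT := of3 drop (cst bas) tail

end Vale.Agent.P057L.All
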