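import Vale.Agent.P057L.Win

/-! Small facts on fibres and local coordinates. -/

set_option linter.all false

open Finset
open scoped BigOperators

namespace Vale.Agent.P057L

namespace Bas

variable {j q : ℕ}

theorem mem_cn (N : ℕ) (y : Vz q) (x : Pt j q) :
    cn y x ∈ bp (j + 1) q N ↔ y ∈ bz q N ∧ x ∈ bp j q N := by
  unfold bp cn
  rw [Fintype.mem_piFinset, Fintype.mem_piFinset, Fin.forall_fin_succ]
  rfl

theorem cn_self (W : Pt (j + 1) q) : cn (W 0) (Fin.tail W) = W := Fin.cons_self_tail W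

theorem upd_zero (y s : Vz q) (x : Pt j q) : Function.update (cn y x) 0 s = cn s x :=
  Fin.update_cons_zero (α := fun _ => Vz q) y x s

theorem upd_succ (y s : Vz q) (x : Pt j q) (i : Fin j) :
    cn y (Function.update x i s) = Function.update (cn y x) i.succ s :=
  Fin.cons_update (α := fun _ => Vz q) y x i s

theorem lc_upd (W0 W : Pt j q) (d : ℕ) (i : Fin j) (s : Vz q) :
    lc W0 d (Function.update W i s) = Function.update (lc W0 d W) i (W0 i + (d : ℤ) • s) := by
  funext k
  by_cases h : k = i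
  · subst h
    simp [lc]
  · simp [lc, h]

theorem card_fb (N : ℕ) (Ω : Finset (Pt (j + 1) q)) (h : Ω ⊆ bp (j + 1) q N) :
    Ω.card = ∑ x ∈ bp j q N, (fb Ω N x).card := by
  classical
  have hm : ∀ W ∈ Ω, W 0 ∈ bz q N ∧ Fin.tail W ∈ bp j q N := fun W hW =>
    (mem_cn N _ _).mp (by rw [cn_self]; exact h hW)
  rw [card_eq_sum_card_fiberwise (f := fun W : Pt (j + 1) q => (Fin.tail W : Pt j q))
    (t := bp j q N) fun W hW => (hm W hW).2]
  refine sum_congr rfl fun x _ => card_nbij' (fun W => W 0) (fun y => cn y x) ?_ ?_ ?_ ?_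
  · intro W hW
    obtain ⟨h1, rfl⟩ := mem_filter.mp (mem_coe.mp hW)
    exact mem_coe.mpr (mem_filter.mpr ⟨(hm W h1).1, by rw [cn_self]; exact h1⟩)
  · intro y hy
    exact mem_coe.mpr (mem_filter.mpr ⟨(mem_filter.mp (mem_coe.mp hy)).2, Fin.tail_cons _ _⟩)
  · intro W hW
    obtain ⟨-, rfl⟩ := mem_filter.mp (mem_coe.mp hW)
    exact cn_self W
  · intro y _
    rfl

end Bas

open Bas in
theorem bas : BAS := by
  refine ⟨fun q N => ⟨by rw [bz, Win.cp, Win.c1], ?_⟩,
    fun j q N => by rw [bp, Win.cp, bz, Win.cp, Win.c1, ← pow_mul, mul_comm],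
    fun j q N Ω h => card_fb N Ω h, fun j q N y x => mem_cn N y x, fun j q d y t x u => ?_,
    fun j q d e W0 W1 t => ?_, fun j q d H _ φ Ω Ω' W0 hφ h i W s t hs ht e => ?_,
    fun j q H _ φ Ω X y hφ h i W s t hs ht e => ?_, fun j q N H _ φ Ω x hφ s t hs ht e => ?_⟩
  · rw [sz, Win.cp]
    refine Nat.pow_le_pow_left ?_ q
    rw [sy, Int.card_Ioo]
    omega
  · funext k
    refine Fin.cases rfl (fun k => rfl) k
  · unfold lc
    rw [smul_add, ← mul_smul, add_assoc, Nat.cast_mul]
  · simp only [lc_upd]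
    refine hφ i (lc W0 d W) (fun a => W0 i + (d : ℤ) • s a) (fun a => W0 i + (d : ℤ) • t a)
      (fun a => lc_upd W0 W d i (s a) ▸ h _ (hs a)) (fun a => lc_upd W0 W d i (t a) ▸ h _ (ht a)) ?_
    rw [sum_add_distrib, sum_add_distrib, ← smul_sum, ← smul_sum, e]
  · simp only [upd_succ]
    exact hφ i.succ (cn y W) s t (fun a => upd_succ y (s a) W i ▸ h _ (hs a))
      (fun a => upd_succ y (t a) W i ▸ h _ (ht a)) e
  · have k := hφ 0 (cn 0 x) s t
      (fun a => by rw [upd_zero]; classical exact (mem_filter.mp (hs a)).2)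
      (fun a => by rw [upd_zero]; classical exact (mem_filter.mp (ht a)).2) e
    simp only [upd_zero] at k
    exact k

end Vale.Agent.P057L
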