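import Vale.Agent.P057L.HgDefs

/-! The moment of the rotated marginal from the recursion (row 43). -/

set_option linter.all false

open Finset
open scoped BigOperators

namespace Vale.Agent.P057L

noncomputable section

theorem core0_cons {A M : Type} [Fintype A] [DecidableEq A] [AddCommMonoid M] [Module ℚ≥0 M] {n : ℕ}
    (F : (Fin (n + 1) → A) → M) :
    𝔼 y, F y = 𝔼 a : A, 𝔼 m : Fin n → A, F (Fin.cons a m) := by
  rw [← Finset.expect_product', Finset.univ_product_univ]
  exact (Fintype.expect_equiv (Fin.consEquiv fun _ => A) _ _ fun p => rfl).symm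

theorem core0_upd {ι Ω : Type} [Fintype ι] [DecidableEq ι] [Fintype Ω] [Nonempty Ω] (i : ι)
    (F : (ι → Ω) → ℝ) : 𝔼 a, F a = 𝔼 a, 𝔼 y : Ω, F (Function.update a i y) := by
  have h : Function.Involutive
      (fun p : (ι → Ω) × Ω => ((Function.update p.1 i p.2, p.1 i) : (ι → Ω) × Ω)) := by
    intro p
    simp
  rw [← Finset.expect_product' univ univ (fun a y => F (Function.update a i y)),
    Finset.univ_product_univ,
    Fintype.expect_bijective _ h.bijective _ (fun p : (ι → Ω) × Ω => F p.1) (fun p => rfl),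
    ← Finset.univ_product_univ, Finset.expect_product]
  simp only [Fintype.expect_const]

theorem core0_ev1 {ι Ω : Type} [Fintype ι] [DecidableEq ι] [Fintype Ω] [Nonempty Ω] (i : ι)
    (φ : Ω → ℝ) : 𝔼 a : ι → Ω, φ (a i) = 𝔼 y, φ y := by
  rw [core0_upd i]
  simp only [Function.update_self, Fintype.expect_const]

theorem core0_ev2 {ι Ω : Type} [Fintype ι] [DecidableEq ι] [Fintype Ω] [Nonempty Ω] {i j : ι}
    (h : i ≠ j) (φ : Ω → Ω → ℝ) : 𝔼 a : ι → Ω, φ (a i) (a j) = 𝔼 y, 𝔼 y', φ y y' := by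
  rw [core0_upd i]
  simp only [Function.update_self, Function.update_of_ne h.symm]
  rw [Finset.expect_comm]
  exact Finset.expect_congr rfl fun y _ => core0_ev1 j (φ y)

theorem core0_prod {ι Ω : Type} [Fintype ι] [DecidableEq ι] [Fintype Ω] (F : ι → Ω → ℂ) :
    𝔼 w : ι → Ω, ∏ c, F c (w c) = ∏ c, 𝔼 x, F c x := by
  have h := Finset.prod_univ_sum (fun _ : ι => (univ : Finset Ω)) F
  rw [Fintype.piFinset_univ] at h
  simp only [Fintype.expect_eq_sum_div_card]
  rw [Finset.prod_div_distrib, h, Finset.prod_const, Fintype.card_fun, Finset.card_univ]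
  push_cast
  rfl

theorem core0_conj {Ω : Type} [Fintype Ω] (F : Ω → ℂ) :
    (starRingEnd ℂ) (𝔼 y, F y) = 𝔼 y, (starRingEnd ℂ) (F y) := by
  rw [Fintype.expect_eq_sum_div_card, Fintype.expect_eq_sum_div_card, map_div₀, map_sum]
  simp

theorem core0_rot (τ x : ℝ) : (starRingEnd ℂ) (rot τ true x) = rot τ false x := by
  simp only [rot, sb, map_add, map_one, map_mul, Complex.conj_I, Complex.conj_ofReal, if_true,
    Bool.false_eq_true, if_false]
  push_cast
  ring

/-- two more coordinates -/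
def c2 {A : Type} {r : ℕ} (a b : A) (m : Fin r → A) : Fin (r + 2) → A :=
  Fin.cons a (Fin.cons b m)

theorem core0_c2 {A M : Type} [Fintype A] [DecidableEq A] [AddCommMonoid M] [Module ℚ≥0 M] {r : ℕ}
    (F : (Fin (r + 2) → A) → M) :
    𝔼 y, F y = 𝔼 a : A, 𝔼 b : A, 𝔼 m : Fin r → A, F (c2 a b m) := by
  rw [core0_cons]
  exact Finset.expect_congr rfl fun a _ => core0_cons _

theorem core0_app {Ω : Type} {r q : ℕ} (a b : Fin q → Ω) (M : Fin r → Fin q → Ω) (c d : Fin q)
    (x : Fin r → Fin q) :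
    (fun j => c2 a b M j (c2 c d x j)) = c2 (a c) (b d) (fun j => M j (x j)) := by
  funext j
  refine Fin.cases rfl (fun j => Fin.cases rfl (fun j => rfl) j) j

theorem core0_inj {A : Type} {r : ℕ} {a b a' b' : A} {m m' : Fin r → A}
    (h : c2 a b m = c2 a' b' m') : a = a' ∧ b = b' ∧ m = m' :=
  ⟨congrFun h 0, congrFun h 1, funext fun j => congrFun h j.succ.succ⟩

theorem core0_u0 {A : Type} {r : ℕ} (a b a' : A) (m : Fin r → A) :
    Function.update (c2 a b m) 0 a' = c2 a' b m := Fin.update_cons_zero ..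

theorem core0_u1 {A : Type} {r : ℕ} (a b b' : A) (m : Fin r → A) :
    Function.update (c2 a b m) 1 b' = c2 a b' m := by
  unfold c2
  rw [show (1 : Fin (r + 2)) = Fin.succ 0 from rfl, ← Fin.cons_update, Fin.update_cons_zero]

theorem core0_u2 {A : Type} {r : ℕ} (a b x : A) (m : Fin r → A) (i : Fin r) :
    Function.update (c2 a b m) i.succ.succ x = c2 a b (Function.update m i x) := by
  unfold c2
  rw [← Fin.cons_update, ← Fin.cons_update]

/-- two families of cells -/
def core0_emb {r q : ℕ} {c d c' d' : Fin q} (h : ¬ (c = c' ∧ d = d')) :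
    ((Fin r → Fin q) × Fin q) ⊕ ((Fin r → Fin q) × Fin q) ↪ (Fin (r + 2) → Fin q) × Fin q :=
  ⟨Sum.elim (fun x => (c2 c d x.1, x.2)) (fun x => (c2 c' d' x.1, x.2)), by
    rintro (x | x) (y | y) e
    · have e1 := Prod.mk.inj e
      rw [Prod.ext (core0_inj e1.1).2.2 e1.2]
    · have e1 := core0_inj (Prod.mk.inj e).1
      exact absurd ⟨e1.1, e1.2.1⟩ h
    · have e1 := core0_inj (Prod.mk.inj e).1
      exact absurd ⟨e1.1.symm, e1.2.1.symm⟩ h
    · have e1 := Prod.mk.inj e
      rw [Prod.ext (core0_inj e1.1).2.2 e1.2]⟩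

theorem core0_two {Ω : Type} [Fintype Ω] [DecidableEq Ω] {r q : ℕ} [NeZero q] {κ : ℝ}
    {f : (Fin (r + 2) → Ω) → Ω → ℝ} {i : Fin (r + 2)} (hf : SgF q κ f i) {c d c' d' : Fin q}
    (h : ¬ (c = c' ∧ d = d')) (h1 : ∀ x : Fin r → Fin q, c2 c d x i = 0)
    (h2 : ∀ x : Fin r → Fin q, c2 c' d' x i = 0) (S : Finset ((Fin r → Fin q) × Fin q)) :
    𝔼 w : Fin q → Ω, 𝔼 a : Fin q → Ω, 𝔼 b : Fin q → Ω, 𝔼 M : Fin r → Fin q → Ω,
      ∏ x ∈ S, (f (c2 (a c) (b d) fun j => M j (x.1 j)) (w x.2) *
        f (c2 (a c') (b d') fun j => M j (x.1 j)) (w x.2)) ≤ κ ^ (2 * S.card) := by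
  have h3 := hf ((S.disjSum S).map (core0_emb h)) (by
    intro x hx
    obtain ⟨y, -, rfl⟩ := Finset.mem_map.1 hx
    rcases y with y | y
    · exact h1 _
    · exact h2 _)
  rw [Finset.card_map, Finset.card_disjSum, ← two_mul] at h3
  refine le_trans (le_of_eq ?_) h3
  refine Finset.expect_congr rfl fun w _ => ?_
  rw [core0_c2]
  refine Finset.expect_congr rfl fun a _ => Finset.expect_congr rfl fun b _ =>
    Finset.expect_congr rfl fun M _ => ?_
  rw [Finset.prod_map, Finset.prod_disjSum, Finset.prod_mul_distrib]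
  congr 1 <;> refine Finset.prod_congr rfl fun x _ => ?_ <;> rw [← core0_app] <;> rfl

theorem core0 (hR : ∀ r, REC r) : CORE0 := by
  intro r Ω _ _ _ q _ K κ ν τ f hq hκ hK hν hKν hF
  obtain ⟨n, hn⟩ := hq
  have hq0 : q ≠ 0 := NeZero.ne q
  have hq1 : 1 < q := by omega
  have h01 : (0 : Fin q) ≠ ⟨1, hq1⟩ := by
    intro h
    have := congrArg Fin.val h
    simp at this
  obtain ⟨a0⟩ := (inferInstance : Nonempty Ω)
  have hcard : Fintype.card {S : Finset (Fin q) // S.card = n} = q.choose n := by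
    rw [Fintype.card_finset_len, Fintype.card_fin]
  haveI : Nonempty {S : Finset (Fin q) // S.card = n} :=
    Fintype.card_pos_iff.1 (by rw [hcard]; exact Nat.choose_pos (by omega))
  have hcompl : ∀ S : Finset (Fin q), S.card = n → Sᶜ.card = n := by
    intro S hS
    rw [Finset.card_compl, Fintype.card_fin]
    omega
  let ng : {S : Finset (Fin q) // S.card = n} ≃ {S : Finset (Fin q) // S.card = n} :=
    ⟨fun S => ⟨S.1ᶜ, hcompl _ S.2⟩, fun S => ⟨S.1ᶜ, hcompl _ S.2⟩,
      fun S => Subtype.ext (compl_compl _), fun S => Subtype.ext (compl_compl _)⟩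
  have key := hR r Ω (Fin q) (Fin q → Ω) {S : Finset (Fin q) // S.card = n} Ω q (fun w c => w c)
    (fun S c => decide (c ∈ S.1)) ng (q + 1) K κ ν τ (fun y m z => f 0 (c2 a0 y m) z)
    (fun y m z => f 1 (c2 y a0 m) z) (fun i y y' m z => f i.succ.succ (c2 y y' m) z) ⟨n, hn⟩
    (by
      intro S c
      show decide (c ∈ S.1ᶜ) = !decide (c ∈ S.1)
      simp)
    (by positivity)
    (by
      intro e
      have h1 : (univ.filter fun χ : {S : Finset (Fin q) // S.card = n} =>
          (fun c => decide (c ∈ χ.1)) = e).card ≤ 1 := by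
        refine Finset.card_le_one.2 fun a ha b hb => Subtype.ext ?_
        have h2 := (mem_filter.1 ha).2.trans (mem_filter.1 hb).2.symm
        ext c
        simpa using congrFun h2 c
      have h2 := Nat.four_pow_le_two_mul_add_one_mul_central_binom n
      have h3 : 2 ^ q ≤ (q + 1) * q.choose n := by
        rw [hn, ← two_mul, pow_mul]
        exact h2
      rw [hcard, Fintype.card_fin]
      have h4 : ((2 : ℝ)) ^ q ≤ (q + 1) * q.choose n := by exact_mod_cast h3
      have h5 : ((univ.filter fun χ : {S : Finset (Fin q) // S.card = n} =>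
          (fun c => decide (c ∈ χ.1)) = e).card : ℝ) ≤ 1 := by exact_mod_cast h1
      have h6 := mul_le_mul_of_nonneg_right h5 (show (0 : ℝ) ≤ 2 ^ q by positivity)
      linarith)
    hκ hK hν hKν (fun _ _ _ => (hF.bd _ _ _).1) (fun _ _ _ => (hF.bd _ _ _).1)
    (fun _ _ _ _ _ => hF.bd _ _ _)
    (by
      intro i y y' m z a
      rw [← core0_u2, hF.ind])
    (by
      intro i S hS
      have h3 := hF.sg i.succ.succ (S.map ⟨fun x => (c2 0 0 x.1, x.2), fun x y e =>
        Prod.ext (core0_inj (Prod.mk.inj e).1).2.2 (Prod.mk.inj e).2⟩) (by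
          intro x hx
          obtain ⟨y, hy, rfl⟩ := Finset.mem_map.1 hx
          exact hS y hy)
      rw [Finset.card_map] at h3
      refine le_trans (le_of_eq ?_) h3
      refine Finset.expect_congr rfl fun w _ => ?_
      rw [core0_c2, ← core0_ev1 (0 : Fin q)]
      refine Finset.expect_congr rfl fun a _ => ?_
      rw [← core0_ev1 (0 : Fin q)]
      refine Finset.expect_congr rfl fun b _ => Finset.expect_congr rfl fun M _ => ?_
      rw [Finset.prod_map]
      refine Finset.prod_congr rfl fun x _ => ?_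
      exact congrArg (fun t => f i.succ.succ t (w x.2)) (core0_app a b M 0 0 x.1).symm)
    (by
      intro S
      refine le_trans (le_of_eq ?_) (core0_two (hF.sg 0) (c := 0) (d := 0) (c' := 0)
        (d' := ⟨1, hq1⟩) (fun h => h01 h.2) (fun _ => rfl) (fun _ => rfl) S)
      refine Finset.expect_congr rfl fun w _ => ?_
      have h4 : ∀ a b m z, f 0 (c2 a b m) z = f 0 (c2 a0 b m) z := fun a b m z => by
        rw [← core0_u0 a0 b a m, hF.ind]
      simp only [h4 _ _ _ _, Fintype.expect_const]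
      rw [← core0_ev2 h01])
    (by
      intro S
      refine le_trans (le_of_eq ?_) (core0_two (hF.sg 1) (c := 0) (d := 0) (c' := ⟨1, hq1⟩)
        (d' := 0) (fun h => h01 h.1) (fun _ => rfl) (fun _ => rfl) S)
      refine Finset.expect_congr rfl fun w _ => ?_
      have h4 : ∀ a b m z, f 1 (c2 a b m) z = f 1 (c2 a a0 m) z := fun a b m z => by
        rw [← core0_u1 a a0 b m, hF.ind]
      simp only [h4 _ _ _ _, Fintype.expect_const]
      rw [← core0_ev2 h01])
  rw [Fintype.card_fin] at key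
  have key2 := le_of_pow_le_pow_left₀ (pow_ne_zero r hq0) (by positivity) key
  refine le_trans (le_of_eq ?_) key2
  have e : IJ τ (fun (w : Fin q → Ω) c => w c)
      (fun (S : {S : Finset (Fin q) // S.card = n}) c => decide (c ∈ S.1))
      (fun y m z => f 0 (c2 a0 y m) z) (fun y m z => f 1 (c2 y a0 m) z)
      (fun i y y' m z => f i.succ.succ (c2 y y' m) z) =
      ((𝔼 y : Fin (r + 2) → Ω, ‖𝔼 w : Ω, rot τ true (f 0 y w) * rot τ true (f 1 y w) *
        ∏ i : Fin r, ((f i.succ.succ y w : ℝ) : ℂ)‖ ^ q : ℝ) : ℂ) := by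
    unfold IJ
    rw [Finset.expect_comm, ← Fintype.expect_const (ι := {S : Finset (Fin q) // S.card = n})
      (((_ : ℝ)) : ℂ)]
    refine Finset.expect_congr rfl fun S _ => ?_
    rw [Complex.ofReal_expect, core0_c2, Finset.expect_comm]
    refine Finset.expect_congr rfl fun y1 _ => ?_
    rw [Finset.expect_comm]
    refine Finset.expect_congr rfl fun y2 _ => ?_
    rw [Finset.expect_comm]
    refine Finset.expect_congr rfl fun m _ => ?_
    have h0 : ∀ z, f 0 (c2 a0 y2 m) z = f 0 (c2 y1 y2 m) z := fun z => by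
      rw [← core0_u0 y1 y2 a0 m, hF.ind]
    have h1 : ∀ z, f 1 (c2 y1 a0 m) z = f 1 (c2 y1 y2 m) z := fun z => by
      rw [← core0_u1 y1 y2 a0 m, hF.ind]
    simp only [h0, h1]
    rw [core0_prod (fun c z => rot τ (decide (c ∈ S.1)) (f 0 (c2 y1 y2 m) z) *
      rot τ (decide (c ∈ S.1)) (f 1 (c2 y1 y2 m) z) *
        ∏ i : Fin r, ((f i.succ.succ (c2 y1 y2 m) z : ℝ) : ℂ))]
    generalize hD : (𝔼 w : Ω, rot τ true (f 0 (c2 y1 y2 m) w) * rot τ true (f 1 (c2 y1 y2 m) w) *
        ∏ i : Fin r, ((f i.succ.succ (c2 y1 y2 m) w : ℝ) : ℂ)) = D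
    have hD' : (𝔼 w : Ω, rot τ false (f 0 (c2 y1 y2 m) w) * rot τ false (f 1 (c2 y1 y2 m) w) *
        ∏ i : Fin r, ((f i.succ.succ (c2 y1 y2 m) w : ℝ) : ℂ)) = (starRingEnd ℂ) D := by
      rw [← hD, core0_conj]
      simp only [map_mul, map_prod, core0_rot, Complex.conj_ofReal]
    rw [← Finset.prod_mul_prod_compl S.1,
      Finset.prod_congr rfl (g := fun _ => D) (fun c hc => by rw [decide_eq_true hc, hD]),
      Finset.prod_congr rfl (s₁ := S.1ᶜ) (g := fun _ => (starRingEnd ℂ) D)
        (fun c hc => by rw [decide_eq_false (Finset.mem_compl.1 hc), hD']),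
      Finset.prod_const, Finset.prod_const, hcompl _ S.2, S.2, ← mul_pow, Complex.mul_conj,
      Complex.normSq_eq_norm_sq, ← Complex.ofReal_pow, ← pow_mul, hn, two_mul]
  rw [e, Complex.norm_real, Real.norm_of_nonneg (Finset.expect_nonneg fun _ _ => by positivity)]

end

end Vale.Agent.P057L
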