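import Vale.Agent.P057L.Defs

/-! Copies of the new class. -/

set_option linter.all false

open Finset
open scoped BigOperators

namespace Vale.Agent.P057L

noncomputable section

namespace Cpy

/-- the sizes -/
def sz2 (j p q : ℕ) : Fin (j + 1) → ℕ := Fin.cons p fun _ => q

theorem prod_sz (j p q : ℕ) : ∏ i, sz2 j p q i = p * q ^ j := by
  simp [sz2, Fin.prod_univ_succ]

theorem fac {j p q L d : ℕ} (g : ℤ → ℝ) (o : ℤ) (W1 : Pt j q) :
    gridA (fun _ : Fin (j + 1) => rg L) (sz2 j p q)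
      (fun c y => g (o + ∑ i : Fin j, W1 i (c i.succ) + d * ∑ i, y i)) =
    𝔼 w ∈ bp j q L, (𝔼 v ∈ rg L, Gw g (lc W1 d w) (o + d * v)) ^ p := by
  simp only [expect_pow]
  rw [expect_comm, ← expect_product', gridA]
  symm
  refine expect_equiv (Fin.consEquiv fun i : Fin (j + 1) => Fin (sz2 j p q i) → ℤ)
    (fun x => ?_) fun x _ => ?_
  · refine mem_product.trans (Iff.trans ?_ Fintype.mem_piFinset.symm)
    refine Iff.trans ?_ Fin.forall_fin_succ.symm
    exact and_congr Iff.rfl Fintype.mem_piFinset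
  · simp only [Gw]
    rw [← Fintype.prod_prod_type' (fun (a : Fin p) (c : Fin j → Fin q) =>
      g (o + d * x.1 a + ∑ i, lc W1 d x.2 i (c i)))]
    refine Fintype.prod_equiv (Fin.consEquiv fun i : Fin (j + 1) => Fin (sz2 j p q i)) _ _
      fun c => congrArg g ?_
    rw [Fin.sum_univ_succ]
    show o + d * x.1 c.1 + ∑ i, (W1 i (c.2 i) + d * x.2 i (c.2 i)) =
      o + ∑ i, W1 i (c.2 i) + d * (x.1 c.1 + ∑ i, x.2 i (c.2 i))
    rw [sum_add_distrib, ← mul_sum]
    ring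

theorem card_bp (j q L : ℕ) : (bp j q L).card = L ^ (j * q) := by
  simp [bp, bz, rg, Fintype.card_piFinset, ← pow_mul, mul_comm]

end Cpy

open Cpy

theorem cpy (hG : GH) (hM : MONO) : CPY := by
  intro j ε ε0 ε1
  refine ⟨⌈1 / ε⌉₊ + 2, fun Y θ q L d g o W1 Ω hY q1 qY L1 g0 θ0 hΩ hw => ?_⟩
  push_cast at hY
  have c1 := Nat.le_ceil (1 / ε)
  have i0 : 0 < 1 / ε := by positivity
  have Y2 : 2 ≤ Y := by linarith
  set p : ℕ := q + ⌈Y / ε⌉₊ with hp
  have qp : q ≤ p := Nat.le_add_right _ _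
  have p1 : 1 ≤ p := q1.trans qp
  have pl : Y / ε ≤ p := (Nat.le_ceil _).trans (by exact_mod_cast Nat.le_add_left _ _)
  have pu : (p : ℝ) ≤ Y ^ (⌈1 / ε⌉₊ + 2) := by
    have a := (Nat.ceil_lt_add_one (show 0 ≤ Y / ε by positivity)).le
    have b : Y / ε = Y * (1 / ε) := by ring
    have c : (p : ℝ) ≤ Y ^ 2 := by
      rw [hp]
      push_cast
      nlinarith
    exact c.trans (pow_le_pow_right₀ (by linarith) (by omega))
  let F : ((i : Fin (j + 1)) → Fin (sz2 j p q i)) → (Fin (j + 1) → ℤ) → ℝ :=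
    fun c y => g (o + ∑ i : Fin j, W1 i (c i.succ) + d * ∑ i, y i)
  have θ1 : 0 ≤ (1 - ε) * θ := mul_nonneg (by linarith) θ0
  have low : ((1 - ε) * θ) ^ (p * q ^ j) ≤ gridA (fun _ => rg L) (sz2 j p q) F := by
    rw [fac, expect_eq_sum_div_card, card_bp]
    have Lp : (0 : ℝ) < ((L ^ (j * q) : ℕ) : ℝ) := by positivity
    rw [le_div_iff₀ Lp]
    have a1 : (1 - ε) ^ (p * q ^ j) ≤ Real.exp (-Y) := by
      have b1 : (1 - ε) ^ (p * q ^ j) ≤ (1 - ε) ^ p :=
        pow_le_pow_of_le_one (by linarith) (by linarith)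
          (Nat.le_mul_of_pos_right _ (pow_pos q1 _))
      have b2 : (1 - ε) ^ p ≤ Real.exp (-ε) ^ p :=
        pow_le_pow_left₀ (by linarith) (by linarith [Real.add_one_le_exp (-ε)]) _
      rw [← Real.exp_nat_mul] at b2
      refine b1.trans (b2.trans (Real.exp_le_exp.2 ?_))
      rw [div_le_iff₀ ε0] at pl
      linarith
    have a2 : (Ω.card : ℝ) * θ ^ (p * q ^ j) ≤
        ∑ w ∈ Ω, (𝔼 v ∈ rg L, Gw g (lc W1 d w) (o + d * v)) ^ p := by
      rw [← nsmul_eq_mul]
      refine card_nsmul_le_sum _ _ _ fun w h => ?_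
      rw [mul_comm p, pow_mul]
      exact pow_le_pow_left₀ (by positivity) (hw w h) _
    have a3 := sum_le_sum_of_subset_of_nonneg
      (f := fun w => (𝔼 v ∈ rg L, Gw g (lc W1 d w) (o + d * v)) ^ p) hΩ.1 fun w _ _ =>
        pow_nonneg (expect_nonneg fun v _ => prod_nonneg fun c _ => g0 _) _
    refine le_trans ?_ (a2.trans a3)
    rw [mul_pow, mul_right_comm]
    refine mul_le_mul_of_nonneg_right ?_ (by positivity)
    push_cast
    exact (mul_le_mul_of_nonneg_right a1 (by positivity)).trans hΩ.2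
  have hol := hG ℤ (j + 1) (fun _ => rg L) (sz2 j p q) F fun c y => g0 _
  have s1 : ∀ i, 1 ≤ sz2 j p q i ∧ sz2 j p q i ≤ p := fun i => by
    refine Fin.cases ?_ (fun i => ?_) i
    · exact ⟨p1, le_rfl⟩
    · exact ⟨q1, qp⟩
  have ne : (univ : Finset ((i : Fin (j + 1)) → Fin (sz2 j p q i))).Nonempty :=
    ⟨fun i => ⟨0, (s1 i).1⟩, mem_univ _⟩
  obtain ⟨c, -, hc⟩ := exists_max_image univ
    (fun c => gridA (fun _ => rg L) (sz2 j p q) (fun _ => F c)) ne
  have n0 : ∀ c, 0 ≤ gridA (fun _ => rg L) (sz2 j p q) (fun _ => F c) := fun c =>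
    expect_nonneg fun W _ => prod_nonneg fun _ _ => g0 _
  have up : ∏ c, gridA (fun _ => rg L) (sz2 j p q) (fun _ => F c) ≤
      gridA (fun _ => rg L) (sz2 j p q) (fun _ => F c) ^ (∏ i, sz2 j p q i) := by
    refine (prod_le_prod (fun c _ => n0 c) hc).trans (le_of_eq ?_)
    rw [prod_const, card_univ, Fintype.card_pi]
    simp only [Fintype.card_fin]
  have k : gridA (fun _ => rg L) (sz2 j p q) F ≤
      gridA (fun _ => rg L) (sz2 j p q) (fun _ => F c) :=
    le_of_pow_le_pow_left₀ (prod_ne_zero_iff.2 fun i _ => by have := (s1 i).1; omega) (n0 c)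
      (hol.trans up)
  have fin := hM ℤ (j + 1) (fun _ => rg L) (sz2 j p q) (fun _ => p) (F c) ((1 - ε) * θ)
    (fun _ => ⟨0, by simp [rg]; omega⟩) (fun y => g0 _) θ1 s1 (by rw [prod_sz]; exact low.trans k)
  rw [prod_const, card_univ, Fintype.card_fin] at fin
  exact ⟨o + ∑ i : Fin j, W1 i (c i.succ), p, p1, pu, fin⟩

end

end Vale.Agent.P057L
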