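import Vale.Agent.P057L.Defs

/-! The product over the cells has product form along two copies. -/

set_option linter.all false

open Finset
open scoped BigOperators

namespace Vale.Agent.P057L

namespace Gfac

variable {j q : ℕ}

theorem se (i : Fin j) (l : Fin q) (a : ℤ) (c : Fin j → Fin q) :
    ∑ k, e1 i l a k (c k) = if c i = l then a else 0 := by
  rw [sum_eq_single i (fun k _ h => by simp [e1, h]) fun h => absurd (mem_univ i) h]
  simp [e1, Pi.single_apply]

theorem bd {g : ℤ → ℝ} {M : ℝ} (hM : 1 ≤ M) (hg : ∀ x, 0 ≤ g x ∧ g x ≤ M)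
    (S : Finset (Fin j → Fin q)) (f : (Fin j → Fin q) → ℤ) :
    |∏ c ∈ S, g (f c)| ≤ M ^ (q ^ j) := by
  rw [abs_of_nonneg (prod_nonneg fun _ _ => (hg _).1)]
  refine (prod_le_prod (fun _ _ => (hg _).1) fun _ _ => (hg _).2).trans ?_
  rw [prod_const]
  refine pow_le_pow_right₀ hM ((card_le_univ S).trans_eq ?_)
  rw [Fintype.card_fun, Fintype.card_fin, Fintype.card_fin]

end Gfac

open Gfac in
theorem gfac : GFAC := by
  intro j q g M x0 i l l' hM hg W0
  refine ⟨if l' = l then 1 else 0,
    fun t a => ∏ c ∈ univ.filter fun c : Fin j → Fin q => ¬ c i = l',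
      g (x0 + t - (if l' = l then 1 else 0) * a + ∑ k, W0 k (c k) + if c i = l then a else 0),
    fun t b => ∏ c ∈ univ.filter fun c : Fin j → Fin q => c i = l',
      g (x0 + t + ∑ k, W0 k (c k) + b), ?_, fun s a => bd hM hg _ _, fun s b => bd hM hg _ _,
    fun a b s => ?_⟩
  · split_ifs
    · exact Or.inr rfl
    · exact Or.inl rfl
  · beta_reduce
    rw [Gw, ← prod_filter_not_mul_prod_filter univ fun c : Fin j → Fin q => c i = l']
    congr 1
    · refine prod_congr rfl fun c hc => congrArg g ?_
      simp only [Pi.add_apply, sum_add_distrib, se]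
      rw [if_neg (mem_filter.mp hc).2]
      ring
    · refine prod_congr rfl fun c hc => congrArg g ?_
      simp only [Pi.add_apply, sum_add_distrib, se]
      rw [(mem_filter.mp hc).2, if_pos rfl]
      split_ifs <;> ring

end Vale.Agent.P057L
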