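import Vale.Agent.P057L.Defs

/-! The Hoelder inequality for grids. -/

open Finset Function
open scoped BigOperators

namespace Vale.Agent.P057L

namespace Gh

/-- Hoelder's inequality with equal exponents. -/
theorem hold {β : Type} (s : Finset β) {p : ℕ} (hp : p ≠ 0) (a : Fin p → β → ℝ)
    (ha : ∀ l x, 0 ≤ a l x) : (𝔼 x ∈ s, ∏ l, a l x) ^ p ≤ ∏ l, 𝔼 x ∈ s, a l x ^ p := by
  have b0 : ∀ l, 0 ≤ 𝔼 x ∈ s, a l x ^ p := fun l => expect_nonneg fun x _ => pow_nonneg (ha l x) p
  by_cases h : ∃ l, 𝔼 x ∈ s, a l x ^ p = 0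
  · obtain ⟨l, hl⟩ := h
    rw [expect_eq_zero_iff_of_nonneg fun x _ => pow_nonneg (ha l x) p] at hl
    rw [expect_eq_zero fun x hx => prod_eq_zero (mem_univ l) (pow_eq_zero_iff hp |>.1 (hl x hx)),
      zero_pow hp]
    exact prod_nonneg fun l _ => b0 l
  have b1 : ∀ l, 0 < 𝔼 x ∈ s, a l x ^ p := fun l => (b0 l).lt_of_ne' fun k => h ⟨l, k⟩
  obtain ⟨b, hb⟩ : ∃ b : Fin p → ℝ, ∀ l, b l = 𝔼 x ∈ s, a l x ^ p := ⟨_, fun _ => rfl⟩
  simp only [← hb] at b0 b1 ⊢
  have p0 : (0 : ℝ) < p := by positivity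
  have B0 : 0 < ∏ l, b l ^ (p : ℝ)⁻¹ := prod_pos fun l _ => Real.rpow_pos_of_pos (b1 l) _
  have key : ∀ x, ∏ l, a l x ≤ (∏ l, b l ^ (p : ℝ)⁻¹) * ∑ l, (p : ℝ)⁻¹ * (a l x ^ p / b l) := by
    intro x
    have := Real.geom_mean_le_arith_mean_weighted univ (fun _ => (p : ℝ)⁻¹)
      (fun l => a l x ^ p / b l) (fun _ _ => by positivity) (by simp [hp])
      fun l _ => div_nonneg (pow_nonneg (ha l x) p) (b0 l)
    simp only [Real.div_rpow (pow_nonneg (ha _ x) p) (b0 _), Real.pow_rpow_inv_natCast (ha _ x) hp,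
      prod_div_distrib] at this
    rwa [div_le_iff₀' B0] at this
  have k2 : 𝔼 x ∈ s, ∏ l, a l x ≤ ∏ l, b l ^ (p : ℝ)⁻¹ := by
    refine (expect_le_expect fun x _ => key x).trans (le_of_eq ?_)
    rw [← mul_expect, expect_sum_comm]
    simp only [← mul_expect, ← expect_div, ← hb, div_self (b1 _).ne']
    simp [hp]
  refine (pow_le_pow_left₀ (expect_nonneg fun x _ => prod_nonneg fun l _ => ha l x) k2 p).trans
    (le_of_eq ?_)
  rw [← prod_pow]
  exact prod_congr rfl fun l _ => Real.rpow_inv_natCast_pow (b0 l) hp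

theorem resample {ι : Type} [Fintype ι] [DecidableEq ι] {β : ι → Type} (t : ∀ i, Finset (β i))
    (i : ι) (f : (∀ i, β i) → ℝ) : 𝔼 W ∈ Fintype.piFinset t, f W =
      𝔼 W ∈ Fintype.piFinset t, 𝔼 V ∈ t i, f (update W i V) := by
  rcases (t i).eq_empty_or_nonempty with h | h
  · rw [Fintype.piFinset_eq_empty.2 ⟨i, h⟩, expect_empty, expect_empty]
  have m : ∀ x ∈ Fintype.piFinset t ×ˢ t i, (update x.1 i x.2, x.1 i) ∈
      Fintype.piFinset t ×ˢ t i := fun x hx => by
    obtain ⟨h1, h2⟩ := mem_product.1 hx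
    rw [Fintype.mem_piFinset] at h1
    refine mem_product.2 ⟨Fintype.mem_piFinset.2 fun j => ?_, h1 i⟩
    by_cases k : j = i
    · subst k
      simpa using h2
    · simpa [k] using h1 j
  rw [← expect_product' (f := fun W V => f (update W i V)),
    expect_nbij' (g := fun x => f x.1) (fun x => (update x.1 i x.2, x.1 i))
      (fun x => (update x.1 i x.2, x.1 i)) m m (fun x _ => by simp) (fun x _ => by simp)
      fun _ _ => rfl, expect_product' (f := fun W _ => f W)]
  exact expect_congr rfl fun W _ => (expect_const h _).symm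

theorem prod_expect {α : Type} (s : Finset α) {p : ℕ} (a : Fin p → α → ℝ) :
    ∏ l, 𝔼 y ∈ s, a l y = 𝔼 V ∈ Fintype.piFinset (fun _ : Fin p => s), ∏ l, a l (V l) := by
  simp only [expect_eq_sum_div_card, prod_div_distrib, prod_univ_sum, Fintype.card_piFinset_const]
  simp

variable {α : Type} {m : ℕ} {p : Fin m → ℕ}

theorem prod_cells (i : Fin m) (l₀ : Fin (p i)) (h : ((j : Fin m) → Fin (p j)) → ℝ) :
    ∏ c, h c = ∏ l, ∏ c : (j : Fin m) → Fin (p j) with c i = l₀, h (update c i l) := by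
  rw [← prod_fiberwise univ (fun c : (j : Fin m) → Fin (p j) => c i) h]
  refine prod_congr rfl fun l _ => prod_nbij' (fun c => update c i l₀) (fun c => update c i l)
    (fun c _ => by simp) (fun c _ => by simp) (fun c hc => ?_) (fun c hc => ?_) fun c hc => ?_
  · rw [update_idem, ← (mem_filter.1 hc).2, update_eq_self]
  · rw [update_idem, ← (mem_filter.1 hc).2, update_eq_self]
  · rw [update_idem, ← (mem_filter.1 hc).2, update_eq_self]

/-- One class is isolated. -/
theorem split (S : Fin m → Finset α) (i : Fin m) (l₀ : Fin (p i))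
    (F : ((j : Fin m) → Fin (p j)) → (Fin m → α) → ℝ) : gridA S p F =
      𝔼 W ∈ Fintype.piFinset (fun i => Fintype.piFinset fun _ : Fin (p i) => S i), ∏ l,
        𝔼 y ∈ S i, ∏ c : (j : Fin m) → Fin (p j) with c i = l₀,
          F (update c i l) (update (fun j => W j (c j)) i y) := by
  rw [gridA, resample _ i]
  refine expect_congr rfl fun W _ => ?_
  rw [prod_expect]
  refine expect_congr rfl fun V _ => ?_
  rw [prod_cells i l₀]
  refine prod_congr rfl fun l _ => prod_congr rfl fun c _ => congrArg _ (funext fun j => ?_)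
  by_cases k : j = i
  · subst k
    simp
  · simp [k]

theorem grid_nonneg (S : Fin m → Finset α) {F : ((j : Fin m) → Fin (p j)) → (Fin m → α) → ℝ}
    (h : ∀ c y, 0 ≤ F c y) : 0 ≤ gridA S p F :=
  expect_nonneg fun _ _ => prod_nonneg fun _ _ => h _ _

theorem one (S : Fin m → Finset α) (i : Fin m) (hp : p i ≠ 0)
    {F : ((j : Fin m) → Fin (p j)) → (Fin m → α) → ℝ} (h : ∀ c y, 0 ≤ F c y) :
    gridA S p F ^ p i ≤ ∏ l, gridA S p fun c => F (update c i l) := by
  have l₀ : Fin (p i) := ⟨0, Nat.pos_of_ne_zero hp⟩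
  rw [split S i l₀ F]
  refine (hold _ hp _ fun l W => expect_nonneg fun _ _ => prod_nonneg fun _ _ => h _ _).trans
    (le_of_eq (prod_congr rfl fun l _ => ?_))
  rw [split S i l₀]
  simp only [update_idem, prod_const, card_univ, Fintype.card_fin]

end Gh

open Gh in
theorem gh : GH := by
  intro α m S p F hF
  by_cases hp : ∃ i, p i = 0
  · obtain ⟨i, hi⟩ := hp
    have : IsEmpty ((j : Fin m) → Fin (p j)) := ⟨fun c => by
      have := (c i).2
      omega⟩
    rw [prod_eq_zero (mem_univ i) hi, pow_zero, univ_eq_empty, prod_empty]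
  have key : ∀ T : Finset (Fin m), gridA S p F ^ (∏ i, p i) ≤
      ∏ d : (j : Fin m) → Fin (p j), gridA S p fun c => F (T.piecewise d c) := by
    intro T
    induction T using Finset.induction_on with
    | empty => simp
    | insert i T hi ih =>
      have h0 : p i ≠ 0 := fun k => hp ⟨i, k⟩
      refine ih.trans (le_of_pow_le_pow_left₀ h0
        (prod_nonneg fun _ _ => grid_nonneg S fun _ _ => hF _ _) ?_)
      rw [← prod_pow]
      refine (prod_le_prod (fun _ _ => pow_nonneg (grid_nonneg S fun _ _ => hF _ _) _)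
        fun d _ => one S i h0 fun _ _ => hF _ _).trans (le_of_eq ?_)
      have e : ∀ (d c : (j : Fin m) → Fin (p j)) l, T.piecewise d (update c i l) =
          (insert i T).piecewise (update d i l) c := fun d c l => funext fun j => by
        by_cases k : j = i
        · subst k
          simp [hi]
        · by_cases k' : j ∈ T <;> simp [k, k']
      simp only [e]
      rw [prod_cells i ⟨0, Nat.pos_of_ne_zero h0⟩,
        prod_cells i ⟨0, Nat.pos_of_ne_zero h0⟩ fun d => gridA S p fun c =>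
          F ((insert i T).piecewise d c)]
      simp only [update_idem, prod_const, card_univ, Fintype.card_fin]
      rw [prod_comm]
  simpa using key univ

end Vale.Agent.P057L
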