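import Vale.Agent.P057L.HgDefs

/-! The hypergraph step from the tail bound and the subgrid bound. -/

set_option linter.all false

open Finset
open scoped BigOperators

namespace Vale.Agent.P057L

noncomputable section

namespace Hga

variable {Ω : Type} {k : ℕ}

theorem snoc_ind (y : Fin (k + 1) → Ω) (w a : Ω) (i : Fin (k + 1)) :
    (Fin.snoc (Function.update y i a) w : Fin (k + 2) → Ω) ∘ i.castSucc.succAbove =
      (Fin.snoc y w : Fin (k + 2) → Ω) ∘ i.castSucc.succAbove := by
  rw [Fin.snoc_update]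
  exact Function.update_comp_eq_of_forall_ne _ _ fun j => Fin.succAbove_ne _ j

theorem snoc_upd (y : Fin (k + 1) → Ω) (w w₀ : Ω) (i : Fin (k + 1)) :
    (Fin.snoc y w : Fin (k + 2) → Ω) ∘ i.castSucc.succAbove =
      Function.update ((Fin.snoc y w₀ : Fin (k + 2) → Ω) ∘ i.castSucc.succAbove) (Fin.last k) w := by
  rw [← Function.update_comp_eq_of_injective _ Fin.succAbove_right_injective,
    Fin.succAbove_ne_last_last (Fin.castSucc_ne_last i), Fin.update_snoc_last]

theorem snoc_last (y : Fin (k + 1) → Ω) (w : Ω) :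
    (Fin.snoc y w : Fin (k + 2) → Ω) ∘ (Fin.last (k + 1)).succAbove = y := by
  funext j
  simp

theorem exp_snoc [Fintype Ω] (G : (Fin (k + 2) → Ω) → ℝ) :
    𝔼 y : Fin (k + 2) → Ω, G y = 𝔼 y : Fin (k + 1) → Ω, 𝔼 w : Ω, G (Fin.snoc y w) := by
  rw [expect_comm, ← expect_product', univ_product_univ]
  exact (Fintype.expect_equiv (Fin.snocEquiv fun _ : Fin (k + 2) => Ω) _ _ fun x => rfl).symm

end Hga

open Hga

theorem hga (hT : TAIL) (hS : SGG) : HGA := by
  classical
  intro k hk
  obtain ⟨r, rfl⟩ : ∃ r, k = r + 1 := ⟨k - 1, by omega⟩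
  obtain ⟨η, η0, η1, C, hC⟩ := hT r
  refine ⟨η, η0, η1, C, fun X Ω _ _ _ f hX bd mar top lam => ?_⟩
  obtain ⟨q, _, hq, H⟩ := hC X hX
  by_contra hc
  have small : ∀ i, gridA (fun _ => (univ : Finset Ω)) (fun _ => q) (fun _ => f i) ≤
      (1 + η) ^ (q ^ (r + 1 + 1)) := fun i => by
    by_contra h
    exact hc ⟨i, q, Nat.one_le_iff_ne_zero.2 (NeZero.ne q), hq, (not_le.1 h).le⟩
  let F : Fin (r + 2) → (Fin (r + 2) → Ω) → Ω → ℝ := fun i y w =>
    f i.castSucc ((Fin.snoc y w : Fin (r + 3) → Ω) ∘ i.castSucc.succAbove)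
  have fam : Fam q (Real.exp X) (1 + η) F :=
    ⟨fun i y w => bd _ _, fun i y w a => congrArg (f i.castSucc) (snoc_ind y w a i),
      fun i => hS (r + 1) Ω q (1 + η) (f i.castSucc) i (by linarith) (fun y => (bd _ y).1)
        (small _)⟩
  have w₀ : Ω := Classical.arbitrary Ω
  have tail := H Ω F fam fun i y => by
    have := mar i.castSucc (Fin.castSucc_ne_last i)
      ((Fin.snoc y w₀ : Fin (r + 3) → Ω) ∘ i.castSucc.succAbove)
    simp only [← snoc_upd y _ w₀ i] at this
    exact this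
  rw [exp_snoc] at lam
  have e : ∀ y : Fin (r + 2) → Ω, 𝔼 w : Ω, ∏ i : Fin (r + 3),
      f i ((Fin.snoc y w : Fin (r + 3) → Ω) ∘ i.succAbove) =
      mg F univ y * f (Fin.last (r + 2)) y := fun y => by
    rw [mg, expect_mul]
    refine expect_congr rfl fun w _ => ?_
    rw [Fin.prod_univ_castSucc, snoc_last]
  simp only [e] at lam
  have pt : ∀ y : Fin (r + 2) → Ω, 3 / 4 * f (Fin.last (r + 2)) y -
      3 / 4 * Real.exp X * (if mg F univ y < 3 / 4 then 1 else 0) ≤
      mg F univ y * f (Fin.last (r + 2)) y := fun y => by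
    obtain ⟨b0, b1⟩ := bd (Fin.last (r + 2)) y
    split_ifs with h
    · have m0 : 0 ≤ mg F univ y :=
        expect_nonneg fun w _ => prod_nonneg fun i _ => (fam.bd i y w).1
      have := mul_nonneg m0 b0
      linarith
    · have := mul_le_mul_of_nonneg_right (not_lt.1 h) b0
      linarith
  have k1 := (expect_le_expect (s := univ) fun y _ => pt y).trans lam
  rw [expect_sub_distrib, ← mul_expect, ← mul_expect] at k1
  have c0 : (0 : ℝ) < Fintype.card (Fin (r + 2) → Ω) := by exact_mod_cast Fintype.card_pos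
  have k2 : 𝔼 y : Fin (r + 2) → Ω, (if mg F univ y < 3 / 4 then (1 : ℝ) else 0) ≤
      Real.exp (-X) / 10 := by
    rw [expect_eq_sum_div_card, sum_boole, card_univ, div_le_iff₀ c0]
    exact tail
  have k3 : Real.exp X * Real.exp (-X) = 1 := by rw [← Real.exp_add]; simp
  have k4 := mul_le_mul_of_nonneg_left k2 (Real.exp_pos X).le
  nlinarith

end

end Vale.Agent.P057L
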