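import Vale.Agent.P057L.Defs
import Vale.Agent.P057Z.Km.All
import Mathlib.NumberTheory.Bertrand

/-! Row KM1: the almost periodicity step on the integers. -/

set_option linter.all false

open Finset
open scoped BigOperators

namespace Vale.Agent.P057L

open Vale.Agent.P057Z

namespace Km1

/-- an integer as a point of the group -/
def pt (Q : ℕ) (s : ℤ) : V Q 1 := fun _ => (s : ZMod Q)

variable {Q : ℕ} [Fact Q.Prime]

theorem pt_add (s t : ℤ) : pt Q s + pt Q t = pt Q (s + t) := by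
  funext i; simp [pt]

theorem pt_sub (s t : ℤ) : pt Q s - pt Q t = pt Q (s - t) := by
  funext i; simp [pt]

theorem dn_pt (s : ℤ) (h1 : -(Q : ℤ) < s * 2) (h2 : s * 2 ≤ Q) : (pt Q s 0).valMinAbs = s :=
  (ZMod.valMinAbs_spec _ _).2 ⟨rfl, h1, h2⟩

theorem mem_rg {N : ℕ} {x : ℤ} : x ∈ rg N ↔ 0 ≤ x ∧ x < N := mem_Ico

theorem card_rg (N : ℕ) : (rg N).card = N := by simp [rg]

theorem rg_ne {N : ℕ} (h : 1 ≤ N) : (rg N).Nonempty := ⟨0, mem_rg.2 ⟨le_rfl, by exact_mod_cast h⟩⟩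

theorem bx1 {T : ℕ} (hT : 2 * T ≤ Q) (F : V Q 1 → ℝ) :
    𝔼 x ∈ bx Q 1 T, F x = 𝔼 s ∈ rg T, F (pt Q s) := by
  classical
  have h1 : bx Q 1 T = (rg T).image (pt Q) := by
    ext x
    rw [Ke.mem_bx', mem_image]
    constructor
    · rintro ⟨t, ht, rfl⟩
      refine ⟨t 0, mem_rg.2 ⟨by positivity, by exact_mod_cast ht 0⟩, funext fun i => ?_⟩
      rw [Subsingleton.elim i 0]; simp [pt]
    · rintro ⟨s, hs, rfl⟩
      obtain ⟨a, b⟩ := mem_rg.1 hs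
      obtain ⟨n, rfl⟩ := Int.eq_ofNat_of_zero_le a
      exact ⟨fun _ => n, fun _ => by exact_mod_cast b, funext fun i => by simp [pt]⟩
  rw [h1, expect_image]
  intro a ha b hb h
  obtain ⟨a1, a2⟩ := mem_rg.1 (mem_coe.1 ha)
  obtain ⟨b1, b2⟩ := mem_rg.1 (mem_coe.1 hb)
  rw [← dn_pt (Q := Q) a (by omega) (by omega), h, dn_pt b (by omega) (by omega)]

theorem trap (A B : ℕ) (hB : 1 ≤ B) (h : ℤ → ℝ) :
    𝔼 a ∈ rg (A + B), 𝔼 b ∈ rg B, (if (B : ℤ) ≤ a + b ∧ a + b < B + A then h (a + b - B) else 0) =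
      (A : ℝ) / (A + B) * 𝔼 x ∈ rg A, h x := by
  rw [expect_comm]
  have h1 : ∀ b ∈ rg B, 𝔼 a ∈ rg (A + B),
      (if (B : ℤ) ≤ a + b ∧ a + b < B + A then h (a + b - B) else 0) =
      (A : ℝ) / (A + B) * 𝔼 x ∈ rg A, h x := by
    intro b hb
    obtain ⟨b1, b2⟩ := mem_rg.1 hb
    have h2 : ∑ a ∈ rg (A + B), (if (B : ℤ) ≤ a + b ∧ a + b < B + A then h (a + b - B) else 0) =
        ∑ x ∈ rg A, h x := by
      rw [← sum_filter]
      refine sum_nbij' (fun a => a + b - B) (fun x => x + B - b) ?_ ?_ ?_ ?_ fun _ _ => rfl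
      · intro a ha
        have := (mem_filter.1 ha).2
        exact mem_rg.2 (by omega)
      · intro x hx
        have := mem_rg.1 hx
        exact mem_filter.2 ⟨mem_rg.2 (by push_cast; omega), by omega⟩
      · intro a _; ring
      · intro a _; ring
    have h3 := card_mul_expect (rg A) h
    rw [card_rg] at h3
    rw [expect_eq_sum_div_card, h2, card_rg, div_mul_eq_mul_div, h3]
    push_cast
    rfl
  rw [expect_congr rfl h1, expect_const (rg_ne hB)]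

theorem scal (x Λ : ℝ) (hΛ : 0 < Λ) (h : Λ ≤ x) :
    (⌊x / Λ⌋₊ : ℝ) * Λ ≤ x ∧ x ≤ 2 * Λ * ⌊x / Λ⌋₊ := by
  have h1 : 1 ≤ x / Λ := by rw [le_div_iff₀ hΛ]; linarith
  have h2 := Nat.floor_le (show 0 ≤ x / Λ by linarith)
  have h3 := Nat.lt_floor_add_one (x / Λ)
  have h4 : (1 : ℝ) ≤ ⌊x / Λ⌋₊ := by exact_mod_cast Nat.one_le_floor_iff _ |>.2 h1
  rw [le_div_iff₀ hΛ] at h2
  rw [div_lt_iff₀ hΛ] at h3
  exact ⟨h2, by nlinarith⟩

theorem scales (N : ℕ) (Λ : ℝ) (hΛ : 2 ≤ Λ) (hN : (2 * Λ) ^ 3 ≤ N) :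
    ∃ T3 T4 T : ℕ, 1 ≤ T ∧ T * Λ ≤ T4 ∧ T4 * Λ ≤ (T3 + T4 : ℕ) ∧ (T3 + T4 : ℕ) * Λ ≤ N ∧
      N ≤ T * (2 * Λ) ^ 3 ∧ T ≤ T4 ∧ T4 ≤ T3 ∧ 2 * (T3 + T4) ≤ N := by
  have h0 : 0 < Λ := by linarith
  have e2 : (2 * Λ) ^ 3 = 2 * Λ * (2 * Λ * (2 * Λ)) := by ring
  have l1 : Λ ≤ 2 * Λ * (2 * Λ) := by nlinarith
  obtain ⟨a1, a2⟩ := scal N Λ h0 (by nlinarith)
  generalize ⌊(N : ℝ) / Λ⌋₊ = A at a1 a2
  have a3 : 2 * Λ * (2 * Λ) ≤ A := le_of_mul_le_mul_left (by linarith) (show 0 < 2 * Λ by linarith)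
  obtain ⟨b1, b2⟩ := scal A Λ h0 (by linarith)
  generalize ⌊(A : ℝ) / Λ⌋₊ = B at b1 b2
  have b3 : 2 * Λ ≤ B := le_of_mul_le_mul_left (by linarith) (show 0 < 2 * Λ by linarith)
  obtain ⟨c1, c2⟩ := scal B Λ h0 (by linarith)
  generalize ⌊(B : ℝ) / Λ⌋₊ = T at c1 c2
  have c3 : (1 : ℝ) ≤ T := le_of_mul_le_mul_left (by linarith) (show 0 < 2 * Λ by linarith)
  have d1 : (B : ℝ) * 2 ≤ A := by nlinarith
  have d2 : B * 2 ≤ A := by exact_mod_cast d1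
  have d3 : (A : ℝ) * 2 ≤ N := by nlinarith
  have d4 : A * 2 ≤ N := by exact_mod_cast d3
  have d5 : (T : ℝ) ≤ B := by nlinarith
  have e : A - B + B = A := by omega
  refine ⟨A - B, B, T, by exact_mod_cast c3, c1, by rw [e]; exact b1, by rw [e]; exact a1, ?_,
    by exact_mod_cast d5, by omega, by omega⟩
  calc (N : ℝ) ≤ 2 * Λ * A := a2
    _ ≤ 2 * Λ * (2 * Λ * B) := by gcongr
    _ ≤ 2 * Λ * (2 * Λ * (2 * Λ * T)) := by gcongr
    _ = _ := by ring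

theorem num (C : ℕ) (hC : 1 ≤ C) (Y : ℝ) (hY : (((C + 1).factorial + 6 * 2 ^ C + C + 1 : ℕ) : ℝ) ≤ Y) :
    1 ≤ Y ∧ (C : ℝ) ≤ 2 * Y ∧ (2 * Y) ^ C ≤ Real.exp (2 * Y) ∧ 2 * Y ≤ (2 * Y) ^ C ∧
      6 * (2 * Y) ^ C ≤ Y ^ ((C + 1).factorial + 6 * 2 ^ C + C + 1) := by
  have h0 := hY
  push_cast at h0
  have h1 : (0 : ℝ) < (C + 1).factorial := by exact_mod_cast Nat.factorial_pos _
  have h2 : (0 : ℝ) < 2 ^ C := by positivity
  have h3 : (0 : ℝ) ≤ C := Nat.cast_nonneg _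
  have h4 : 1 ≤ Y := by linarith
  refine ⟨h4, by linarith, ?_, le_self_pow₀ (by linarith) (by omega), ?_⟩
  · refine le_trans ?_ (Real.pow_div_factorial_le_exp (2 * Y) (by linarith) (C + 1))
    rw [le_div_iff₀ h1, pow_succ]
    exact mul_le_mul_of_nonneg_left (by linarith) (by positivity)
  · calc 6 * (2 * Y) ^ C = Y ^ C * (6 * 2 ^ C) := by rw [mul_pow]; ring
      _ ≤ Y ^ C * Y := mul_le_mul_of_nonneg_left (by linarith) (by positivity)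
      _ = Y ^ (C + 1) := (pow_succ _ _).symm
      _ ≤ _ := pow_le_pow_right₀ h4 (by omega)

theorem lap0 (ρ : ℝ) (u : Fin 0 → ZMod Q) : lap ρ u = 1 := by simp [lap, l1]

theorem mas0 (L : V Q 1 →ₗ[ZMod Q] (Fin 0 → ZMod Q)) (c : Fin 0 → ZMod Q) (ρ : ℝ) {T : ℕ}
    (hT : 1 ≤ T) : mas L c ρ T = 1 := by
  simp only [mas, lap0]
  exact expect_const (Ke.bx_nonempty hT) _

theorem bet0 (L : V Q 1 →ₗ[ZMod Q] (Fin 0 → ZMod Q)) (c : Fin 0 → ZMod Q) (ρ : ℝ) {T : ℕ}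
    (hT : 1 ≤ T) (x : V Q 1) : bet L c ρ T x = 1 := by
  rw [bet, lap0, mas0 L c ρ hT, div_one]

theorem mix1 {Tlo Thi : ℕ} {δ : ℝ} (hδ : 0 ≤ δ) : Mix (fun _ : V Q 1 => (1 : ℝ)) Tlo Thi δ := by
  intro T1 T2 _ _ _ _ c s _ u v _ _
  simpa using hδ

end Km1

open Km1 in
theorem km1 : KM1 := by
  intro ε hε hε1
  obtain ⟨c, C, hc, hcC, hK⟩ := Km.km ε hε hε1
  refine ⟨(C + 1).factorial + 6 * 2 ^ C + C + 1, fun Y N hY hN => ?_⟩
  obtain ⟨y1, y2, y3, y4, y5⟩ := num C (hc.trans hcC) Y hY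
  generalize Y ^ ((C + 1).factorial + 6 * 2 ^ C + C + 1) = W at hN y5 ⊢
  set X := 2 * Y with hX
  have x1 : 1 ≤ X ^ C := by linarith
  have x2 : X ^ c ≤ X ^ C := pow_le_pow_right₀ (by linarith) hcC
  have x3 : 0 ≤ X ^ c := by positivity
  have hΛ : 2 ≤ Real.exp (X ^ C) := by linarith [Real.add_one_le_exp (X ^ C)]
  have hΛ3 : (2 * Real.exp (X ^ C)) ^ 3 ≤ Real.exp W := by
    calc (2 * Real.exp (X ^ C)) ^ 3 ≤ (Real.exp (X ^ C) * Real.exp (X ^ C)) ^ 3 := by gcongr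
      _ = Real.exp (6 * X ^ C) := by
        rw [← Real.exp_add, ← Real.exp_nat_mul]; congr 1; push_cast; ring
      _ ≤ _ := Real.exp_le_exp.2 y5
  have hN0 : (0 : ℝ) < N := by
    rcases Nat.eq_zero_or_pos N with rfl | h
    · rw [Nat.cast_zero, Real.log_zero] at hN
      linarith
    · exact_mod_cast h
  have hN1 : 1 ≤ N := by exact_mod_cast hN0
  obtain ⟨T3, T4, T, t1, t2, t3, t4, t5, t6, t7, t8⟩ := scales N _ hΛ
    (hΛ3.trans ((Real.le_log_iff_exp_le hN0).1 hN))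
  obtain ⟨Q, hQ, q1, q2⟩ := Nat.exists_prime_lt_and_le_two_mul (4 * N) (by omega)
  haveI : Fact Q.Prime := ⟨hQ⟩
  refine ⟨T3, T, Q, ⌊X ^ c⌋₊, inferInstance, Real.exp (-X ^ c), by omega, ?_, t1, by omega,
    t5.trans (mul_le_mul_of_nonneg_left hΛ3 (Nat.cast_nonneg _)), by omega, by omega,
    (Nat.floor_le x3).trans (by linarith), Real.exp_le_exp.2 (by linarith),
    Real.exp_le_one_iff.2 (by linarith), fun g u v θ hg hu hv hθ h1 h2 h3 => ?_⟩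
  · refine le_trans (mul_le_mul ?_ (Real.exp_le_exp.2 (by linarith)) (Real.exp_nonneg _)
      (Nat.cast_nonneg _)) t4
    exact_mod_cast Nat.le_add_right _ _
  classical
  let w : ℤ → ℝ := fun s => if (T4 : ℤ) ≤ s ∧ s < T4 + T3 then u (s - T4) else 0
  have hw : ∀ s, 0 ≤ w s ∧ w s ≤ 1 := fun s => by
    simp only [w]
    split_ifs
    · exact hu _
    · exact ⟨le_rfl, zero_le_one⟩
  have eX : 1 ≤ Real.exp X := Real.one_le_exp (by linarith)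
  have eY : Real.exp (-X) ≤ Real.exp (-Y) := Real.exp_le_exp.2 (by linarith)
  have e1 : Real.exp (-X) ≤ 1 := Real.exp_le_one_iff.2 (by linarith)
  have b3 : ∀ x, bet (0 : V Q 1 →ₗ[ZMod Q] (Fin 0 → ZMod Q)) 0 (X ^ C) (T3 + T4) x = 1 :=
    bet0 _ _ _ (by omega)
  have b4 : ∀ x, bet (0 : V Q 1 →ₗ[ZMod Q] (Fin 0 → ZMod Q)) 0 1 T4 x = 1 := bet0 _ _ _ (by omega)
  have b2 : ∀ x, bet (0 : V Q 1 →ₗ[ZMod Q] (Fin 0 → ZMod Q)) 0 (X ^ C) N x = 1 := bet0 _ _ _ hN1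
  have r0 : (0 : ℝ) < T3 + T4 := by exact_mod_cast (by omega : 0 < T3 + T4)
  have r1 : (1 : ℝ) / 2 ≤ T3 / (T3 + T4) := by
    have : (T4 : ℝ) ≤ T3 := by exact_mod_cast t7
    rw [le_div_iff₀ r0]; linarith
  have m1 : 𝔼 a1 ∈ bx Q 1 (T3 + T4), 𝔼 a2 ∈ bx Q 1 T4, w ((a1 + a2) 0).valMinAbs =
      (T3 : ℝ) / (T3 + T4) * 𝔼 x ∈ rg T3, u x := by
    rw [← trap T3 T4 (by omega), bx1 (by omega)]
    refine expect_congr rfl fun a ha => ?_
    rw [bx1 (by omega)]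
    refine expect_congr rfl fun b hb => ?_
    have := mem_rg.1 ha
    have := mem_rg.1 hb
    rw [pt_add, dn_pt _ (by omega) (by omega)]
  have m2 : 𝔼 t ∈ bx Q 1 N, v (t 0).valMinAbs = 𝔼 y ∈ rg N, v y := by
    rw [bx1 (by omega)]
    refine expect_congr rfl fun b hb => ?_
    have := mem_rg.1 hb
    rw [dn_pt _ (by omega) (by omega)]
  have m3 : 𝔼 a1 ∈ bx Q 1 (T3 + T4), 𝔼 a2 ∈ bx Q 1 T4, 𝔼 t ∈ bx Q 1 N,
      w ((a1 + a2) 0).valMinAbs * v (t 0).valMinAbs * g (((a1 + a2 + t) 0).valMinAbs - T4) =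
      (T3 : ℝ) / (T3 + T4) * 𝔼 x ∈ rg T3, 𝔼 y ∈ rg N, u x * v y * g (x + y) := by
    rw [← trap T3 T4 (by omega), bx1 (by omega)]
    refine expect_congr rfl fun a ha => ?_
    rw [bx1 (by omega)]
    refine expect_congr rfl fun b hb => ?_
    have := mem_rg.1 ha
    have := mem_rg.1 hb
    rw [pt_add, dn_pt _ (by omega) (by omega), bx1 (by omega)]
    simp only [w]
    split_ifs
    · refine expect_congr rfl fun y hy => ?_
      have := mem_rg.1 hy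
      rw [pt_add, dn_pt _ (by omega) (by omega), dn_pt _ (by omega) (by omega),
        show a + b + y - T4 = a + b - T4 + y by ring]
    · simp
  obtain ⟨ξ, hξ⟩ := hK X X X Q 1 (Fin 0) 0 0 0 0 (X ^ C) (X ^ C) 1 θ N (T3 + T4) T4 T
    (fun _ => 1) (fun _ => 1) (fun _ => 1) (fun x => w (x 0).valMinAbs)
    (fun x => v (x 0).valMinAbs) (fun x => g ((x 0).valMinAbs - T4)) ⟨y2, le_rfl, le_rfl, y3⟩
    (by push_cast; linarith) (by simp; linarith) e1 le_rfl (mul_one _).le (mul_one _).le t1 t2 t3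
    t4 q1.le (by rw [mas0 _ _ _ hN1]; exact e1) (by rw [mas0 _ _ _ (by omega)]; exact e1)
    (by rw [mas0 _ _ _ (by omega)]; exact e1) (fun _ => ⟨zero_le_one, eX⟩)
    (fun _ => ⟨zero_le_one, eX⟩) (fun _ => ⟨zero_le_one, eX⟩) (mix1 (Real.exp_nonneg _))
    (mix1 (Real.exp_nonneg _)) (mix1 (Real.exp_nonneg _))
    (fun x => ⟨(hw _).1, (hw _).2.trans (by rw [mul_one]; exact eX)⟩)
    (fun x => ⟨(hv _).1, (hv _).2.trans (by rw [mul_one]; exact eX)⟩)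
    (fun x => ⟨(hg _).1, (hg _).2.trans (Real.exp_le_exp.2 (by linarith))⟩) (eY.trans hθ)
    (by
      simp only [b3, b4, one_mul]
      rw [m1]
      have a1 : Real.exp (-X) = Real.exp (-Y) * Real.exp (-Y) := by
        rw [← Real.exp_add]; congr 1; rw [hX]; ring
      have a2 : Real.exp (-Y) ≤ 1 / 2 := by
        rw [Real.exp_neg, one_div]
        exact inv_anti₀ (by norm_num) (by linarith [Real.add_one_le_exp Y])
      rw [a1]
      exact mul_le_mul (a2.trans r1) h1 (Real.exp_nonneg _) (by linarith))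
    (by simp only [b2, one_mul]; rw [m2]; exact eY.trans h2)
    (by
      simp only [b2, b3, b4, one_mul, mul_one]
      rw [m1, m2, m3]
      have a1 := mul_le_mul_of_nonneg_left h3 (show (0 : ℝ) ≤ T3 / (T3 + T4) by linarith)
      linarith [a1])
  refine ⟨fun i => ξ i 0, ?_⟩
  rw [expect_comm] at hξ
  rw [bx1 (by omega)] at hξ
  obtain ⟨s, hs, hξ⟩ := exists_le_of_le_expect (rg_ne t1) hξ
  rw [bx1 (by omega), expect_eq_sum_div_card, card_rg, le_div_iff₀ hN0, sum_boole] at hξ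
  have s1 := mem_rg.1 hs
  refine le_trans (mul_le_mul_of_nonneg_right (Real.exp_le_exp.2 (by linarith)) hN0.le)
    (hξ.trans ?_)
  refine Nat.cast_le.2 (card_le_card_of_injOn (fun z => z - s - T4) (fun z hz => ?_)
    fun a _ b _ h => by simpa using h)
  obtain ⟨z1, z2⟩ := mem_filter.1 (mem_coe.1 hz)
  have z3 := mem_rg.1 z1
  refine mem_coe.2 (mem_filter.2 ⟨mem_Icc.2 (by beta_reduce; omega), fun i => -(s : ZMod Q) * ξ i 0, ?_⟩)
  refine (Real.exp_le_exp.2 (by linarith)).trans (z2.trans (le_of_eq ?_))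
  rw [bx1 (by omega), exc]
  refine expect_congr rfl fun t ht => ?_
  have := mem_rg.1 ht
  rw [lap0, mul_one, mul_one, pt_add, pt_sub, pt_sub, dn_pt _ (by omega) (by omega),
    show z + t - s - T4 = z - s - T4 + t by ring]
  congr 2
  funext i
  simp [pt, dotProduct]
  ring

end Vale.Agent.P057L
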