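import Vale.Agent.P057L.Defs

/-! Grids: more copies, localisation of one class, change of the sample space. -/

set_option linter.all false

open Finset
open scoped BigOperators

namespace Vale.Agent.P057L

noncomputable section

namespace MonoA

theorem E_ins {n : ℕ} {γ : Fin (n + 1) → Type} (A : ∀ i, Finset (γ i)) (i : Fin (n + 1))
    (H : (∀ i, γ i) → ℝ) : 𝔼 W ∈ Fintype.piFinset A, H W =
      𝔼 x ∈ A i, 𝔼 V ∈ Fintype.piFinset (fun k => A (i.succAbove k)), H (i.insertNth x V) := by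
  rw [← expect_product' (A i) _ fun x V => H (i.insertNth x V)]
  refine (expect_equiv (Fin.insertNthEquiv γ i) (fun z => ?_) fun z _ => rfl).symm
  rw [mem_product, Fintype.mem_piFinset, Fintype.mem_piFinset, i.forall_iff_succAbove]
  simp [Fin.insertNthEquiv]

theorem E_push {n : ℕ} : ∀ {γ γ' : Fin n → Type} (A : ∀ i, Finset (γ i)) (A' : ∀ i, Finset (γ' i))
    (e : ∀ i, γ i → γ' i), (∀ i (h : γ' i → ℝ), 𝔼 y ∈ A i, h (e i y) = 𝔼 y ∈ A' i, h y) →
    ∀ H : (∀ i, γ' i) → ℝ, 𝔼 W ∈ Fintype.piFinset A, H (fun i => e i (W i)) =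
      𝔼 W ∈ Fintype.piFinset A', H W := by
  induction n with
  | zero =>
    intro γ γ' A A' e _ H
    rw [expect_congr rfl fun W _ => congrArg H (Subsingleton.elim _ default),
      expect_congr (s := Fintype.piFinset A') rfl fun W _ => congrArg H (Subsingleton.elim _ default),
      expect_const (by simp), expect_const (by simp)]
  | succ n ih =>
    intro γ γ' A A' e he H
    rw [E_ins A 0, E_ins A' 0, ← he 0]
    refine expect_congr rfl fun x _ => ?_
    rw [← ih (fun k => A ((0 : Fin (n + 1)).succAbove k)) (fun k => A' _) (fun k => e _)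
      (fun k => he _) fun V => H ((0 : Fin (n + 1)).insertNth (e 0 x) V)]
    refine expect_congr rfl fun V _ => congrArg H (funext fun j => ?_)
    refine (0 : Fin (n + 1)).succAboveCases ?_ (fun k => ?_) j
    · rw [Fin.insertNth_apply_same, Fin.insertNth_apply_same]
    · rw [Fin.insertNth_apply_succAbove, Fin.insertNth_apply_succAbove]

variable {α : Type} {n : ℕ}

/-- the rest of the grid -/
def RR (S : Fin n → Finset α) (p : Fin n → ℕ) : Finset ((k : Fin n) → Fin (p k) → α) :=
  Fintype.piFinset fun k => Fintype.piFinset fun _ : Fin (p k) => S k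

/-- the product over the cells of the rest -/
def hh (F : (Fin (n + 1) → α) → ℝ) (i : Fin (n + 1)) (p : Fin n → ℕ)
    (V : (k : Fin n) → Fin (p k) → α) (y : α) : ℝ :=
  ∏ c : (k : Fin n) → Fin (p k), F (i.insertNth y fun k => V k (c k))

/-- the grid with one class isolated -/
def Ph (F : (Fin (n + 1) → α) → ℝ) (i : Fin (n + 1)) (S : Fin n → Finset α) (p : Fin n → ℕ)
    (T : Finset α) (a : ℕ) : ℝ := 𝔼 V ∈ RR S p, (𝔼 y ∈ T, hh F i p V y) ^ a

theorem iso (S : Fin (n + 1) → Finset α) (p : Fin (n + 1) → ℕ) (F : (Fin (n + 1) → α) → ℝ)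
    (i : Fin (n + 1)) : gridA S p (fun _ => F) =
      Ph F i (fun k => S (i.succAbove k)) (fun k => p (i.succAbove k)) (S i) (p i) := by
  rw [gridA, E_ins _ i, expect_comm, Ph]
  refine expect_congr rfl fun V _ => ?_
  rw [expect_pow]
  refine expect_congr rfl fun x _ => ?_
  rw [← (Fin.insertNthEquiv (fun j => Fin (p j)) i).prod_comp, Fintype.prod_prod_type]
  refine prod_congr rfl fun l _ => prod_congr rfl fun c _ => congrArg F (funext fun j => ?_)
  refine i.succAboveCases ?_ (fun k => ?_) j <;> simp [Fin.insertNthEquiv]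

theorem hh0 {F : (Fin (n + 1) → α) → ℝ} (h : ∀ y, 0 ≤ F y) (i p V y) : 0 ≤ hh F i p V y :=
  prod_nonneg fun _ _ => h _

theorem jen {ι : Type} {s : Finset ι} (hs : s.Nonempty) {z : ι → ℝ} (hz : ∀ i ∈ s, 0 ≤ z i) {r : ℝ}
    (hr : 1 ≤ r) : (𝔼 i ∈ s, z i) ^ r ≤ 𝔼 i ∈ s, z i ^ r := by
  have c0 : (s.card : ℝ) ≠ 0 := Nat.cast_ne_zero.2 hs.card_ne_zero
  have := Real.rpow_arith_mean_le_arith_mean_rpow s (fun _ => (s.card : ℝ)⁻¹) z
    (fun _ _ => by positivity) (by simp [c0]) hz hr
  rwa [← mul_sum, ← mul_sum, inv_mul_eq_div, inv_mul_eq_div, ← expect_eq_sum_div_card,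
    ← expect_eq_sum_div_card] at this

theorem step {m : ℕ} (S : Fin m → Finset α) (p p' : Fin m → ℕ) (F : (Fin m → α) → ℝ) (θ : ℝ)
    (i : Fin m) (hS : ∀ i, (S i).Nonempty) (hF : ∀ y, 0 ≤ F y) (θ0 : 0 ≤ θ) (h1 : 1 ≤ p i)
    (h2 : p i ≤ p' i) (he : ∀ k, k ≠ i → p' k = p k)
    (h : θ ^ (∏ i, p i) ≤ gridA S p (fun _ => F)) :
    θ ^ (∏ i, p' i) ≤ gridA S p' (fun _ => F) := by
  obtain ⟨n, rfl⟩ : ∃ n, m = n + 1 := ⟨m - 1, by have := i.pos; omega⟩
  have e : (fun k => p' (i.succAbove k)) = fun k => p (i.succAbove k) :=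
    funext fun k => he _ (Fin.succAbove_ne i k)
  rw [iso S p F i, Fin.prod_univ_succAbove _ i] at h
  rw [iso S p' F i, Fin.prod_univ_succAbove _ i, e]
  have a0 : (0 : ℝ) < p i := Nat.cast_pos.2 h1
  have r1 : (1 : ℝ) ≤ p' i / p i := (one_le_div a0).2 (Nat.cast_le.2 h2)
  have pw : ∀ (x : ℝ) (k : ℕ), 0 ≤ x → (x ^ (p i * k)) ^ ((p' i : ℝ) / p i) = x ^ (p' i * k) :=
    fun x k x0 => by
      rw [← Real.rpow_natCast, ← Real.rpow_mul x0, ← Real.rpow_natCast]
      congr 1
      push_cast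
      field_simp
  have u0 := fun V => expect_nonneg (s := S i) fun y _ =>
    hh0 hF i (fun k => p (i.succAbove k)) V y
  rw [← pw θ _ θ0]
  refine (Real.rpow_le_rpow (pow_nonneg θ0 _) h (by linarith)).trans
    ((jen ?_ (fun V _ => pow_nonneg (u0 V) _) r1).trans_eq (expect_congr rfl fun V _ => ?_))
  · exact Fintype.piFinset_nonempty.2 fun k => Fintype.piFinset_nonempty.2 fun _ => hS _
  · simpa using pw _ 1 (u0 V)

end MonoA

open MonoA

theorem mono : MONO := by
  classical
  intro α m S p p' F θ hS hF θ0 hp h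
  have tr : ∀ q q' : Fin m → ℕ, q = q' → θ ^ (∏ i, q i) ≤ gridA S q (fun _ => F) →
      θ ^ (∏ i, q' i) ≤ gridA S q' (fun _ => F) := fun q q' e => e ▸ id
  have key : ∀ s : Finset (Fin m), θ ^ (∏ i, if i ∈ s then p' i else p i) ≤
      gridA S (fun i => if i ∈ s then p' i else p i) (fun _ => F) := fun s => by
    induction s using Finset.induction_on with
    | empty => exact tr p _ (by simp) h
    | insert i s hi ih =>
      exact step S _ _ F θ i hS hF θ0 (by simpa [hi] using (hp i).1) (by simpa [hi] using (hp i).2)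
        (fun k hk => by simp [hk]) ih
  exact tr _ p' (by simp) (key univ)

theorem loc : LOC := by
  intro α β m S p F i O P B hF h1 hO B0 h
  obtain ⟨n, rfl⟩ : ∃ n, m = n + 1 := ⟨m - 1, by have := i.pos; omega⟩
  have e : ∀ o, gridA (Function.update S i (P o)) p (fun _ => F) =
      Ph F i (fun k => S (i.succAbove k)) (fun k => p (i.succAbove k)) (P o) (p i) := fun o => by
    rw [iso _ p F i, Function.update_self]
    congr 1
    exact funext fun k => Function.update_of_ne (Fin.succAbove_ne i k) _ _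
  refine exists_le_of_le_expect hO ?_
  simp only [e]
  rw [iso S p F i, ← mul_expect]
  unfold Ph
  rw [expect_comm, mul_expect]
  refine expect_le_expect fun V _ => ?_
  have u0 := fun T : Finset α => expect_nonneg (s := T) fun y _ =>
    hh0 hF i (fun k => p (i.succAbove k)) V y
  refine (pow_le_pow_left₀ (u0 _) (h _ (hh0 hF i _ V)) _).trans ?_
  rw [mul_pow]
  refine mul_le_mul_of_nonneg_left ?_ (pow_nonneg B0 _)
  simpa using jen hO (fun o _ => u0 (P o)) (r := p i) (Nat.one_le_cast.2 h1)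

theorem push : PUSH := by
  intro α β m S S' e p F h
  exact E_push _ _ (fun i (V : Fin (p i) → α) l => e i (V l))
    (fun i H => E_push (fun _ => S i) (fun _ => S' i) (fun _ => e i) (fun _ => h i) H)
    fun W => ∏ c : (i : Fin m) → Fin (p i), F fun i => W i (c i)

end

end Vale.Agent.P057L
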