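import Vale.Agent.P057L.Defs

/-! One common difference for all classes; the start of the iteration. -/

set_option linter.all false

open Finset
open scoped BigOperators

namespace Vale.Agent.P057L

noncomputable section

/-- a window -/
def nrmW (L : ℕ) (e o : ℤ) : Finset ℤ := (rg L).image fun t => o + e * t

theorem nrm_img (L : ℕ) {e : ℤ} (he : e ≠ 0) (o : ℤ) (h : ℤ → ℝ) :
    𝔼 y ∈ rg L, h (o + e * y) = 𝔼 y ∈ nrmW L e o, h y :=
  (expect_image fun a _ b _ k => mul_left_cancel₀ he (add_left_cancel k)).symm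

theorem nrm_card (N : ℕ) : (rg N).card = N := by simp [rg]

theorem nrm_win {M L D : ℕ} {e : ℤ} {B : ℝ} (hL : 1 ≤ L) (hM : 1 ≤ M) (he : e ≠ 0)
    (hD : |e| ≤ D) (hB : (M + D * L : ℝ) ≤ B * M) :
    ∃ O : Finset ℤ, O.Nonempty ∧ ∀ h : ℤ → ℝ, (∀ y, 0 ≤ h y) →
      𝔼 y ∈ rg M, h y ≤ B * 𝔼 o ∈ O, 𝔼 y ∈ nrmW L e o, h y := by
  obtain ⟨lo, hlo⟩ : ∃ lo : ℤ, ∀ y ∈ rg M, ∀ t ∈ rg L,
      y - e * t ∈ Ico lo (lo + (M + D * L : ℕ)) := by
    obtain ⟨d1, d2⟩ := abs_le.1 hD
    rcases le_total 0 e with k | k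
    · refine ⟨-(D * L), fun y hy t ht => ?_⟩
      obtain ⟨y0, y1⟩ := mem_Ico.1 hy
      obtain ⟨t0, t1⟩ := mem_Ico.1 ht
      have a := mul_nonneg k t0
      have b : e * t ≤ D * L := mul_le_mul d2 t1.le t0 (by positivity)
      refine mem_Ico.2 ⟨by linarith, ?_⟩
      push_cast
      linarith
    · refine ⟨0, fun y hy t ht => ?_⟩
      obtain ⟨y0, y1⟩ := mem_Ico.1 hy
      obtain ⟨t0, t1⟩ := mem_Ico.1 ht
      have a := mul_nonneg (neg_nonneg.2 k) t0
      have b : -e * t ≤ D * L := mul_le_mul (by linarith) t1.le t0 (by positivity)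
      refine mem_Ico.2 ⟨by linarith, ?_⟩
      push_cast
      linarith
  have M0 : (0 : ℝ) < M := by exact_mod_cast hM
  have K0 : (0 : ℝ) < M + D * L := by positivity
  have nL : (rg L).Nonempty := card_pos.1 (by rw [nrm_card]; exact hL)
  have cO : (Ico lo (lo + (M + D * L : ℕ))).card = M + D * L := by
    rw [Int.card_Ico, add_sub_cancel_left, Int.toNat_natCast]
  refine ⟨Ico lo (lo + (M + D * L : ℕ)), card_pos.1 (by rw [cO]; omega), fun h h0 => ?_⟩
  simp only [← nrm_img L he]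
  rw [expect_comm, mul_expect]
  refine le_expect nL fun t ht => ?_
  rw [expect_eq_sum_div_card, expect_eq_sum_div_card, cO, nrm_card]
  have s1 : ∑ y ∈ rg M, h y ≤ ∑ o ∈ Ico lo (lo + (M + D * L : ℕ)), h (o + e * t) := by
    refine le_trans (le_of_eq ?_) (sum_le_sum_of_subset_of_nonneg
      (s := (rg M).image fun y => y - e * t) (fun o ho => ?_) fun o _ _ => h0 _)
    · rw [sum_image fun a _ b _ k => sub_left_injective k]
      simp only [sub_add_cancel]
    · obtain ⟨y, hy, rfl⟩ := mem_image.1 ho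
      exact hlo y hy t ht
  have s0 : 0 ≤ ∑ y ∈ rg M, h y := sum_nonneg fun y _ => h0 y
  push_cast
  rw [← mul_div_assoc, div_le_div_iff₀ M0 K0]
  push_cast at s1
  nlinarith [mul_le_mul s1 hB K0.le (s0.trans s1)]

theorem nrm (hL : LOC) (hP : PUSH) : NRM := by
  intro m p L D M c g B p1 L1 D1 hc hg hM
  choose e he using hc
  have D0 : (0 : ℤ) < D := by exact_mod_cast D1
  have e0 : ∀ i, e i ≠ 0 := fun i k => by
    have := he i
    rw [k, mul_zero] at this
    exact D0.ne' this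
  have e1 : ∀ i, |e i| ≤ D := fun i =>
    Int.le_of_dvd D0 ((abs_dvd _ _).2 (Dvd.intro_left _ (he i).symm))
  have key : ∀ T : Finset (Fin m), ∃ o : Fin m → ℤ,
      gridA (fun i => rg (M i)) (fun _ => p) (fun _ y => g (∑ i, c i * y i)) ≤
        B ^ (T.card * p) * gridA (fun i => if i ∈ T then nrmW L (e i) (o i) else rg (M i))
          (fun _ => p) (fun _ y => g (∑ i, c i * y i)) := by
    intro T
    induction T using Finset.induction_on with
    | empty => exact ⟨0, by simp⟩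
    | insert i T hi ih =>
      obtain ⟨o, ho⟩ := ih
      obtain ⟨O, nO, hO⟩ := nrm_win L1 (hM i).1 (e0 i) (e1 i) (hM i).2
      have M0 : (0 : ℝ) < M i := by exact_mod_cast (hM i).1
      have B0 : 0 ≤ B := by
        have : (0 : ℝ) ≤ M i + D * L := by positivity
        exact nonneg_of_mul_nonneg_left (this.trans (hM i).2) M0
      obtain ⟨o', -, h'⟩ := hL ℤ ℤ m (fun i => if i ∈ T then nrmW L (e i) (o i) else rg (M i))
        (fun _ => p) (fun y => g (∑ i, c i * y i)) i O (nrmW L (e i)) B (fun y => hg _) p1 nO B0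
        (by simpa only [if_neg hi] using hO)
      refine ⟨Function.update o i o', ho.trans ?_⟩
      have eq : Function.update (fun i => if i ∈ T then nrmW L (e i) (o i) else rg (M i)) i
          (nrmW L (e i) o') = fun k =>
            if k ∈ insert i T then nrmW L (e k) (Function.update o i o' k) else rg (M k) := by
        funext k
        by_cases hk : k = i
        · subst hk
          rw [Function.update_self, Function.update_self, if_pos (mem_insert_self _ _)]
        · rw [Function.update_of_ne hk, Function.update_of_ne hk]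
          simp only [mem_insert, hk, false_or]
      rw [eq] at h'
      rw [card_insert_of_notMem hi, add_mul, one_mul, pow_add, mul_assoc]
      exact mul_le_mul_of_nonneg_left h' (pow_nonneg B0 _)
  obtain ⟨o, ho⟩ := key univ
  refine ⟨∑ i, c i * o i, ho.trans (le_of_eq ?_)⟩
  simp only [mem_univ, if_true, card_univ, Fintype.card_fin]
  rw [← hP ℤ ℤ m (fun _ => rg L) (fun i => nrmW L (e i) (o i)) (fun i y => o i + e i * y)
    (fun _ => p) (fun y => g (∑ i, c i * y i)) fun i h => nrm_img L (e0 i) (o i) h, grd]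
  refine congrArg (fun F => B ^ (m * p) * gridA (fun _ : Fin m => rg L) (fun _ => p) F) ?_
  funext _ y
  refine congrArg g ?_
  rw [mul_sum, ← sum_add_distrib]
  exact sum_congr rfl fun i _ => by rw [he i]; ring

theorem start (h1 : ST1) (h2 : NRM) : START := by
  intro k hk
  obtain ⟨η, η0, η1, C, hC⟩ := h1 k hk
  obtain ⟨B, B1, hB⟩ : ∃ B : ℝ, 1 < B ∧ B ^ (k + 1) = 1 + η / 3 :=
    ⟨(1 + η / 3) ^ (((k + 1 : ℕ) : ℝ))⁻¹, Real.one_lt_rpow (by linarith) (by positivity),
      Real.rpow_inv_natCast_pow (by linarith) (by omega)⟩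
  obtain ⟨D, hD⟩ : ∃ D : ℕ, D = (k + 1).factorial ^ 2 := ⟨_, rfl⟩
  have D1 : 1 ≤ D := hD ▸ Nat.one_le_pow _ _ (Nat.factorial_pos _)
  have D0 : (0 : ℝ) < D := by exact_mod_cast D1
  obtain ⟨R, hR⟩ : ∃ R : ℝ, R = 2 * D / (B - 1) := ⟨_, rfl⟩
  have R0 : 0 < R := by rw [hR]; exact div_pos (by linarith) (by linarith)
  have Re : R * (B - 1) = 2 * D := by rw [hR]; exact div_mul_cancel₀ _ (by linarith)
  refine ⟨η / 2, by linarith, by linarith, C + ⌈R⌉₊ + 2, fun X α N A hX hN hA hP hα hc => ?_⟩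
  have c0 : (0 : ℝ) ≤ C := by positivity
  have X2 : (C : ℝ) + R + 2 ≤ X := by
    push_cast at hX
    linarith [Nat.le_ceil R]
  have X1 : 1 ≤ X := by linarith
  have xc : 1 ≤ X ^ C := one_le_pow₀ X1
  have x1 : X ^ C + R ≤ X ^ (C + ⌈R⌉₊ + 2) := by
    refine le_trans ?_ (pow_le_pow_right₀ X1 (show C + 1 ≤ _ by omega))
    rw [pow_succ]
    nlinarith
  have x2 : Real.exp (X ^ C) * R ≤ Real.exp (X ^ (C + ⌈R⌉₊ + 2)) := by
    refine le_trans ?_ (Real.exp_le_exp.2 x1)
    rw [Real.exp_add]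
    exact mul_le_mul_of_nonneg_left (by linarith [Real.add_one_le_exp R]) (Real.exp_pos _).le
  have x3 : Real.exp (X ^ C) ≤ Real.exp (X ^ (C + ⌈R⌉₊ + 2)) := Real.exp_le_exp.2 (by linarith)
  rcases hC X α N A (by linarith) (by linarith) hA hP hα hc with
    ⟨x₁, d, L, a, b, c, e⟩ | ⟨x₀, p, M, c, p1, p2, hd, hM, hg⟩
  · exact ⟨x₁, d, L, a, b, c.trans (mul_le_mul_of_nonneg_left x3 (by positivity)),
      Or.inl (by linarith)⟩
  have N0 : (0 : ℝ) < N := by
    rcases Nat.eq_zero_or_pos N with h | h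
    · rw [h, Nat.cast_zero, Real.log_zero] at hN
      linarith
    · exact_mod_cast h
  have E0 := Real.exp_pos (X ^ C)
  have N1 : Real.exp (X ^ C) * R ≤ N := x2.trans ((Real.le_log_iff_exp_le N0).1 hN)
  obtain ⟨y, hy⟩ : ∃ y : ℝ, y = 2 * N / (Real.exp (X ^ C) * R) := ⟨_, rfl⟩
  have ye : y * (Real.exp (X ^ C) * R) = 2 * N := by
    rw [hy]; exact div_mul_cancel₀ _ (by positivity)
  have y2 : 2 ≤ y := by
    rw [hy, le_div_iff₀ (by positivity)]
    linarith
  have l1 : (⌊y⌋₊ : ℝ) ≤ y := Nat.floor_le (by linarith)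
  have l2 : y < ⌊y⌋₊ + 1 := Nat.lt_floor_add_one y
  have l3 : 1 ≤ ⌊y⌋₊ := Nat.le_floor (by push_cast; linarith)
  have α0 : 0 < α := (Real.exp_pos _).trans_le hα
  have i0 : ∀ x, 0 ≤ ind A α x := fun x => by
    unfold ind
    split_ifs
    · positivity
    · exact le_rfl
  obtain ⟨x₁, hx⟩ := h2 (k + 1) p ⌊y⌋₊ D M c (fun z => ind A α (x₀ + z)) B p1 l3 D1
    (fun i => hD ▸ hd i) (fun x => i0 _) (fun i => by
      have a := hM i
      have M0 : (0 : ℝ) < M i := by
        by_contra hn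
        nlinarith [not_lt.1 hn]
      refine ⟨by exact_mod_cast M0, ?_⟩
      have b : y * R ≤ 2 * M i := by
        refine le_of_mul_le_mul_right ?_ E0
        linarith
      have c' : D * y ≤ (B - 1) * M i := by
        have := mul_le_mul_of_nonneg_right b (show 0 ≤ B - 1 by linarith)
        rw [mul_assoc, Re] at this
        linarith
      nlinarith [mul_le_mul_of_nonneg_left l1 D0.le])
  refine ⟨x₀ + x₁, D, ⌊y⌋₊, D1, l3, ?_, Or.inr ⟨p, p1, by linarith, ?_⟩⟩
  · have a : y ≤ 2 * ⌊y⌋₊ := by linarith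
    have b := mul_le_mul_of_nonneg_right a (show 0 ≤ Real.exp (X ^ C) * R by positivity)
    have c' := mul_le_mul_of_nonneg_left x2 (show (0 : ℝ) ≤ ⌊y⌋₊ by positivity)
    linarith
  · simp only [add_assoc]
    have a := hg.trans hx
    have Bp : 0 < B ^ ((k + 1) * p) := by positivity
    refine le_of_mul_le_mul_left (le_trans ?_ a) Bp
    have b : B ^ ((k + 1) * p) ≤ (1 + η / 3) ^ p ^ (k + 1) := by
      rw [pow_mul, hB]
      exact pow_le_pow_right₀ (by linarith) (Nat.le_self_pow (by omega) p)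
    refine (mul_le_mul_of_nonneg_right b (by positivity)).trans ?_
    rw [← mul_pow]
    exact pow_le_pow_left₀ (by positivity) (by nlinarith) _

end

end Vale.Agent.P057L
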