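import Vale.Agent.P057L.HgDefs

/-! Any two slots of any subfamily (row 44). -/

set_option linter.all false

open Finset
open scoped BigOperators

namespace Vale.Agent.P057L

noncomputable section

theorem pair_perm {r : ℕ} {a b : Fin (r + 2)} (h : a ≠ b) :
    ∃ s : Equiv.Perm (Fin (r + 2)), s 0 = a ∧ s 1 = b := by
  have h1 : (0 : Fin (r + 2)) ≠ Equiv.swap 0 a b := by
    intro e
    apply h
    have := congrArg (Equiv.swap 0 a) e
    simpa using this
  refine ⟨(Equiv.swap 1 (Equiv.swap 0 a b)).trans (Equiv.swap 0 a), ?_, ?_⟩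
  · rw [Equiv.trans_apply, Equiv.swap_apply_of_ne_of_ne (Fin.zero_ne_one) h1, Equiv.swap_apply_left]
  · rw [Equiv.trans_apply, Equiv.swap_apply_left, Equiv.swap_apply_self]

theorem pair_cut {Ω : Type} [Fintype Ω] [DecidableEq Ω] [Nonempty Ω] {n q : ℕ} [NeZero q] {K κ : ℝ}
    {f : Fin n → (Fin n → Ω) → Ω → ℝ} (hF : Fam q K κ f) (hκ : 1 ≤ κ) (hK : 1 ≤ K)
    (I : Finset (Fin n)) : Fam q K κ (fun i y w => if i ∈ I then f i y w else 1) := by
  refine ⟨fun i y w => ?_, fun i y w a => ?_, fun i => ?_⟩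
  · split_ifs
    · exact hF.bd _ _ _
    · exact ⟨zero_le_one, hK⟩
  · rw [hF.ind]
  · by_cases hi : i ∈ I
    · simp only [hi, if_true]
      exact hF.sg i
    · intro S _
      simp only [hi, if_false, Finset.prod_const_one, Fintype.expect_const]
      exact one_le_pow₀ hκ

theorem pair_re {Ω : Type} [Fintype Ω] [DecidableEq Ω] {n q : ℕ} [NeZero q] {K κ : ℝ}
    {f : Fin n → (Fin n → Ω) → Ω → ℝ} (hF : Fam q K κ f) (s : Equiv.Perm (Fin n)) :
    Fam q K κ (fun i y w => f (s i) (y ∘ s.symm) w) := by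
  refine ⟨fun i y w => hF.bd _ _ _, fun i y w a => ?_, fun i S hS => ?_⟩
  · rw [Function.update_comp_equiv, Equiv.symm_symm, hF.ind]
  · have h := hF.sg (s i) (S.map ((Equiv.arrowCongr s (Equiv.refl _)).prodCongr
      (Equiv.refl _)).toEmbedding) (by
        intro x hx
        obtain ⟨y, hy, rfl⟩ := Finset.mem_map.1 hx
        simpa using hS y hy)
    rw [Finset.card_map] at h
    refine le_trans (le_of_eq ?_) h
    refine Finset.expect_congr rfl fun w _ => ?_
    refine Fintype.expect_equiv (Equiv.arrowCongr s (Equiv.refl _)) _ _ fun M => ?_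
    rw [Finset.prod_map]
    rfl

theorem pair_prod {r : ℕ} {a b : Fin (r + 2)} {s : Equiv.Perm (Fin (r + 2))} (h0 : s 0 = a)
    (h1 : s 1 = b) (I : Finset (Fin (r + 2))) (F : Fin (r + 2) → ℝ) :
    ∏ i : Fin r, (if s i.succ.succ ∈ I then F (s i.succ.succ) else 1) =
      ∏ j ∈ (I.erase a).erase b, F j := by
  rw [← Fintype.prod_ite_mem ((I.erase a).erase b), ← Equiv.prod_comp s, Fin.prod_univ_succ,
    Fin.prod_univ_succ]
  have e0 : s 0 ∉ (I.erase a).erase b := by simp [h0]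
  have e1 : s (Fin.succ 0) ∉ (I.erase a).erase b := by
    rw [show s (Fin.succ 0) = b from h1]
    simp
  rw [if_neg e0, if_neg e1, one_mul, one_mul]
  refine Finset.prod_congr rfl fun i _ => ?_
  have n0 : s i.succ.succ ≠ a := by
    rw [← h0]
    exact fun e => Fin.succ_ne_zero _ (s.injective e)
  have n1 : s i.succ.succ ≠ b := by
    rw [← h1]
    exact fun e => Fin.succ_ne_zero _ (Fin.succ_injective _ (s.injective e))
  simp [n0, n1]

theorem pair_sq {Ω : Type} [Fintype Ω] (A B P : Ω → ℝ) :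
    ‖𝔼 w, rot (√(1 / 2)) true (A w) * rot (√(1 / 2)) true (B w) * ((P w : ℝ) : ℂ)‖ ^ 2 =
      ((𝔼 w, P w) - (𝔼 w, A w * (B w * P w)) / 2) ^ 2 +
        ((𝔼 w, A w * P w) + 𝔼 w, B w * P w) ^ 2 / 2 := by
  have h : (√(1 / 2) : ℝ) ^ 2 = 1 / 2 := Real.sq_sqrt (by norm_num)
  generalize (√(1 / 2) : ℝ) = τ at h
  have h1 : ∀ w, (rot τ true (A w) * rot τ true (B w) * ((P w : ℝ) : ℂ)).re =
      P w - A w * (B w * P w) / 2 := by
    intro w
    simp [rot, sb]
    linear_combination (-(A w * B w * P w)) * h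
  have h2 : ∀ w, (rot τ true (A w) * rot τ true (B w) * ((P w : ℝ) : ℂ)).im =
      τ * (A w * P w + B w * P w) := by
    intro w
    simp [rot, sb]
    ring
  rw [Complex.sq_norm, Complex.normSq_apply, Complex.re_expect, Complex.im_expect]
  simp only [h1, h2]
  rw [Finset.expect_sub_distrib, ← Finset.expect_div, ← Finset.mul_expect,
    Finset.expect_add_distrib]
  linear_combination ((𝔼 w, A w * P w) + 𝔼 w, B w * P w) ^ 2 * h

theorem pair (hC : CORE0) : PAIR := by
  classical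
  intro r Ω _ _ _ q _ K κ ν η x f I a b hq hκ hK hν hKν hF ha hb hab hη hη1 hx hx1
  obtain ⟨s, h0, h1⟩ := pair_perm hab
  have key := hC r Ω q K κ ν (√(1 / 2)) _ hq hκ hK hν hKν (pair_re (pair_cut hF hκ hK I) s)
  rw [Real.sq_sqrt (by norm_num), show (1 / 2 : ℝ) * κ ^ 2 = κ ^ 2 / 2 by ring] at key
  refine le_trans ?_ key
  have hp : ∀ y w, ∏ i : Fin r, (if s i.succ.succ ∈ I then f (s i.succ.succ) y w else 1) =
      ∏ j ∈ (I.erase a).erase b, f j y w := fun y w => pair_prod h0 h1 I fun j => f j y w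
  simp only [h0, h1, ha, hb, if_true, ← Complex.ofReal_prod, hp]
  refine le_trans ?_ (Fintype.expect_equiv (Equiv.arrowCongr s (Equiv.refl Ω)) _
    (fun y => ‖𝔼 w, rot (√(1 / 2)) true (f a y w) * rot (√(1 / 2)) true (f b y w) *
      ((∏ j ∈ (I.erase a).erase b, f j y w : ℝ) : ℂ)‖ ^ q) (fun y => rfl)).ge
  rw [Fintype.expect_eq_sum_div_card, div_mul_eq_mul_div]
  refine div_le_div_of_nonneg_right ?_ (by positivity)
  rw [← nsmul_eq_mul, ← Finset.sum_const]
  refine le_trans (Finset.sum_le_sum fun y hy => ?_)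
    (Finset.sum_le_sum_of_subset_of_nonneg (Finset.filter_subset _ _) fun _ _ _ => by positivity)
  obtain ⟨m0, m1, m2, m3⟩ := (mem_filter.1 hy).2
  obtain ⟨n, hn⟩ := hq
  have e1 : q / 2 = n := by omega
  rw [e1, hn, ← two_mul, pow_mul]
  refine pow_le_pow_left₀ (by linarith) ?_ _
  rw [pair_sq]
  have hb' : b ∈ I.erase a := Finset.mem_erase.2 ⟨hab.symm, hb⟩
  have ha' : a ∈ I.erase b := Finset.mem_erase.2 ⟨hab, ha⟩
  have p1 : 𝔼 w, f b y w * ∏ j ∈ (I.erase a).erase b, f j y w = mg f (I.erase a) y :=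
    Finset.expect_congr rfl fun w _ => Finset.mul_prod_erase _ (fun j => f j y w) hb'
  have p2 : 𝔼 w, f a y w * ∏ j ∈ (I.erase a).erase b, f j y w = mg f (I.erase b) y :=
    Finset.expect_congr rfl fun w _ => by
      rw [Finset.erase_right_comm]
      exact Finset.mul_prod_erase _ (fun j => f j y w) ha'
  have p3 : 𝔼 w, f a y w * (f b y w * ∏ j ∈ (I.erase a).erase b, f j y w) = mg f I y :=
    Finset.expect_congr rfl fun w _ => by
      rw [Finset.mul_prod_erase _ (fun j => f j y w) hb',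
        Finset.mul_prod_erase _ (fun j => f j y w) ha]
  rw [p1, p2, p3]
  change _ ≤ (mg f ((I.erase a).erase b) y - _) ^ 2 + _
  have q1 : (1 / 2 + x / 2 - η) ^ 2 ≤ (mg f ((I.erase a).erase b) y - mg f I y / 2) ^ 2 :=
    pow_le_pow_left₀ (by linarith) (by linarith) _
  have q2 : (2 - 2 * η) ^ 2 ≤ (mg f (I.erase b) y + mg f (I.erase a) y) ^ 2 :=
    pow_le_pow_left₀ (by linarith) (by linarith) _
  nlinarith [mul_le_mul_of_nonneg_left hx1 hη, sq_nonneg x, sq_nonneg η]

end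

end Vale.Agent.P057L
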