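import Vale.Agent.P057L.Exd
import Mathlib.Combinatorics.Additive.Energy

/-! Many points lie on many parallelograms in all directions. -/

set_option linter.all false

open Finset
open scoped BigOperators Pointwise

namespace Vale.Agent.P057L

noncomputable section

namespace PoorA

open ExdA

variable {j q : ℕ}

theorem pop {α : Type} (s : Finset α) (m : α → ℝ) {M t : ℝ} (t0 : 0 ≤ t) (h : ∀ a ∈ s, m a ≤ M)
    [DecidablePred fun a => t ≤ m a] :
    ∑ a ∈ s, m a ≤ (s.filter fun a => t ≤ m a).card * M + s.card * t := by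
  rw [← sum_filter_add_sum_filter_not s fun a => t ≤ m a]
  refine add_le_add ((sum_le_card_nsmul _ _ _ fun x hx => h x (mem_filter.1 hx).1).trans_eq
    (nsmul_eq_mul _ _)) ((sum_le_card_nsmul _ _ _ fun x hx =>
      (not_le.1 (mem_filter.1 hx).2).le).trans ?_)
  rw [nsmul_eq_mul]
  exact mul_le_mul_of_nonneg_right (Nat.cast_le.2 (card_filter_le _ _)) t0

theorem enr {N : ℕ} {P : Finset (Vz q)} (hP : P ⊆ bz q N) : P.card ^ 4 ≤ (2 * N) ^ q *
    ∑ p ∈ P, ((sz q N ×ˢ sz q N).filter fun z =>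
      p + z.1 ∈ P ∧ p + z.2 ∈ P ∧ p + z.1 + z.2 ∈ P).card := by
  have mb : ∀ p ∈ P, ∀ l, 0 ≤ p l ∧ p l < N := fun p hp l =>
    mem_Ico.1 (Fintype.mem_piFinset.1 (hP hp) l)
  have ms : ∀ p ∈ P, ∀ p' ∈ P, p - p' ∈ sz q N := fun p hp p' hp' =>
    Fintype.mem_piFinset.2 fun l => mem_Ioo.2 (by
      have := mb p hp l
      have := mb p' hp' l
      simp only [Pi.sub_apply]
      omega)
  rw [show P.card ^ 4 = P.card ^ 2 * P.card ^ 2 by ring]
  refine (le_card_add_mul_addEnergy P P).trans (Nat.mul_le_mul ?_ ?_)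
  · refine (card_le_card fun v hv => ?_).trans (bas.1 q (2 * N)).1.le
    obtain ⟨p, hp, p', hp', rfl⟩ := mem_add.1 hv
    exact Fintype.mem_piFinset.2 fun l => mem_Ico.2 (by
      have := mb p hp l
      have := mb p' hp' l
      simp only [Pi.add_apply]
      push_cast
      omega)
  · rw [← card_sigma, addEnergy]
    refine card_le_card_of_injOn (fun x => ⟨x.1.1, (x.1.2 - x.1.1, x.2.2 - x.1.1)⟩) ?_ ?_
    · rintro ⟨⟨a, a'⟩, b, b'⟩ hx
      obtain ⟨h1, e⟩ := mem_filter.1 hx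
      simp only [mem_product] at h1 e
      refine mem_sigma.2 ⟨h1.1.1, mem_filter.2 ⟨mem_product.2 ⟨ms _ h1.1.2 _ h1.1.1,
        ms _ h1.2.2 _ h1.1.1⟩, by simpa using h1.1.2, by simpa using h1.2.2, ?_⟩⟩
      convert h1.2.1 using 1
      simp only
      linear_combination -e
    · rintro ⟨⟨a, a'⟩, b, b'⟩ hx ⟨⟨c, c'⟩, d, d'⟩ hy h
      have e1 := (mem_filter.1 hx).2
      have e2 := (mem_filter.1 hy).2
      simp only [Sigma.mk.injEq, heq_eq_eq, Prod.mk.injEq] at h e1 e2
      obtain ⟨rfl, h2, h3⟩ := h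
      obtain rfl := sub_left_injective h2
      obtain rfl := sub_left_injective h3
      obtain rfl := add_left_cancel (e1.trans e2.symm)
      rfl

open Classical in
/-- the number of parallelograms at `x` -/
def cnt (U : Finset (Pt j q)) (N : ℕ) (i : Fin j) (x : Pt j q) : ℕ :=
  ((sz q N ×ˢ sz q N).filter fun z =>
    x + ev i z.1 ∈ U ∧ x + ev i z.2 ∈ U ∧ x + ev i z.1 + ev i z.2 ∈ U).card

theorem upd' (x : Pt j q) (i : Fin j) (p a : Vz q) :
    Function.update x i (p + a) = Function.update x i p + ev i a := by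
  funext k
  by_cases hk : k = i
  · subst hk
    simp [ev]
  · simp [ev, hk]

open Classical in
theorem poor1 {N : ℕ} (hN : 1 ≤ N) {U : Finset (Pt j q)} (hU : U ⊆ bp j q N) (i : Fin j) {η ε : ℝ}
    (η0 : 0 < η) (ε0 : 0 ≤ ε) (h : 2 ^ q * ε ≤ η ^ 3) :
    ((U.filter fun x => (cnt U N i x : ℝ) < ε * N ^ (2 * q)).card : ℝ) ≤ η * N ^ (j * q) := by
  have N0 : (0 : ℝ) < N := Nat.cast_pos.2 hN
  set Po := U.filter fun x => (cnt U N i x : ℝ) < ε * N ^ (2 * q) with hPo
  let B : Finset (Pt j q) := (bp j q N).image fun W => Function.update W i 0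
  have B0 : ∀ x ∈ B, x i = 0 := fun x hx => by
    obtain ⟨W, -, rfl⟩ := mem_image.1 hx
    simp
  have cB : (B.card : ℝ) * N ^ q ≤ N ^ (j * q) := by
    have := card_fib i B (fun _ => bz q N) (bp j q N) B0 fun x hx y hy => by
      obtain ⟨W, hW, rfl⟩ := mem_image.1 hx
      refine Fintype.mem_piFinset.2 fun k => ?_
      by_cases hk : k = i
      · subst hk
        simpa using hy
      · simpa [hk] using Fintype.mem_piFinset.1 hW k
    rw [sum_const, smul_eq_mul, (bas.1 q N).1, bas.2.1] at this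
    exact_mod_cast this
  let P : Pt j q → Finset (Vz q) := fun x => (bz q N).filter fun y => Function.update x i y ∈ Po
  have h1 : Po.card ≤ ∑ x ∈ B, (P x).card := by
    rw [← card_sigma]
    refine card_le_card_of_injOn (fun W => ⟨Function.update W i 0, W i⟩) (fun W hW => ?_)
      fun W _ W' _ e => ?_
    · have hW' := hU (mem_filter.1 hW).1
      exact mem_sigma.2 ⟨mem_image_of_mem _ hW', mem_filter.2
        ⟨Fintype.mem_piFinset.1 hW' i, by simpa using hW⟩⟩
    · simp only [Sigma.mk.injEq, heq_eq_eq] at e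
      funext k
      by_cases hk : k = i
      · rw [hk]
        exact e.2
      · simpa [hk] using congrFun e.1 k
  have h2 : ∀ x, ((P x).card : ℝ) ≤ η * N ^ q := fun x => by
    have a1 : ((P x).card : ℝ) ^ 4 ≤ (2 * N) ^ q * ∑ p ∈ P x, (((sz q N ×ˢ sz q N).filter fun z =>
        p + z.1 ∈ P x ∧ p + z.2 ∈ P x ∧ p + z.1 + z.2 ∈ P x).card : ℝ) := by
      exact_mod_cast enr (P := P x) (filter_subset _ _)
    have a2 : ∑ p ∈ P x, (((sz q N ×ˢ sz q N).filter fun z =>
        p + z.1 ∈ P x ∧ p + z.2 ∈ P x ∧ p + z.1 + z.2 ∈ P x).card : ℝ) ≤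
        (P x).card * (ε * N ^ (2 * q)) := by
      rw [← nsmul_eq_mul]
      refine sum_le_card_nsmul _ _ _ fun p hp => le_trans (Nat.cast_le.2 (card_le_card ?_))
        (mem_filter.1 (mem_filter.1 hp).2).2.le
      intro z hz
      obtain ⟨z0, z1, z2, z3⟩ := mem_filter.1 hz
      refine mem_filter.2 ⟨z0, ?_⟩
      simp only [← upd']
      exact ⟨(mem_filter.1 (mem_filter.1 z1).2).1, (mem_filter.1 (mem_filter.1 z2).2).1,
        (mem_filter.1 (mem_filter.1 z3).2).1⟩
    by_contra hc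
    have c1 := not_le.1 hc
    have c0 : (0 : ℝ) < (P x).card := lt_trans (by positivity) c1
    have a3 := a1.trans (mul_le_mul_of_nonneg_left a2 (by positivity))
    have a4 : ((P x).card : ℝ) ^ 3 ≤ 2 ^ q * ε * (N ^ q) ^ 3 := by
      refine le_of_mul_le_mul_right ?_ c0
      rw [mul_pow] at a3
      convert a3 using 1 <;> ring
    have a5 := pow_lt_pow_left₀ c1 (by positivity) (show 3 ≠ 0 by norm_num)
    rw [mul_pow] at a5
    linarith [mul_le_mul_of_nonneg_right h (show (0 : ℝ) ≤ (N ^ q) ^ 3 by positivity)]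
  refine (Nat.cast_le.2 h1).trans ?_
  rw [Nat.cast_sum]
  refine (sum_le_card_nsmul _ _ _ fun x _ => h2 x).trans ?_
  rw [nsmul_eq_mul, mul_left_comm]
  exact mul_le_mul_of_nonneg_left cB η0.le

theorem ex1 (a : ℝ) : 2 * Real.exp (-(a + 1)) ≤ Real.exp (-a) := by
  have : Real.exp (-a) = Real.exp 1 * Real.exp (-(a + 1)) := by
    rw [← Real.exp_add]
    ring_nf
  rw [this]
  exact mul_le_mul_of_nonneg_right (by linarith [Real.add_one_le_exp 1]) (Real.exp_pos _).le

theorem ex2 {Y : ℝ} (h : (q : ℝ) ≤ Y) : (2 : ℝ) ^ q ≤ Real.exp Y := by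
  refine (pow_le_pow_left₀ (by norm_num) (show (2 : ℝ) ≤ Real.exp 1 by
    linarith [Real.add_one_le_exp 1]) q).trans ?_
  rw [← Real.exp_nat_mul]
  exact Real.exp_le_exp.2 (by linarith)

end PoorA

open PoorA ExdA

theorem poor (hB : BAS) : POOR := by
  classical
  intro j
  refine ⟨j + 11, fun Y q N Ω hY hq hN hΩ => ?_⟩
  have j0 : (0 : ℝ) ≤ j := Nat.cast_nonneg _
  push_cast at hY
  have N0 : (0 : ℝ) < N := Nat.cast_pos.2 hN
  have yC : 10 * Y + 6 ≤ Y ^ (j + 11) :=
    le_trans (by nlinarith) (pow_le_pow_right₀ (by linarith) (show 2 ≤ j + 11 by omega))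
  have eC : ∀ a : ℝ, a ≤ 10 * Y + 6 → ∀ n : ℕ,
      Real.exp (-Y ^ (j + 11)) * (N : ℝ) ^ n ≤ Real.exp (-a) * (N : ℝ) ^ n := fun a ha n =>
    mul_le_mul_of_nonneg_right (Real.exp_le_exp.2 (by linarith)) (by positivity)
  let U : Vz q → Finset (Pt j q) := fun y => (bp j q N).filter fun x => cn y x ∈ Ω
  let ε := Real.exp (-(7 * Y + 3))
  let G : Pt j q → Finset (Vz q) := fun x =>
    (fb Ω N x).filter fun y => ∀ i, ε * N ^ (2 * q) ≤ (cnt (U y) N i x : ℝ)
  have p1 := fun y i => poor1 hN (U := U y) (filter_subset _ _) i (ε := ε)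
    (Real.exp_pos (-(2 * Y + 1))) (Real.exp_pos _).le (by
      refine (mul_le_mul_of_nonneg_right (ex2 hq) (Real.exp_pos _).le).trans_eq ?_
      rw [← Real.exp_add, ← Real.exp_nat_mul]
      congr 1
      push_cast
      ring)
  have cfb : ∀ x, ((fb Ω N x).card : ℝ) ≤ N ^ q := fun x => by
    exact_mod_cast (card_filter_le _ _).trans (hB.1 q N).1.le
  have cG : ∀ x, ((G x).card : ℝ) ≤ (fb Ω N x).card := fun x => Nat.cast_le.2 (card_filter_le _ _)
  have s1 : (Ω.card : ℝ) ≤ ∑ x ∈ bp j q N, ((G x).card : ℝ) +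
      j * (N ^ q * (Real.exp (-(2 * Y + 1)) * N ^ (j * q))) := by
    have a1 : ∀ x ∈ bp j q N, (fb Ω N x).card ≤ (G x).card + ∑ i, ((bz q N).filter fun y =>
        x ∈ (U y).filter fun x => (cnt (U y) N i x : ℝ) < ε * N ^ (2 * q)).card := fun x hx => by
      refine le_trans (card_le_card fun y hy => ?_) ((card_union_le _ _).trans
        (Nat.add_le_add_left card_biUnion_le _))
      by_cases c : y ∈ G x
      · exact mem_union_left _ c
      · obtain ⟨i, hi⟩ : ∃ i, (cnt (U y) N i x : ℝ) < ε * N ^ (2 * q) := by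
          by_contra hn
          exact c (mem_filter.2 ⟨hy, fun i => not_lt.1 fun h => hn ⟨i, h⟩⟩)
        exact mem_union_right _ (mem_biUnion.2 ⟨i, mem_univ _, mem_filter.2 ⟨(mem_filter.1 hy).1,
          mem_filter.2 ⟨mem_filter.2 ⟨hx, (mem_filter.1 hy).2⟩, hi⟩⟩⟩)
    have a2 : ∀ i, ∑ x ∈ bp j q N, (((bz q N).filter fun y => x ∈ (U y).filter fun x =>
        (cnt (U y) N i x : ℝ) < ε * N ^ (2 * q)).card : ℝ) ≤
        N ^ q * (Real.exp (-(2 * Y + 1)) * N ^ (j * q)) := fun i => by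
      have := sum_card_bipartiteAbove_eq_sum_card_bipartiteBelow (s := bp j q N) (t := bz q N)
        fun x y => x ∈ (U y).filter fun x => (cnt (U y) N i x : ℝ) < ε * N ^ (2 * q)
      unfold bipartiteAbove at this
      rw [← Nat.cast_sum, this, Nat.cast_sum]
      refine (sum_le_card_nsmul _ _ _ fun y _ => le_trans (Nat.cast_le.2 (card_le_card
        fun x hx => (mem_filter.1 hx).2)) (p1 y i)).trans_eq ?_
      rw [nsmul_eq_mul, (hB.1 q N).1, Nat.cast_pow]
    rw [hB.2.2.1 j q N Ω hΩ.1]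
    refine (Nat.cast_le.2 (sum_le_sum a1)).trans ?_
    push_cast
    rw [sum_add_distrib, sum_comm]
    refine add_le_add le_rfl ((sum_le_card_nsmul _ _ _ fun i _ => a2 i).trans_eq ?_)
    simp
  have s2 := pop (bp j q N) (fun x => ((G x).card : ℝ)) (t := Real.exp (-(Y + 2)) * N ^ q)
    (by positivity) fun x _ => (cG x).trans (cfb x)
  refine ⟨(bp j q N).filter fun x => Real.exp (-(Y + 2)) * N ^ q ≤ ((G x).card : ℝ),
    ⟨filter_subset _ _, (eC (Y + 2) (by linarith) _).trans ?_⟩, fun x hx => ?_⟩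
  · have a1 := hΩ.2
    have a2 : j * Real.exp (-(2 * Y + 1)) ≤ Real.exp (-(Y + 1)) := by
      refine (mul_le_mul_of_nonneg_right (show (j : ℝ) ≤ Real.exp Y by
        linarith [Real.add_one_le_exp Y]) (Real.exp_pos _).le).trans_eq ?_
      rw [← Real.exp_add]
      congr 1
      ring
    have a3 := ex1 Y
    have a4 := ex1 (Y + 1)
    rw [show Y + 1 + 1 = Y + 2 by ring] at a4
    rw [hB.2.1, Nat.cast_pow] at s2
    rw [add_mul, one_mul, pow_add] at a1
    have p : (0 : ℝ) ≤ N ^ (j * q) * N ^ q := by positivity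
    refine le_of_mul_le_mul_right ?_ (show 0 < (N : ℝ) ^ q by positivity)
    linarith [mul_le_mul_of_nonneg_right a2 p, mul_le_mul_of_nonneg_right a3 p,
      mul_le_mul_of_nonneg_right a4 p]
  · have hx2 := (mem_filter.1 hx).2
    refine ⟨(eC (Y + 2) (by linarith) _).trans (hx2.trans (cG x)), fun i => ?_⟩
    let m : Vz q × Vz q → ℝ := fun p => ((fb Ω N x ∩ fb Ω N (x + ev i p.1) ∩
      fb Ω N (x + ev i p.2) ∩ fb Ω N (x + ev i p.1 + ev i p.2)).card : ℝ)
    have a1 : (G x).card * (ε * N ^ (2 * q)) ≤ ∑ p ∈ sz q N ×ˢ sz q N, m p := by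
      rw [← nsmul_eq_mul]
      refine (card_nsmul_le_sum (G x) (fun y => (cnt (U y) N i x : ℝ)) _
        fun y hy => (mem_filter.1 hy).2 i).trans ?_
      have := sum_card_bipartiteAbove_eq_sum_card_bipartiteBelow (s := G x)
        (t := sz q N ×ˢ sz q N) fun y z =>
          x + ev i z.1 ∈ U y ∧ x + ev i z.2 ∈ U y ∧ x + ev i z.1 + ev i z.2 ∈ U y
      rw [← Nat.cast_sum, ← Nat.cast_sum, Nat.cast_le]
      refine le_trans (le_of_eq ?_) (this.le.trans (sum_le_sum fun p _ => card_le_card fun y hy => ?_))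
      · refine sum_congr rfl fun y _ => ?_
        unfold cnt bipartiteAbove
        congr
      · obtain ⟨y0, y1, y2, y3⟩ := mem_filter.1 hy
        have y4 := (mem_filter.1 y0).1
        have y5 := (mem_filter.1 y4).1
        exact mem_inter.2 ⟨mem_inter.2 ⟨mem_inter.2 ⟨y4, mem_filter.2 ⟨y5, (mem_filter.1 y1).2⟩⟩,
          mem_filter.2 ⟨y5, (mem_filter.1 y2).2⟩⟩, mem_filter.2 ⟨y5, (mem_filter.1 y3).2⟩⟩
    have a2 := pop (sz q N ×ˢ sz q N) m (t := Real.exp (-Y ^ (j + 11)) * N ^ q) (by positivity)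
      fun p _ => (Nat.cast_le.2 (card_le_card (inter_subset_left.trans
        (inter_subset_left.trans inter_subset_left)))).trans (cfb x)
    have a3 : ((sz q N ×ˢ sz q N).card : ℝ) ≤ Real.exp Y * Real.exp Y * N ^ (2 * q) := by
      have b1 : ((sz q N).card : ℝ) ≤ Real.exp Y * N ^ q := by
        refine le_trans ?_ (mul_le_mul_of_nonneg_right (ex2 hq) (by positivity))
        rw [← mul_pow]
        exact_mod_cast (hB.1 q N).2
      rw [card_product, Nat.cast_mul]
      refine (mul_le_mul b1 b1 (by positivity) (by positivity)).trans_eq ?_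
      ring
    have a4 := mul_le_mul a3 (eC (10 * Y + 6) le_rfl q) (by positivity) (by positivity)
    have a5 := mul_le_mul_of_nonneg_right hx2 (show 0 ≤ ε * N ^ (2 * q) by positivity)
    have e1 : Real.exp (-(Y + 2)) * ε = Real.exp (-(8 * Y + 5)) := by
      rw [← Real.exp_add]
      congr 1
      ring
    have e2 : Real.exp Y * Real.exp Y * Real.exp (-(10 * Y + 6)) = Real.exp (-(8 * Y + 5 + 1)) := by
      rw [← Real.exp_add, ← Real.exp_add]
      congr 1
      ring
    have p : (0 : ℝ) ≤ N ^ (2 * q) * N ^ q := by positivity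
    refine (eC (8 * Y + 5 + 1) (by linarith) _).trans ?_
    refine le_of_mul_le_mul_right ?_ (show 0 < (N : ℝ) ^ q by positivity)
    have f1 := congrArg (· * ((N : ℝ) ^ (2 * q) * N ^ q)) e1
    have f2 := congrArg (· * ((N : ℝ) ^ (2 * q) * N ^ q)) e2
    linarith [mul_le_mul_of_nonneg_right (ex1 (8 * Y + 5)) p]

end

end Vale.Agent.P057L
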