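import Vale.Agent.P057L.HgDefs

/-! The start of the recursion of the hypergraph step (row 41). -/

set_option linter.all false

open Finset
open scoped BigOperators

namespace Vale.Agent.P057L

noncomputable section

theorem rec0_pair (τ a b : ℝ) :
    ∑ e : Bool, rot τ e a * (starRingEnd ℂ) (rot τ e b) = ((2 * (1 + τ ^ 2 * (a * b)) : ℝ) : ℂ) := by
  rw [Fintype.sum_bool]
  simp only [rot, sb, map_add, map_one, map_mul, Complex.conj_I, Complex.conj_ofReal, if_true,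
    Bool.false_eq_true, if_false]
  push_cast
  linear_combination (-2 * (τ : ℂ) ^ 2 * a * b) * Complex.I_mul_I

theorem rec0_conj {Ω : Type} [Fintype Ω] (F : Ω → ℂ) :
    (starRingEnd ℂ) (𝔼 y, F y) = 𝔼 y, (starRingEnd ℂ) (F y) := by
  rw [Fintype.expect_eq_sum_div_card, Fintype.expect_eq_sum_div_card, map_div₀, map_sum]
  simp

theorem rec0_sum {Ω Γ : Type} [Fintype Ω] [Fintype Γ] [DecidableEq Γ] (τ : ℝ) (a : Ω → Γ → ℝ) :
    ∑ e : Γ → Bool, ‖𝔼 y, ∏ c, rot τ (e c) (a y c)‖ ^ 2 =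
      2 ^ Fintype.card Γ * 𝔼 y, 𝔼 y', ∏ c, (1 + τ ^ 2 * (a y c * a y' c)) := by
  have h1 : ∀ e : Γ → Bool, ((‖𝔼 y, ∏ c, rot τ (e c) (a y c)‖ ^ 2 : ℝ) : ℂ) =
      𝔼 y, 𝔼 y', ∏ c, (rot τ (e c) (a y c) * (starRingEnd ℂ) (rot τ (e c) (a y' c))) := by
    intro e
    rw [← Complex.normSq_eq_norm_sq, ← Complex.mul_conj, rec0_conj, Finset.expect_mul_expect]
    simp only [map_prod, Finset.prod_mul_distrib]
  apply Complex.ofReal_injective
  rw [Complex.ofReal_sum]
  simp only [h1]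
  rw [← Finset.expect_sum_comm, Complex.ofReal_mul, Complex.ofReal_expect, Finset.mul_expect]
  refine Finset.expect_congr rfl fun y _ => ?_
  rw [← Finset.expect_sum_comm, Complex.ofReal_expect, Finset.mul_expect]
  refine Finset.expect_congr rfl fun y' _ => ?_
  have h2 := Finset.prod_univ_sum (fun _ : Γ => (univ : Finset Bool))
    (fun c e => rot τ e (a y c) * (starRingEnd ℂ) (rot τ e (a y' c)))
  rw [Fintype.piFinset_univ] at h2
  rw [← h2]
  simp only [rec0_pair]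
  rw [← Complex.ofReal_prod, ← Complex.ofReal_mul, Finset.prod_mul_distrib, Finset.prod_const,
    Finset.card_univ]

theorem rec0_sg {Γ Xt : Type} [Fintype Γ] [DecidableEq Γ] [Fintype Xt] [Nonempty Xt]
    (sg : Xt → Γ → Bool) (B : ℝ)
    (hB : ∀ e : Γ → Bool, ((univ.filter fun χ => sg χ = e).card : ℝ) * 2 ^ Fintype.card Γ ≤
      B * Fintype.card Xt) (h : (Γ → Bool) → ℝ) (h0 : ∀ e, 0 ≤ h e) :
    2 ^ Fintype.card Γ * 𝔼 χ, h (sg χ) ≤ B * ∑ e, h e := by
  have hc : (0 : ℝ) < Fintype.card Xt := by exact_mod_cast Fintype.card_pos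
  rw [Fintype.expect_eq_sum_div_card, ← mul_div_assoc, div_le_iff₀ hc,
    ← Finset.sum_fiberwise (s := univ) (g := sg), Finset.mul_sum, Finset.mul_sum, Finset.sum_mul]
  refine Finset.sum_le_sum fun e _ => ?_
  rw [Finset.sum_congr rfl (g := fun _ => h e) (fun χ hχ => by rw [(mem_filter.1 hχ).2]),
    Finset.sum_const, nsmul_eq_mul]
  have := mul_le_mul_of_nonneg_right (hB e) (h0 e)
  linarith

theorem rec0_one {Ω Γ Wt Xt Z : Type} [Fintype Ω] [DecidableEq Ω] [Fintype Γ] [DecidableEq Γ]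
    [Fintype Wt] [Nonempty Wt] [Fintype Xt] [Nonempty Xt] (q : ℕ) (ew : Wt → Γ → Z)
    (sg : Xt → Γ → Bool) (B κ τ : ℝ) (f : Ω → (Fin 0 → Ω) → Z → ℝ) (hB0 : 0 ≤ B)
    (hB : ∀ e : Γ → Bool, ((univ.filter fun χ => sg χ = e).card : ℝ) * 2 ^ Fintype.card Γ ≤
      B * Fintype.card Xt) (hf : SgR q κ ew f) :
    𝔼 w, 𝔼 χ, ‖𝔼 y, ∏ c, rot τ (sg χ c) (f y default (ew w c))‖ ^ 2 ≤
      B * (1 + τ ^ 2 * κ ^ 2) ^ Fintype.card Γ := by
  have h2 : (0 : ℝ) < 2 ^ Fintype.card Γ := by positivity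
  have h1 : ∀ w, 𝔼 χ, ‖𝔼 y, ∏ c, rot τ (sg χ c) (f y default (ew w c))‖ ^ 2 ≤
      B * ∑ S ∈ (univ : Finset Γ).powerset, (τ ^ 2) ^ S.card *
        𝔼 y, 𝔼 y', ∏ c ∈ S, (f y default (ew w c) * f y' default (ew w c)) := by
    intro w
    have h3 := rec0_sg sg B hB (fun e => ‖𝔼 y, ∏ c, rot τ (e c) (f y default (ew w c))‖ ^ 2)
      (fun e => by positivity)
    rw [rec0_sum τ (fun y c => f y default (ew w c)), mul_left_comm] at h3
    refine (le_of_mul_le_mul_left h3 h2).trans (le_of_eq ?_)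
    congr 1
    simp only [Finset.prod_one_add, Finset.expect_sum_comm, Finset.mul_expect]
    refine Finset.sum_congr rfl fun S _ => Finset.expect_congr rfl fun y _ =>
      Finset.expect_congr rfl fun y' _ => ?_
    rw [Finset.prod_mul_distrib, Finset.prod_const]
  refine (Finset.expect_le_expect fun w _ => h1 w).trans ?_
  rw [← Finset.mul_expect, Finset.expect_sum_comm]
  refine mul_le_mul_of_nonneg_left ?_ hB0
  have h4 : (1 + τ ^ 2 * κ ^ 2) ^ Fintype.card Γ =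
      ∑ S ∈ (univ : Finset Γ).powerset, (τ ^ 2) ^ S.card * κ ^ (2 * S.card) := by
    rw [← Finset.card_univ, ← Finset.prod_const, Finset.prod_one_add]
    refine Finset.sum_congr rfl fun S _ => ?_
    rw [Finset.prod_const, mul_pow, pow_mul]
  rw [h4]
  refine Finset.sum_le_sum fun S _ => ?_
  rw [← Finset.mul_expect]
  refine mul_le_mul_of_nonneg_left ?_ (by positivity)
  have h5 := hf (S.map ⟨fun c => ((default : Fin 0 → Fin q), c), fun a b h => (Prod.mk.inj h).2⟩)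
  rw [Finset.card_map] at h5
  refine le_trans (le_of_eq ?_) h5
  refine Finset.expect_congr rfl fun w _ => Finset.expect_congr rfl fun y _ =>
      Finset.expect_congr rfl fun y' _ => ?_
  rw [← Fintype.expect_const (ι := Fin 0 → Fin q → Ω)
    (∏ c ∈ S, (f y default (ew w c) * f y' default (ew w c)))]
  refine Finset.expect_congr rfl fun M _ => ?_
  rw [Finset.prod_map]
  refine Finset.prod_congr rfl fun c _ => ?_
  rw [Subsingleton.elim (fun j => M j _) (default : Fin 0 → Ω)]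
  rfl

theorem rec0 : REC 0 := by
  intro Ω Γ Wt Xt Z _ _ _ _ _ _ _ _ _ q _ ew sg ng B K κ ν τ f1 f2 g _ _ hB0 hB _ _ _ _ _ _ _ _ _
    h1 h2
  simp only [pow_zero, pow_one, zero_mul, mul_one]
  have a1 := rec0_one q ew sg B κ τ f1 hB0 hB h1
  have a2 := rec0_one q ew sg B κ τ f2 hB0 hB h2
  have e : IJ τ ew sg f1 f2 g = 𝔼 w, 𝔼 χ, (𝔼 y, ∏ c, rot τ (sg χ c) (f2 y default (ew w c))) *
      𝔼 y, ∏ c, rot τ (sg χ c) (f1 y default (ew w c)) := by
    unfold IJ
    refine Finset.expect_congr rfl fun w _ => Finset.expect_congr rfl fun χ _ => ?_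
    rw [Finset.expect_mul_expect]
    refine Finset.expect_congr rfl fun y1 _ => Finset.expect_congr rfl fun y2 _ => ?_
    rw [← Fintype.expect_const (ι := Fin 0 → Ω) (_ * _)]
    refine Finset.expect_congr rfl fun m _ => ?_
    rw [Subsingleton.elim m default, ← Finset.prod_mul_distrib]
    refine Finset.prod_congr rfl fun c _ => ?_
    rw [Fin.prod_univ_zero, mul_one, mul_comm]
  rw [e]
  have b : ∀ w χ, ‖(𝔼 y, ∏ c, rot τ (sg χ c) (f2 y default (ew w c))) *
      𝔼 y, ∏ c, rot τ (sg χ c) (f1 y default (ew w c))‖ ≤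
      (‖𝔼 y, ∏ c, rot τ (sg χ c) (f1 y default (ew w c))‖ ^ 2 +
        ‖𝔼 y, ∏ c, rot τ (sg χ c) (f2 y default (ew w c))‖ ^ 2) / 2 := by
    intro w χ
    rw [norm_mul]
    nlinarith [sq_nonneg (‖𝔼 y, ∏ c, rot τ (sg χ c) (f1 y default (ew w c))‖ -
      ‖𝔼 y, ∏ c, rot τ (sg χ c) (f2 y default (ew w c))‖)]
  refine (RCLike.norm_expect_le (K := ℂ)).trans ?_
  refine (Finset.expect_le_expect fun w _ => (RCLike.norm_expect_le (K := ℂ)).trans
    (Finset.expect_le_expect fun χ _ => b w χ)).trans ?_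
  simp only [← Finset.expect_div, Finset.expect_add_distrib]
  linarith

end

end Vale.Agent.P057L
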