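import Vale.Agent.P057L.HgDefs

/-! The step of the recursion for the averages with signs. -/

open Finset Function
open scoped BigOperators

namespace Vale.Agent.P057L

namespace Rec1

theorem exp_prod {A B M : Type} [Fintype A] [Fintype B] [AddCommMonoid M] [Module ℚ≥0 M]
    (h : A × B → M) : 𝔼 x, h x = 𝔼 a, 𝔼 b, h (a, b) := by
  rw [← univ_product_univ, expect_product]

theorem exp_cons {A M : Type} [Fintype A] [AddCommMonoid M] [Module ℚ≥0 M] {r : ℕ}
    (h : (Fin (r + 1) → A) → M) :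
    𝔼 m, h m = 𝔼 a : A, 𝔼 m : Fin r → A, h (Fin.cons a m) := by
  rw [← exp_prod fun x : A × (Fin r → A) => h (Fin.cons x.1 x.2)]
  exact (Fintype.expect_equiv (Fin.consEquiv fun _ => A) _ h fun _ => rfl).symm

theorem prod_exp {ι A : Type} [Fintype ι] [DecidableEq ι] [Fintype A] (a : ι → A → ℂ) :
    ∏ l, 𝔼 y, a l y = 𝔼 V : ι → A, ∏ l, a l (V l) := by
  simp only [expect_eq_sum_div_card, prod_div_distrib, prod_univ_sum, Fintype.piFinset_univ]
  simp

theorem exp_zero {A : Type} [Fintype A] [Nonempty A] {q : ℕ} [NeZero q] :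
    ∀ {r : ℕ} (h : (Fin r → A) → ℝ), 𝔼 M : Fin r → Fin q → A, h (fun j => M j 0) = 𝔼 m, h m := by
  classical
  have one : ∀ h : A → ℝ, 𝔼 V : Fin q → A, h (V 0) = 𝔼 a, h a := fun h => by
    obtain ⟨n, rfl⟩ := Nat.exists_eq_succ_of_ne_zero (NeZero.ne q)
    rw [exp_cons]
    simp
  intro r
  induction r with
  | zero => exact fun h => by simp [Subsingleton.elim _ (default : Fin 0 → A)]
  | succ r ih =>
    intro h
    rw [exp_cons, exp_cons h, ← one]
    refine expect_congr rfl fun V _ => ?_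
    rw [← ih]
    refine expect_congr rfl fun M _ => congrArg h (funext fun j => ?_)
    induction j using Fin.cases <;> rfl

/-- Hoelder's inequality with a weight. -/
theorem hold {β : Type} [Fintype β] (F A : β → ℝ) (hF : ∀ x, 0 ≤ F x) {q : ℕ} (hq : q ≠ 0)
    (he : Even q) : |𝔼 x, F x * A x| ^ q ≤ (𝔼 x, F x) ^ (q - 1) * 𝔼 x, F x * A x ^ q := by
  have s0 : 0 ≤ ∑ x, F x := sum_nonneg fun x _ => hF x
  rcases s0.eq_or_lt with h | h
  · have := (sum_eq_zero_iff_of_nonneg fun x _ => hF x).1 h.symm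
    simp [this _ (mem_univ _), hq]
  have n0 : (0 : ℝ) < Fintype.card β := by
    rcases isEmpty_or_nonempty β with k | k
    · simp at h
    · exact_mod_cast Fintype.card_pos
  have j := he.convexOn_pow (𝕜 := ℝ).map_sum_le (t := univ) (w := fun x => F x / ∑ x, F x) (p := A)
    (fun x _ => div_nonneg (hF x) s0) (by rw [← sum_div, div_self h.ne']) fun _ _ => trivial
  simp only [smul_eq_mul, div_mul_eq_mul_div, ← sum_div] at j
  obtain ⟨n, rfl⟩ := Nat.exists_eq_succ_of_ne_zero hq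
  rw [div_pow, div_le_div_iff₀ (by positivity) h, pow_succ (∑ x, F x), ← mul_assoc] at j
  simp only [expect_eq_sum_div_card, card_univ, he.pow_abs, Nat.succ_sub_one, div_pow]
  rw [div_mul_div_comm, ← pow_succ, mul_comm]
  exact div_le_div_of_nonneg_right (le_of_mul_le_mul_right j h) (by positivity)

variable {Ω Γ Wt Xt Z : Type} [Fintype Ω] [Fintype Wt] {r q : ℕ}

theorem trans [DecidableEq Γ] (ew : Wt → Γ → Z) (h : Ω → Ω → (Fin (r + 1) → Ω) → Z → ℝ)
    (S : Finset ((Fin r → Fin q) × Γ × Fin q)) : ∃ S' : Finset ((Fin (r + 1) → Fin q) × Γ),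
      S'.card = S.card ∧ (∀ x ∈ S', ∃ x' ∈ S, ∀ i, x.1 (Fin.succ i) = x'.1 i) ∧
      𝔼 w : Wt × (Fin q → Ω), 𝔼 y : Ω, 𝔼 y' : Ω, 𝔼 M : Fin r → Fin q → Ω,
        ∏ x ∈ S, h y y' (Fin.cons (w.2 x.2.2) fun j => M j (x.1 j)) (ew w.1 x.2.1) =
      𝔼 w : Wt, 𝔼 y : Ω, 𝔼 y' : Ω, 𝔼 M : Fin (r + 1) → Fin q → Ω,
        ∏ x ∈ S', h y y' (fun j => M j (x.1 j)) (ew w x.2) := by
  have inj : Injective fun x : (Fin r → Fin q) × Γ × Fin q =>
      ((Fin.cons x.2.2 x.1 : Fin (r + 1) → Fin q), x.2.1) := fun x x' e => by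
    obtain ⟨e1, e2⟩ := Prod.mk.inj e
    obtain ⟨e3, e4⟩ := Fin.cons_inj.1 e1
    exact Prod.ext e4 (Prod.ext e2 e3)
  refine ⟨S.image _, card_image_of_injective S inj, fun x hx => ?_, ?_⟩
  · obtain ⟨x', h1, rfl⟩ := mem_image.1 hx
    exact ⟨x', h1, fun _ => rfl⟩
  rw [exp_prod]
  refine expect_congr rfl fun w _ => ?_
  rw [expect_comm]
  refine expect_congr rfl fun y _ => ?_
  rw [expect_comm]
  refine expect_congr rfl fun y' _ => ?_
  rw [exp_cons]
  refine expect_congr rfl fun a _ => expect_congr rfl fun M _ => ?_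
  rw [prod_image inj.injOn]
  refine prod_congr rfl fun x _ => congrArg (h y y' · _) (funext fun j => ?_)
  induction j using Fin.cases <;> rfl

theorem conj_rot (τ : ℝ) (b : Bool) (x : ℝ) : (starRingEnd ℂ) (rot τ b x) = rot τ (!b) x := by
  cases b <;> simp [rot, sb]

theorem count [Fintype Γ] [DecidableEq Γ] [Fintype Xt] (sg : Xt → Γ → Bool) {B : ℝ}
    (h : ∀ e : Γ → Bool, ((univ.filter fun χ => sg χ = e).card : ℝ) * 2 ^ Fintype.card Γ ≤
      B * Fintype.card Xt) (e : Γ × Fin q → Bool) :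
    ((univ.filter fun χ : Fin q → Xt => (fun c : Γ × Fin q => sg (χ c.2) c.1) = e).card : ℝ) *
      2 ^ Fintype.card (Γ × Fin q) ≤ B ^ q * Fintype.card (Fin q → Xt) := by
  have e1 : (univ.filter fun χ : Fin q → Xt => (fun c : Γ × Fin q => sg (χ c.2) c.1) = e) =
      Fintype.piFinset fun l => univ.filter fun χ => sg χ = fun c => e (c, l) := by
    ext χ
    simp only [mem_filter, mem_univ, true_and, Fintype.mem_piFinset, funext_iff, Prod.forall]
    exact forall_comm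
  have := prod_le_prod (s := univ) (fun (l : Fin q) _ => by positivity)
    fun l _ => h fun c => e (c, l)
  rw [e1, Fintype.card_piFinset, Fintype.card_prod, Fintype.card_fin, pow_mul]
  simpa [prod_mul_distrib, mul_pow] using this

end Rec1

open Rec1 in
theorem rec1 (r : ℕ) (ih : REC r) : REC (r + 1) := by
  intro Ω Γ Wt Xt Z _ _ _ _ _ _ _ _ _ q _ ew sg ng B K κ ν τ f1 f2 g hq hng hB hc hκ hK hν hκν
    p1 p2 hg gi sP s1 s2
  have q0 := NeZero.ne q
  obtain ⟨a₀⟩ : Nonempty Ω := inferInstance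
  have main := ih Ω (Γ × Fin q) (Wt × (Fin q → Ω)) (Fin q → Xt) (Ω × Z) q
    (fun w c => (w.2 c.2, ew w.1 c.1)) (fun χ c => sg (χ c.2) c.1) (Equiv.piCongrRight fun _ => ng)
    (B ^ q) K κ ν τ (fun y m z => f1 y (Fin.cons z.1 m) z.2) (fun y m z => f2 y (Fin.cons z.1 m) z.2)
    (fun i y y' m z => g i.succ y y' (Fin.cons z.1 m) z.2) hq (fun χ c => hng _ _) (by positivity)
    (count sg hc) hκ hK hν hκν (fun _ _ _ => p1 _ _ _) (fun _ _ _ => p2 _ _ _)
    (fun _ _ _ _ _ => hg _ _ _ _ _) (fun i y y' m z a => by rw [Fin.cons_update, gi])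
    (fun i S hS => by
      obtain ⟨S', e1, e2, e3⟩ := trans ew (g i.succ) S
      refine (e3.trans_le (sP _ S' fun x hx => ?_)).trans (e1 ▸ le_rfl)
      obtain ⟨x', h1, h2⟩ := e2 x hx
      rw [h2, hS x' h1])
    (fun S => by
      obtain ⟨S', e1, -, e3⟩ := trans ew (fun y y' m z => f1 y m z * f1 y' m z) S
      exact (e3.trans_le (s1 S')).trans (e1 ▸ le_rfl))
    (fun S => by
      obtain ⟨S', e1, -, e3⟩ := trans ew (fun y y' m z => f2 y m z * f2 y' m z) S
      exact (e3.trans_le (s2 S')).trans (e1 ▸ le_rfl))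
  obtain ⟨P, hP⟩ : ∃ P : Wt × Ω × Ω × (Fin r → Ω) → Xt → Ω → ℂ, ∀ x χ a, P x χ a =
      ∏ c : Γ, (rot τ (sg χ c) (f1 x.2.2.1 (Fin.cons a x.2.2.2) (ew x.1 c)) *
        rot τ (sg χ c) (f2 x.2.1 (Fin.cons a x.2.2.2) (ew x.1 c)) *
        ∏ i : Fin r, ((g i.succ x.2.1 x.2.2.1 (Fin.cons a x.2.2.2) (ew x.1 c) : ℝ) : ℂ)) :=
    ⟨_, fun _ _ _ => rfl⟩
  obtain ⟨F, hF⟩ : ∃ F : Wt × Ω × Ω × (Fin r → Ω) → ℝ, ∀ x a, F x =
      ∏ c : Γ, g 0 x.2.1 x.2.2.1 (Fin.cons a x.2.2.2) (ew x.1 c) :=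
    ⟨fun x => ∏ c : Γ, g 0 x.2.1 x.2.2.1 (Fin.cons a₀ x.2.2.2) (ew x.1 c), fun x a =>
      prod_congr rfl fun c _ => by rw [← gi 0 _ _ _ _ a, Fin.update_cons_zero]⟩
  obtain ⟨A, hA⟩ : ∃ A : Wt × Ω × Ω × (Fin r → Ω) → ℝ, ∀ x, (A x : ℂ) = 𝔼 χ, 𝔼 a, P x χ a := by
    refine ⟨fun x => (𝔼 χ, 𝔼 a, P x χ a).re, fun x => Complex.conj_eq_iff_re.1 ?_⟩
    rw [map_expect]
    refine Fintype.expect_equiv ng _ _ fun χ => ?_
    rw [map_expect]
    refine expect_congr rfl fun a _ => ?_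
    simp only [hP, map_prod, map_mul, conj_rot, hng, Complex.conj_ofReal]
  have e1 : IJ τ ew sg f1 f2 g = ((𝔼 x, F x * A x : ℝ) : ℂ) := by
    rw [Complex.ofReal_expect, IJ, exp_prod]
    refine expect_congr rfl fun w _ => ?_
    rw [expect_comm, exp_prod]
    refine expect_congr rfl fun y _ => ?_
    rw [expect_comm, exp_prod]
    refine expect_congr rfl fun y' _ => ?_
    simp only [Complex.ofReal_mul, hA, mul_expect]
    symm
    rw [expect_comm]
    refine expect_congr rfl fun χ _ => ?_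
    rw [expect_comm, exp_cons]
    refine expect_congr rfl fun a _ => expect_congr rfl fun m _ => ?_
    rw [hF _ a, hP, Complex.ofReal_prod, ← prod_mul_distrib]
    refine prod_congr rfl fun c _ => ?_
    rw [Fin.prod_univ_succ]
    ring
  have e2 : ((𝔼 x, A x ^ q : ℝ) : ℂ) = IJ τ (fun (w : Wt × (Fin q → Ω)) (c : Γ × Fin q) =>
      (w.2 c.2, ew w.1 c.1)) (fun (χ : Fin q → Xt) c => sg (χ c.2) c.1)
      (fun y m z => f1 y (Fin.cons z.1 m) z.2) (fun y m z => f2 y (Fin.cons z.1 m) z.2)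
      (fun i y y' m z => g i.succ y y' (Fin.cons z.1 m) z.2) := by
    rw [Complex.ofReal_expect, IJ, exp_prod, exp_prod]
    refine expect_congr rfl fun w _ => ?_
    have e : ∀ x, ((A x ^ q : ℝ) : ℂ) =
        𝔼 a : Fin q → Ω, 𝔼 χ : Fin q → Xt, ∏ l, P x (χ l) (a l) := fun x => by
      rw [Complex.ofReal_pow, hA, expect_pow, Fintype.piFinset_univ, expect_comm]
      exact expect_congr rfl fun χ _ => prod_exp _
    simp only [e]
    rw [expect_comm]
    refine expect_congr rfl fun a _ => ?_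
    rw [expect_comm]
    refine expect_congr rfl fun χ _ => ?_
    rw [exp_prod]
    refine expect_congr rfl fun y _ => ?_
    rw [exp_prod]
    refine expect_congr rfl fun y' _ => expect_congr rfl fun m _ => ?_
    simp only [hP]
    rw [Fintype.prod_prod_type_right]
  have F0 : ∀ x, 0 ≤ F x ∧ F x ≤ K ^ Fintype.card Γ := fun x => by
    rw [hF x a₀, ← card_univ, ← prod_const]
    exact ⟨prod_nonneg fun _ _ => (hg _ _ _ _ _).1,
      prod_le_prod (fun _ _ => (hg _ _ _ _ _).1) fun _ _ => (hg _ _ _ _ _).2⟩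
  have e3 : 𝔼 x, F x ≤ κ ^ Fintype.card Γ := by
    have inj : Injective fun c : Γ => ((fun _ => 0 : Fin (r + 1) → Fin q), c) :=
      fun _ _ e => (Prod.mk.inj e).2
    have := sP 0 (univ.image fun c : Γ => (fun _ => 0, c)) fun x hx => by
      obtain ⟨c, -, rfl⟩ := mem_image.1 hx
      rfl
    rw [card_image_of_injective _ inj, card_univ] at this
    refine le_trans (le_of_eq ?_) this
    rw [exp_prod]
    refine expect_congr rfl fun w _ => ?_
    rw [exp_prod]
    refine expect_congr rfl fun y _ => ?_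
    rw [exp_prod]
    refine expect_congr rfl fun y' _ => ?_
    simp only [prod_image inj.injOn]
    rw [exp_zero fun m => ∏ c, g 0 y y' m (ew w c), exp_cons]
    simp only [← hF (w, y, y', _)]
    exact (Fintype.expect_const (ι := Ω) _).symm
  have A0 : ∀ x, 0 ≤ A x ^ q := fun x => hq.pow_nonneg _
  have e4 : 𝔼 x, F x * A x ^ q ≤ K ^ Fintype.card Γ * 𝔼 x, A x ^ q := by
    rw [mul_expect]
    exact expect_le_expect fun x _ => mul_le_mul_of_nonneg_right (F0 x).2 (A0 x)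
  have A1 : 0 ≤ 𝔼 x, A x ^ q := expect_nonneg fun x _ => A0 x
  have e5 : |𝔼 x, F x * A x| ^ q ≤ ν ^ (q * Fintype.card Γ) * 𝔼 x, A x ^ q := by
    refine (hold F A (fun x => (F0 x).1) q0 hq).trans ((mul_le_mul (pow_le_pow_left₀
      (expect_nonneg fun x _ => (F0 x).1) e3 _) e4
      (expect_nonneg fun x _ => mul_nonneg (F0 x).1 (A0 x)) (by positivity)).trans ?_)
    rw [← mul_assoc, pow_right_comm, ← mul_pow, pow_mul]
    refine mul_le_mul_of_nonneg_right (pow_le_pow_left₀ (by positivity) (le_trans ?_ hκν) _) A1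
    exact mul_le_mul_of_nonneg_right (pow_le_pow_right₀ hκ (Nat.sub_le _ _)) (by positivity)
  rw [← e2, Complex.norm_real, Real.norm_of_nonneg A1] at main
  rw [e1, Complex.norm_real, Real.norm_eq_abs, pow_succ', pow_mul, pow_mul]
  refine (pow_le_pow_left₀ (by positivity) e5 _).trans ?_
  rw [mul_pow]
  refine (mul_le_mul_of_nonneg_left main (by positivity)).trans (le_of_eq ?_)
  rw [← mul_pow, Fintype.card_prod, Fintype.card_fin]
  congr 1
  ring

end Vale.Agent.P057L
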