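import Vale.Agent.P057L.Mono
import Vale.Agent.P057L.Num

/-! Sifting and almost periodicity for grids. -/

set_option linter.all false

open Finset
open scoped BigOperators

namespace Vale.Agent.P057L

open Vale.Agent.P057Z

noncomputable section

namespace S1A

variable {j q : ℕ}

theorem Gw_cons (g : ℤ → ℝ) (y : Vz q) (W : Pt j q) (s : ℤ) :
    Gw g (Fin.cons y W : Pt (j + 1) q) s = ∏ a, Gw g W (s + y a) := by
  unfold Gw
  rw [← (Fin.consEquiv fun _ : Fin (j + 1) => Fin q).prod_comp, Fintype.prod_prod_type]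
  refine prod_congr rfl fun a _ => prod_congr rfl fun c _ => ?_
  rw [Fin.sum_univ_succ, add_assoc]
  rfl

theorem E_cons (A : Fin (j + 1) → Finset (Vz q)) (H : Pt (j + 1) q → ℝ) :
    𝔼 W ∈ Fintype.piFinset A, H W =
      𝔼 y ∈ A 0, 𝔼 W ∈ Fintype.piFinset (fun i : Fin j => A i.succ), H (Fin.cons y W) := by
  rw [MonoA.E_ins A 0]
  simp only [Fin.insertNth_zero', Fin.zero_succAbove]

theorem split (N : ℕ) (P : Finset ℤ) (g : ℤ → ℝ) :
    gridA (Function.update (fun _ : Fin (j + 2) => rg N) 0 P) (fun _ => q)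
      (fun _ y => g (∑ i, y i)) = 𝔼 W ∈ bp j q N, 𝔼 x ∈ Fintype.piFinset (fun _ : Fin q => P),
        𝔼 y ∈ Fintype.piFinset (fun _ : Fin q => rg N), ∏ a, ∏ b, Gw g W (x a + y b) := by
  have h : gridA (Function.update (fun _ : Fin (j + 2) => rg N) 0 P) (fun _ => q)
      (fun _ y => g (∑ i, y i)) = 𝔼 W ∈ Fintype.piFinset (fun i => Fintype.piFinset
        fun _ : Fin q => Function.update (fun _ : Fin (j + 2) => rg N) 0 P i), Gw g W 0 := by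
    unfold gridA Gw
    simp only [zero_add]
  rw [h, E_cons, expect_comm (bp j q N)]
  refine expect_congr (by rw [Function.update_self]) fun x _ => ?_
  rw [E_cons, expect_comm (bp j q N)]
  refine expect_congr (by rw [Function.update_of_ne (Fin.succ_ne_zero _)]) fun y _ => ?_
  refine expect_congr ?_ fun W _ => ?_
  · simp only [Function.update_of_ne (Fin.succ_ne_zero _)]
    rfl
  · rw [Gw_cons]
    exact prod_congr rfl fun a _ => by rw [Gw_cons, zero_add]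

theorem rg_card (L : ℕ) : (rg L).card = L := by simp [rg]

theorem rg_ne {L : ℕ} (h : 1 ≤ L) : (rg L).Nonempty := card_pos.1 (by rw [rg_card]; exact h)

theorem win {N T : ℕ} (hN : 1 ≤ N) (hT : 1 ≤ T) (h : ℤ → ℝ) (h0 : ∀ y, 0 ≤ h y) :
    𝔼 y ∈ rg N, h y ≤ (1 + (T : ℝ) / N) * 𝔼 o ∈ Ico (-(T : ℤ)) N,
      𝔼 y ∈ (rg T).image (o + ·), h y := by
  have N0 : (0 : ℝ) < N := by exact_mod_cast hN
  have hc : ((Ico (-(T : ℤ)) N).card : ℝ) = N + T := by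
    have h : (Ico (-(T : ℤ)) N).card = N + T := by rw [Int.card_Ico]; omega
    rw [h]; push_cast; ring
  simp only [expect_image (add_right_injective _).injOn]
  rw [expect_comm, mul_expect]
  refine le_expect (rg_ne hT) fun t ht => ?_
  rw [expect_eq_sum_div_card, expect_eq_sum_div_card, hc, rg_card,
    show (1 + (T : ℝ) / N) * ((∑ o ∈ Ico (-(T : ℤ)) N, h (o + t)) / (N + T)) =
      (∑ o ∈ Ico (-(T : ℤ)) N, h (o + t)) / N by field_simp]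
  refine div_le_div_of_nonneg_right ?_ N0.le
  have h1 : ∑ o ∈ (rg N).image (· - t), h (o + t) = ∑ y ∈ rg N, h y := by
    rw [sum_image fun a _ b _ h => by simpa using h]
    exact sum_congr rfl fun x _ => by rw [sub_add_cancel]
  rw [← h1]
  refine sum_le_sum_of_subset_of_nonneg (fun x hx => ?_) fun x _ _ => h0 _
  obtain ⟨a, ha, rfl⟩ := mem_image.1 hx
  rw [rg, mem_Ico] at ha ht
  rw [mem_Ico]
  omega

theorem Gw_bd {g : ℤ → ℝ} {Y : ℝ} (hY : 0 ≤ Y) (hq : (q : ℝ) ≤ Y)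
    (hg : ∀ x, 0 ≤ g x ∧ g x ≤ Real.exp Y) (W : Pt j q) (s : ℤ) :
    0 ≤ Gw g W s ∧ Gw g W s ≤ Real.exp (Y ^ (j + 1)) := by
  refine ⟨prod_nonneg fun c _ => (hg _).1, (prod_le_prod (fun c _ => (hg _).1)
    fun c _ => (hg _).2).trans ?_⟩
  rw [prod_const, card_univ, Fintype.card_fun, Fintype.card_fin, Fintype.card_fin,
    ← Real.exp_nat_mul, Real.exp_le_exp, pow_succ, Nat.cast_pow]
  gcongr

open Classical in
theorem dense {α : Type} (s : Finset α) (T : α → ℝ) {a b M : ℝ} (ha : 0 ≤ a)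
    (hM : ∀ x, T x ≤ M) (hs : s.Nonempty) (h : a + b ≤ 𝔼 x ∈ s, T x) :
    b * s.card ≤ M * (s.filter fun x => a ≤ T x).card := by
  rw [expect_eq_sum_div_card, le_div_iff₀ (by exact_mod_cast hs.card_pos)] at h
  have h1 : ∑ x ∈ s, T x ≤ ∑ x ∈ s, (a + if a ≤ T x then M else 0) := sum_le_sum fun x _ => by
    split_ifs with h
    · linarith [hM x]
    · linarith
  rw [sum_add_distrib, sum_const, ← sum_filter, sum_const, nsmul_eq_mul, nsmul_eq_mul] at h1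
  linarith

theorem nA {δ Y : ℝ} (δ0 : 0 < δ) (h : 2 / δ ≤ Y) : Real.exp (-Y) ≤ δ / 2 := by
  rw [div_le_iff₀ δ0] at h
  have h1 := Real.add_one_le_exp Y
  rw [Real.exp_neg, inv_le_comm₀ (Real.exp_pos _) (by positivity), inv_div, div_le_iff₀ δ0]
  nlinarith

theorem nB {Y n : ℝ} (hY : 16 ≤ Y) (n2 : n ≤ Y ^ 2) (j : ℕ) :
    Y + Y ^ (j + 1) * (3 * n + 2) ≤ Y ^ (j + 4) := by
  have P1 : Y ≤ Y ^ (j + 1) := le_pw (by linarith) (by omega)
  have h1 : 3 * n + 3 ≤ Y ^ 3 := by nlinarith [sq_nonneg Y]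
  rw [show Y ^ (j + 4) = Y ^ (j + 1) * Y ^ 3 by ring]
  nlinarith [mul_le_mul_of_nonneg_left h1 (show 0 ≤ Y ^ (j + 1) by linarith)]

theorem nC {Y θ : ℝ} (hY : 2 ≤ Y) (hq : (q : ℝ) ≤ Y) (hθ : 1 / 2 ≤ θ) (j : ℕ) :
    Real.exp (-Y ^ (j + 1)) ≤ θ ^ (q ^ j) / 2 := by
  have h1 : (1 / 2 : ℝ) ^ (q ^ j) ≤ θ ^ (q ^ j) := pow_le_pow_left₀ (by norm_num) hθ _
  have h2 : ((q ^ j + 1 : ℕ) : ℝ) ≤ Y ^ (j + 1) := by
    have h3 : (q : ℝ) ^ j ≤ Y ^ j := by gcongr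
    have h4 : Y ^ j + Y ^ 0 ≤ Y ^ (j + 1) := add_pw_le hY (by omega) (by omega)
    rw [pow_zero] at h4
    push_cast
    linarith
  have h3 := (two_pow_le_exp (q ^ j + 1)).trans (Real.exp_le_exp.2 h2)
  rw [Real.exp_neg]
  refine (inv_anti₀ (by positivity) h3).trans ?_
  rw [one_div, inv_pow] at h1
  rw [pow_succ, mul_inv]
  linarith

theorem nD {Y δ : ℝ} {T N : ℕ} (hY : 2 ≤ Y) (hq : (q : ℝ) ≤ Y) (N0 : (0 : ℝ) < N) (δ1 : δ ≤ 1)
    (eδ : Real.exp (-Y) ≤ δ / 2) (k2 : T * Real.exp (Y ^ (j + 4)) ≤ N) :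
    (1 + (T : ℝ) / N) ^ q * (1 - δ / 2) ≤ 1 := by
  have h1 : (T : ℝ) / N ≤ Real.exp (-(2 * Y)) := by
    rw [div_le_iff₀ N0, Real.exp_neg, ← div_eq_inv_mul, le_div_iff₀ (Real.exp_pos _)]
    refine le_trans (mul_le_mul_of_nonneg_left (Real.exp_le_exp.2 ?_) (Nat.cast_nonneg _)) k2
    exact le_trans (by nlinarith) (pw_le (by linarith) (show 2 ≤ j + 4 by omega))
  have h2 : q * ((T : ℝ) / N) ≤ δ / 2 := by
    refine (mul_le_mul (hq.trans (by linarith [Real.add_one_le_exp Y] : Y ≤ Real.exp Y)) h1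
      (by positivity) (Real.exp_pos _).le).trans ?_
    rw [← Real.exp_add, show Y + -(2 * Y) = -Y by ring]
    exact eδ
  have h3 : (1 + (T : ℝ) / N) ^ q ≤ Real.exp (δ / 2) := by
    refine le_trans ?_ (Real.exp_le_exp.2 h2)
    rw [Real.exp_nat_mul]
    exact pow_le_pow_left₀ (by positivity) (by linarith [Real.add_one_le_exp ((T : ℝ) / N)]) _
  refine (mul_le_mul h3 (Real.one_sub_le_exp_neg _) (by linarith) (Real.exp_pos _).le).trans ?_
  rw [← Real.exp_add, add_neg_cancel, Real.exp_zero]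

theorem nE {δ lam B E : ℝ} {n : ℕ} (n1 : 1 ≤ n) (δ0 : 0 < δ) (δ1 : δ ≤ 1) (l0 : 0 < lam)
    (E0 : 0 ≤ E) (h : lam ^ n ≤ B * E) (hB : B * (1 - δ / 2) ≤ 1) :
    ((1 - δ) * lam) ^ n + δ / 2 * lam ^ n ≤ E := by
  have h1 : (1 - δ) ^ n ≤ 1 - δ := pow_le_of_le_one (by linarith) (by linarith) (by omega)
  have h2 := mul_le_mul_of_nonneg_right h (show 0 ≤ 1 - δ / 2 by linarith)
  have h3 := mul_le_mul_of_nonneg_right hB E0
  have h4 := mul_le_mul_of_nonneg_right h1 (pow_pos l0 n).le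
  rw [mul_pow]
  linarith

theorem nF {δ lam Y P Z A c : ℝ} {n : ℕ} (P0 : 0 ≤ P) (A0 : 0 ≤ A) (eδ : Real.exp (-Y) ≤ δ / 2)
    (l1 : Real.exp (-P) ≤ lam / 2) (n3 : Y + P * (3 * n + 2) ≤ Z)
    (hd : δ / 2 * lam ^ n * A ≤ Real.exp P ^ n * c) : Real.exp (-Z) * A ≤ c := by
  have := Real.exp_pos (-P)
  have := Real.exp_pos (-Y)
  apply le_of_mul_le_mul_left _ (pow_pos (Real.exp_pos P) n)
  refine le_trans ?_ hd
  rw [← mul_assoc]
  refine mul_le_mul_of_nonneg_right ?_ A0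
  refine le_trans ?_ (mul_le_mul eδ (pow_le_pow_left₀ (Real.exp_pos (-P)).le
    (show Real.exp (-P) ≤ lam by linarith) n) (by positivity) (by linarith))
  rw [← Real.exp_nat_mul, ← Real.exp_nat_mul, ← Real.exp_add, ← Real.exp_add, Real.exp_le_exp]
  nlinarith [mul_nonneg P0 (Nat.cast_nonneg (α := ℝ) n)]

theorem nG {δ lam Y P Z : ℝ} {n : ℕ} (eδ : Real.exp (-Y) ≤ δ / 2)
    (l2 : Real.exp (-P) ≤ lam) (n3 : Y + P * (3 * n + 2) ≤ Z) :
    Real.exp (-Z) ≤ δ * (lam / Real.exp P) ^ (n + 1) / Real.exp P ^ n := by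
  have := Real.exp_pos (-Y)
  rw [le_div_iff₀ (by positivity)]
  refine le_trans ?_ (mul_le_mul (show Real.exp (-Y) ≤ δ by linarith)
    (pow_le_pow_left₀ (by positivity)
      (div_le_div_of_nonneg_right l2 (Real.exp_pos P).le) (n + 1)) (by positivity) (by linarith))
  rw [← Real.exp_sub, ← Real.exp_nat_mul, ← Real.exp_nat_mul, ← Real.exp_add, ← Real.exp_add,
    Real.exp_le_exp, Nat.cast_succ]
  linarith

theorem nH {δ lam e : ℝ} (δ0 : 0 < δ) (δ1 : 3 * δ ≤ 1 / 100) (e0 : 0 < e) (l1 : e ≤ lam / 2) :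
    e ≤ (1 - δ) * lam ∧ e ≤ (1 - 3 * δ) * lam / (1 - δ) ∧
      (1 - 3 * δ) * lam / (1 - δ) ≤ (1 - δ) * ((1 - δ) * lam) := by
  have h0 : 0 < 1 - δ := by linarith
  have h1 : 1 - 3 * δ ≤ (1 - δ) * (1 - δ) * (1 - δ) := by nlinarith [mul_pos δ0 δ0]
  refine ⟨by nlinarith, by rw [le_div_iff₀ h0]; nlinarith, ?_⟩
  rw [div_le_iff₀ h0]
  linarith [mul_le_mul_of_nonneg_right h1 (show 0 ≤ lam by linarith)]

theorem nI {Y A c c' : ℝ} {a b C : ℕ} (hY : 16 ≤ Y) (A0 : 0 ≤ A) (a1 : 1 ≤ a)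
    (hC : a + a * b + 1 ≤ C) (d0 : Real.exp (-Y ^ a) * A ≤ c)
    (hz : Real.exp (-(Y ^ a) ^ b) * c / 5 ≤ c') : Real.exp (-Y ^ C) * A ≤ c' := by
  have Y1 : 1 ≤ Y := by linarith
  refine le_trans ?_ hz
  rw [le_div_iff₀ (by norm_num)]
  refine le_trans ?_ (mul_le_mul_of_nonneg_left d0 (Real.exp_pos _).le)
  rw [mul_right_comm, ← mul_assoc]
  refine mul_le_mul_of_nonneg_right ?_ A0
  refine (mul_le_mul_of_nonneg_left (show (5 : ℝ) ≤ Real.exp Y by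
    linarith [Real.add_one_le_exp Y]) (Real.exp_pos _).le).trans ?_
  rw [← Real.exp_add, ← Real.exp_add, Real.exp_le_exp, ← pow_mul]
  have h1 : Y ≤ Y ^ (a + a * b) := le_pw Y1 (by omega)
  have h2 : Y ^ a ≤ Y ^ (a + a * b) := pw_le Y1 (by omega)
  have h3 : Y ^ (a * b) ≤ Y ^ (a + a * b) := pw_le Y1 (by omega)
  have h4 := mul_pw_le (by linarith) (show 3 ≤ Y by linarith) (a + a * b)
  have h5 : Y ^ (a + a * b + 1) ≤ Y ^ C := pw_le Y1 hC
  linarith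

theorem nJ {e c n : ℝ} (e0 : 0 ≤ e) (c0 : 0 ≤ c) (n1 : 1 ≤ n) :
    (4 * n + 1) * (e * c / 5) ≤ c * (e * n) := by nlinarith [mul_nonneg e0 c0]

end S1A

open S1A

theorem s1 (hL : LOC) (hS : SIFT) (hK : KM1) : S1 := by
  classical
  intro j ε ε0 ε1
  obtain ⟨δ, hδ⟩ : ∃ δ : ℝ, ε = 3 * δ := ⟨ε / 3, by ring⟩
  have δ0 : 0 < δ := by linarith
  obtain ⟨C1, hC⟩ := hK δ δ0 (by linarith)
  refine ⟨(j + 4) + (j + 4) * C1 + 1 + (C1 + 16 + ⌈2 / δ⌉₊), fun Y θ q N g hY q1 hq hN hg hθ h => ?_⟩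
  have c1 := Nat.le_ceil (2 / δ)
  generalize ⌈2 / δ⌉₊ = c at hY hN c1 ⊢
  generalize hC' : (j + 4) + (j + 4) * C1 + 1 + (C1 + 16 + c) = C at hY hN ⊢
  have hY' : (C1 : ℝ) + 16 + c ≤ Y := le_trans (by exact_mod_cast (by omega : C1 + 16 + c ≤ C)) hY
  have c0 : (0 : ℝ) ≤ c := Nat.cast_nonneg c
  have C0 : (0 : ℝ) ≤ C1 := Nat.cast_nonneg C1
  have Y1 : 1 ≤ Y := by linarith
  have Y0 : 0 ≤ Y := by linarith
  have eδ : Real.exp (-Y) ≤ δ / 2 := nA δ0 (by linarith)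
  have hA : (Y ^ (j + 4)) ^ C1 ≤ Y ^ C := by rw [← pow_mul]; exact pw_le Y1 (by omega)
  obtain ⟨T3, T, Q, r, hQ, ρ, k1, k2, k3, k4, k5, k6, k7, k8, k9, k10, km⟩ :=
    hC (Y ^ (j + 4)) N (le_trans (by linarith) (le_pw Y1 (by omega))) (hA.trans hN)
  have N1 : 1 ≤ N := k3.trans k4
  have N0 : (0 : ℝ) < N := by exact_mod_cast N1
  obtain ⟨P, hP⟩ : ∃ P : ℝ, P = Y ^ (j + 1) := ⟨_, rfl⟩
  have P1 : Y ≤ P := hP ▸ le_pw Y1 (by omega)
  have n2 : ((q * q : ℕ) : ℝ) ≤ Y ^ 2 := by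
    rw [Nat.cast_mul, sq]; exact mul_le_mul hq hq (Nat.cast_nonneg _) Y0
  have n1 : 1 ≤ q * q := Nat.mul_pos q1 q1
  have n3 : Y + P * (3 * (q * q : ℕ) + 2) ≤ Y ^ (j + 4) := hP ▸ nB (by linarith) n2 j
  have Gb : ∀ (W : Pt j q) (s : ℤ), 0 ≤ Gw g W s ∧ Gw g W s ≤ Real.exp P :=
    fun W s => hP ▸ Gw_bd Y0 hq hg W s
  obtain ⟨lam, hl⟩ : ∃ lam : ℝ, lam = θ ^ (q ^ j) := ⟨_, rfl⟩
  have l1 : Real.exp (-P) ≤ lam / 2 := by rw [hP, hl]; exact nC (by linarith) hq hθ j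
  have l0 : 0 < lam := by linarith [Real.exp_pos (-P)]
  rw [← hl]
  rw [pow_add, pow_mul, ← hl, sq] at h
  obtain ⟨o, -, ho⟩ := hL ℤ ℤ (j + 2) (fun _ => rg N) (fun _ => q) (fun y => g (∑ i, y i)) 0
    (Ico (-(T3 : ℤ)) N) (fun o => (rg T3).image (o + ·)) (1 + (T3 : ℝ) / N) (fun y => (hg _).1) q1
    ⟨0, by rw [mem_Ico]; omega⟩ (by positivity) (win N1 k1)
  rw [split] at ho
  have hB := nD (by linarith) hq N0 (by linarith) eδ k2
  set TT : Pt j q → ℝ := fun W => 𝔼 x ∈ Fintype.piFinset (fun _ : Fin q => (rg T3).image (o + ·)),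
    𝔼 y ∈ Fintype.piFinset (fun _ : Fin q => rg N), ∏ a, ∏ b, Gw g W (x a + y b) with hTT
  have ne1 : ((rg T3).image (o + ·)).Nonempty := (rg_ne k1).image _
  have T1 : ∀ W, TT W ≤ Real.exp P ^ (q * q) := fun W =>
    expect_le (Fintype.piFinset_nonempty.2 fun _ => ne1) fun x _ =>
      expect_le (Fintype.piFinset_nonempty.2 fun _ => rg_ne N1) fun y _ => by
        refine (prod_le_prod (fun a _ => prod_nonneg fun b _ => (Gb _ _).1) fun a _ =>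
          prod_le_prod (fun b _ => (Gb _ _).1) fun b _ => (Gb _ _).2).trans ?_
        simp only [prod_const, card_univ, Fintype.card_fin, pow_mul, le_refl]
  have T0 : 0 ≤ 𝔼 W ∈ bp j q N, TT W := expect_nonneg fun W _ => expect_nonneg fun x _ =>
    expect_nonneg fun y _ => prod_nonneg fun a _ => prod_nonneg fun b _ => (Gb _ _).1
  have bc : ((bp j q N).card : ℝ) = (N : ℝ) ^ (j * q) := by
    simp only [bp, bz, Fintype.card_piFinset, prod_const, card_univ, Fintype.card_fin, rg_card]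
    rw [← pow_mul, mul_comm q j, Nat.cast_pow]
  have hd := dense (bp j q N) TT (a := ((1 - δ) * lam) ^ (q * q)) (b := δ / 2 * lam ^ (q * q))
    (pow_nonneg (mul_nonneg (by linarith) l0.le) _) T1
    (Fintype.piFinset_nonempty.2 fun _ => Fintype.piFinset_nonempty.2 fun _ => rg_ne N1) 
    (nE n1 δ0 (by linarith) l0 T0 (h.trans ho) hB)
  set Ω0 := (bp j q N).filter fun W => ((1 - δ) * lam) ^ (q * q) ≤ TT W with hΩ0
  have d0 : Real.exp (-Y ^ (j + 4)) * (N : ℝ) ^ (j * q) ≤ Ω0.card :=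
    nF (Y0.trans P1) (by positivity) eδ l1 n3 (bc ▸ hd)
  obtain ⟨l2, l3, l4⟩ := nH δ0 (hδ ▸ ε1) (Real.exp_pos _) l1
  rw [← hδ] at l3 l4
  have key : ∀ W ∈ Ω0, ∃ ξ : Fin r → ZMod Q, Real.exp (-(Y ^ (j + 4)) ^ C1) * N ≤
      ((Icc (-(2 * N : ℤ)) (2 * N)).filter fun z => ∃ γ : Fin r → ZMod Q,
        Real.exp (-(Y ^ (j + 4)) ^ C1) ≤
          exc (lap ρ) ξ γ T (fun s => Gw g W (o + z + s)) ((1 - ε) * lam)).card := by
    intro W hW
    obtain ⟨u, v, hu, hv, s1, s2⟩ := hS ℤ ℤ ((rg T3).image (o + ·)) (rg N) q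
      (fun a b => Gw g W (a + b)) (Real.exp P) ((1 - δ) * lam) δ ne1 (rg_ne N1) q1
      (Real.one_le_exp (Y0.trans P1)) (fun a b => Gb _ _) ((Real.exp_pos _).trans_le l2) δ0
      (by linarith) (mem_filter.1 hW).2
    simp only [expect_image (add_right_injective _).injOn] at s1 s2
    have u0 : 0 ≤ 𝔼 x ∈ rg T3, u (o + x) := expect_nonneg fun x _ => (hu _).1
    have u1 : 𝔼 x ∈ rg T3, u (o + x) ≤ 1 := expect_le (rg_ne k1) fun x _ => (hu _).2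
    have v0 : 0 ≤ 𝔼 y ∈ rg N, v y := expect_nonneg fun x _ => (hv _).1
    have v1 : 𝔼 y ∈ rg N, v y ≤ 1 := expect_le (rg_ne N1) fun x _ => (hv _).2
    have s3 := (nG eδ l2 n3).trans s1
    have δ1 : 0 < 1 - δ := by linarith
    have hP4 : P ≤ Y ^ (j + 4) := hP ▸ pw_le Y1 (by omega)
    obtain ⟨ξ, hξ⟩ := km (fun s => Gw g W (o + s)) (fun x => u (o + x)) v
      ((1 - ε) * lam / (1 - δ)) (fun x => ⟨(Gb _ _).1, (Gb _ _).2.trans (Real.exp_le_exp.2 hP4)⟩)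
      (fun x => hu _) hv ((Real.exp_le_exp.2 (neg_le_neg hP4)).trans l3)
      (s3.trans (mul_le_of_le_one_right u0 v1)) (s3.trans (mul_le_of_le_one_left v0 u1)) (by
        refine le_trans ?_ (s2.trans_eq (by simp only [add_assoc]))
        exact mul_le_mul_of_nonneg_right (mul_le_mul_of_nonneg_right l4 u0) v0)
    rw [mul_div_cancel₀ _ δ1.ne'] at hξ
    exact ⟨ξ, by simpa only [add_assoc] using hξ⟩
  choose! ξ hξ using key
  have hc : ((Icc (-(2 * N : ℤ)) (2 * N)).card : ℝ) = 4 * N + 1 := by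
    have h : (Icc (-(2 * N : ℤ)) (2 * N)).card = 4 * N + 1 := by rw [Int.card_Icc]; omega
    rw [h]; push_cast; ring
  set Z : Pt j q → Finset ℤ := fun W => (Icc (-(2 * N : ℤ)) (2 * N)).filter fun z =>
    ∃ γ : Fin r → ZMod Q, Real.exp (-(Y ^ (j + 4)) ^ C1) ≤
      exc (lap ρ) (ξ W) γ T (fun s => Gw g W (o + z + s)) ((1 - ε) * lam) with hZ
  obtain ⟨z, -, hz⟩ := exists_le_of_sum_le (s := Icc (-(2 * N : ℤ)) (2 * N))
    (f := fun _ => Real.exp (-(Y ^ (j + 4)) ^ C1) * Ω0.card / 5)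
    (g := fun z => ((Ω0.filter fun W => z ∈ Z W).card : ℝ)) ⟨0, by rw [mem_Icc]; omega⟩ (by
      rw [sum_card_swap _ Ω0 Z fun W => filter_subset _ _, sum_const, nsmul_eq_mul, hc]
      refine le_trans ?_ (card_nsmul_le_sum Ω0 _ _ hξ)
      rw [nsmul_eq_mul]
      exact nJ (Real.exp_pos _).le (Nat.cast_nonneg _) (by exact_mod_cast N1))
  have key2 : ∀ W ∈ Ω0.filter fun W => z ∈ Z W, ∃ γ : Fin r → ZMod Q,
      Real.exp (-(Y ^ (j + 4)) ^ C1) ≤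
        exc (lap ρ) (ξ W) γ T (fun s => Gw g W (o + z + s)) ((1 - ε) * lam) :=
    fun W hW => (mem_filter.1 (mem_filter.1 hW).2).2
  choose! γ hγ using key2
  have eA : Real.exp (-Y ^ C) ≤ Real.exp (-(Y ^ (j + 4)) ^ C1) := Real.exp_le_exp.2 (neg_le_neg hA)
  have YC : Y ≤ Y ^ C := le_pw Y1 (by omega)
  refine ⟨o + z, T, Q, r, hQ, ρ, ξ, γ, Ω0.filter fun W => z ∈ Z W, k8.trans hA, eA.trans k9, k10,
    k3, k4, k5.trans (by gcongr), k6, ?_, ⟨(filter_subset _ _).trans (filter_subset _ _), ?_⟩,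
    fun W hW => eA.trans (hγ W hW)⟩
  · have h1 : (Q : ℝ) ≤ 16 * N := by exact_mod_cast k7
    refine h1.trans ((mul_comm _ _).trans_le (mul_le_mul_of_nonneg_left ?_ N0.le))
    linarith [Real.add_one_le_exp (Y ^ C)]
  · exact nI (by linarith) (by positivity) (by omega) (by omega) d0 hz

end

end Vale.Agent.P057L
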