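import Vale.Agent.P057L.HgDefs

/-! Subgrids from the full grid. -/

open Finset Function
open scoped BigOperators

namespace Vale.Agent.P057L

namespace Sgg

theorem exp_prod {A B : Type} [Fintype A] [Fintype B] (h : A × B → ℝ) :
    𝔼 x, h x = 𝔼 a, 𝔼 b, h (a, b) := by
  rw [← univ_product_univ, expect_product]

theorem exp_drop {A : Type} [Fintype A] [Nonempty A] {k : ℕ} (p : Fin (k + 2))
    (h : (Fin (k + 1) → A) → ℝ) : 𝔼 w : A, 𝔼 M : Fin (k + 1) → A,
      h ((Fin.snoc M w : Fin (k + 2) → A) ∘ p.succAbove) = 𝔼 W, h W := by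
  classical
  rw [← exp_prod fun x : A × (Fin (k + 1) → A) =>
    h ((Fin.snoc x.2 x.1 : Fin (k + 2) → A) ∘ p.succAbove),
    Fintype.expect_equiv (Fin.snocEquiv fun _ => A)
      (fun x => h ((Fin.snoc x.2 x.1 : Fin (k + 2) → A) ∘ p.succAbove))
      (fun V => h (V ∘ p.succAbove)) fun _ => rfl,
    ← Fintype.expect_equiv (Fin.insertNthEquiv (fun _ => A) p) (fun x => h x.2) _ fun x => by
      congr 1
      funext j
      simp [Fin.insertNthEquiv], exp_prod]
  exact Fintype.expect_const (ι := A) (𝔼 W, h W)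

end Sgg

open Sgg in
theorem sgg (hG : GH) : SGG := by
  classical
  intro k Ω _ _ _ q _ κ F i hκ hF h S hS
  obtain ⟨c, hc⟩ : ∃ c : (Fin (k + 1) → Fin q) × Fin q → Fin (k + 1) → Fin q, ∀ x,
      c x = (Fin.snoc x.1 x.2 : Fin (k + 2) → Fin q) ∘ i.castSucc.succAbove := ⟨_, fun _ => rfl⟩
  have inj : Set.InjOn c S := fun x hx x' hx' e => by
    have : (Fin.snoc x.1 x.2 : Fin (k + 2) → Fin q) = Fin.snoc x'.1 x'.2 := funext fun j => by
      rcases Fin.eq_self_or_eq_succAbove i.castSucc j with rfl | ⟨j, rfl⟩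
      · simp [hS x hx, hS x' hx']
      · simpa [hc] using congrFun e j
    exact Prod.ext (Fin.snoc_inj.1 this).1 (Fin.snoc_inj.1 this).2
  have h1 := hG Ω (k + 1) (fun _ => univ) (fun _ => q)
    (fun d y => if d ∈ S.image c then F y else 1) fun d y => by split_ifs; exacts [hF y, one_pos.le]
  have h2 : ∏ d : Fin (k + 1) → Fin q, gridA (fun _ => (univ : Finset Ω)) (fun _ => q)
      (fun _ y => if d ∈ S.image c then F y else 1) ≤ (κ ^ S.card) ^ q ^ (k + 1) := by
    have e : ∀ d : Fin (k + 1) → Fin q, gridA (fun _ => (univ : Finset Ω)) (fun _ => q)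
        (fun _ y => if d ∈ S.image c then F y else 1) = if d ∈ S.image c then
          gridA (fun _ => (univ : Finset Ω)) (fun _ => q) (fun _ => F) else 1 := fun d => by
      split_ifs
      · rfl
      · simp [gridA]
    simp only [e]
    rw [prod_ite_mem, univ_inter, prod_const, card_image_of_injOn inj, ← pow_mul, mul_comm, pow_mul]
    exact pow_le_pow_left₀ (expect_nonneg fun _ _ => prod_nonneg fun _ _ => hF _) h _
  rw [prod_const, card_univ, Fintype.card_fin] at h1
  refine le_trans (le_of_eq ?_) (le_of_pow_le_pow_left₀ (pow_ne_zero _ (NeZero.ne q))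
    (by positivity) (h1.trans h2))
  simp only [gridA, Fintype.piFinset_univ]
  rw [← exp_drop i.castSucc]
  refine expect_congr rfl fun w _ => expect_congr rfl fun M _ => ?_
  rw [prod_ite_mem, univ_inter, prod_image inj]
  refine prod_congr rfl fun x _ => congrArg F (funext fun j => ?_)
  simp only [hc, comp_apply]
  generalize i.castSucc.succAbove j = l
  induction l using Fin.lastCases <;> simp

end Vale.Agent.P057L
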