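import Vale.Agent.P057L.Defs

/-! The sifting lemma for grids with two classes. -/

set_option linter.all false

open Finset
open scoped BigOperators

namespace Vale.Agent.P057L

noncomputable section

theorem sift_upd {α ι : Type} [Fintype ι] [DecidableEq ι] (A : Finset α) (hA : A.Nonempty)
    (i : ι) (F : (ι → α) → ℝ) :
    𝔼 x ∈ Fintype.piFinset (fun _ : ι => A), F x =
      𝔼 x ∈ Fintype.piFinset (fun _ : ι => A), 𝔼 a ∈ A, F (Function.update x i a) := by
  have hm : ∀ z ∈ Fintype.piFinset (fun _ : ι => A) ×ˢ A,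
      (Function.update z.1 i z.2, z.1 i) ∈ Fintype.piFinset (fun _ : ι => A) ×ˢ A := by
    intro z hz
    obtain ⟨h1, h2⟩ := mem_product.1 hz
    refine mem_product.2 ⟨Fintype.mem_piFinset.2 fun k => ?_, Fintype.mem_piFinset.1 h1 i⟩
    by_cases hk : k = i
    · subst hk
      simpa using h2
    · simpa [Function.update_of_ne hk] using Fintype.mem_piFinset.1 h1 k
  have hi : ∀ z ∈ Fintype.piFinset (fun _ : ι => A) ×ˢ A,
      (Function.update (Function.update z.1 i z.2) i (z.1 i), Function.update z.1 i z.2 i) = z := by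
    intro z _
    rw [Function.update_idem, Function.update_eq_self, Function.update_self]
  rw [← expect_product' (f := fun x a => F (Function.update x i a)),
    expect_nbij' (g := fun z : (ι → α) × α => F z.1)
      (fun z => (Function.update z.1 i z.2, z.1 i)) (fun z => (Function.update z.1 i z.2, z.1 i))
      hm hm hi hi (fun _ _ => rfl), expect_product' (f := fun x _ => F x)]
  exact expect_congr rfl fun x _ => (expect_const hA _).symm

theorem sift_upd2 {α β ι : Type} [Fintype ι] [DecidableEq ι] (A : Finset α) (B : Finset β)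
    (hA : A.Nonempty) (hB : B.Nonempty) (i k : ι) (F : (ι → α) → (ι → β) → ℝ) :
    𝔼 x ∈ Fintype.piFinset (fun _ : ι => A), 𝔼 y ∈ Fintype.piFinset (fun _ : ι => B), F x y =
      𝔼 x ∈ Fintype.piFinset (fun _ : ι => A), 𝔼 y ∈ Fintype.piFinset (fun _ : ι => B),
        𝔼 a ∈ A, 𝔼 b ∈ B, F (Function.update x i a) (Function.update y k b) := by
  rw [sift_upd A hA i]
  refine expect_congr rfl fun x _ => ?_
  rw [expect_comm]
  refine Eq.trans ?_ (expect_comm _ _ _)
  rw [expect_comm]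
  exact expect_congr rfl fun a _ => sift_upd B hB k _

theorem sift_cell {κ : Type} [Fintype κ] [DecidableEq κ] [Nonempty κ] (P : Finset κ → ℝ) (l : ℝ)
    (hl : 0 < l) (h0 : P ∅ = 1) (h1 : l ^ Fintype.card κ ≤ P univ) :
    ∃ S c, c ∉ S ∧ l * P S ≤ P (insert c S) := by
  by_contra hn
  simp only [not_exists, not_and, not_le] at hn
  have key : ∀ S : Finset κ, P S ≤ l ^ S.card := by
    intro S
    induction S using Finset.induction_on with
    | empty => rw [h0, card_empty, pow_zero]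
    | insert c S hc ih =>
      rw [card_insert_of_notMem hc, pow_succ']
      exact (hn S c hc).le.trans (mul_le_mul_of_nonneg_left ih hl.le)
  obtain ⟨c⟩ := ‹Nonempty κ›
  have a := hn (univ.erase c) c (notMem_erase c _)
  have b := mul_le_mul_of_nonneg_left (key (univ.erase c)) hl.le
  rw [insert_erase (mem_univ c)] at a
  rw [← pow_succ', card_erase_add_one (mem_univ c), card_univ] at b
  linarith

theorem sift_core {α β : Type} (A : Finset α) (B : Finset β) (p : ℕ) (g : α → β → ℝ) (l ε : ℝ)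
    (hA : A.Nonempty) (hB : B.Nonempty) (hp : 1 ≤ p) (hg : ∀ a b, 0 ≤ g a b ∧ g a b ≤ 1)
    (hl : 0 < l) (hε : 0 < ε) (hε1 : ε ≤ 1)
    (h : l ^ (p * p) ≤ 𝔼 x ∈ Fintype.piFinset (fun _ : Fin p => A),
      𝔼 y ∈ Fintype.piFinset (fun _ : Fin p => B), ∏ c : Fin p × Fin p, g (x c.1) (y c.2)) :
    ∃ (u : α → ℝ) (v : β → ℝ), (∀ a, 0 ≤ u a ∧ u a ≤ 1) ∧ (∀ b, 0 ≤ v b ∧ v b ≤ 1) ∧
      ε * l ^ (p * p + 1) ≤ (𝔼 a ∈ A, u a) * 𝔼 b ∈ B, v b ∧
      (1 - ε) * l * ((𝔼 a ∈ A, u a) * 𝔼 b ∈ B, v b) ≤ 𝔼 a ∈ A, 𝔼 b ∈ B, u a * v b * g a b := by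
  haveI : Nonempty (Fin p) := ⟨⟨0, hp⟩⟩
  have nA : (Fintype.piFinset fun _ : Fin p => A).Nonempty :=
    Fintype.piFinset_nonempty.2 fun _ => hA
  have nB : (Fintype.piFinset fun _ : Fin p => B).Nonempty :=
    Fintype.piFinset_nonempty.2 fun _ => hB
  obtain ⟨S, ⟨a₀, b₀⟩, hc, hS⟩ := sift_cell (fun S : Finset (Fin p × Fin p) =>
    𝔼 x ∈ Fintype.piFinset (fun _ : Fin p => A), 𝔼 y ∈ Fintype.piFinset (fun _ : Fin p => B),
      ∏ c ∈ S, g (x c.1) (y c.2)) l hl
    (by simp only [prod_empty]; rw [expect_const nB, expect_const nA])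
    (by rwa [Fintype.card_prod, Fintype.card_fin])
  have hlow : l ^ (p * p) ≤ 𝔼 x ∈ Fintype.piFinset (fun _ : Fin p => A),
      𝔼 y ∈ Fintype.piFinset (fun _ : Fin p => B), ∏ c ∈ S, g (x c.1) (y c.2) :=
    h.trans (expect_le_expect fun x _ => expect_le_expect fun y _ =>
      prod_le_prod_of_subset_of_le_one (subset_univ S) (fun c _ => (hg _ _).1)
        fun c _ _ => (hg _ _).2)
  obtain ⟨u, hu⟩ : ∃ u : (Fin p → β) → α → ℝ,
      u = fun y a => ∏ c ∈ S.filter (fun c => c.1 = a₀), g a (y c.2) := ⟨_, rfl⟩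
  obtain ⟨v, hv⟩ : ∃ v : (Fin p → α) → (Fin p → β) → β → ℝ, v = fun x y b =>
      ∏ c ∈ S.filter (fun c => ¬ c.1 = a₀), g (x c.1) (Function.update y b₀ b c.2) := ⟨_, rfl⟩
  have u1 : ∀ y a, 0 ≤ u y a ∧ u y a ≤ 1 := fun y a => by
    rw [hu]
    exact ⟨prod_nonneg fun c _ => (hg _ _).1,
      prod_le_one (fun c _ => (hg _ _).1) fun c _ => (hg _ _).2⟩
  have v1 : ∀ x y b, 0 ≤ v x y b ∧ v x y b ≤ 1 := fun x y b => by
    rw [hv]
    exact ⟨prod_nonneg fun c _ => (hg _ _).1,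
      prod_le_one (fun c _ => (hg _ _).1) fun c _ => (hg _ _).2⟩
  have fac : ∀ x y a b, ∏ c ∈ S, g (Function.update x a₀ a c.1) (Function.update y b₀ b c.2) =
      u y a * v x y b := by
    intro x y a b
    rw [← prod_filter_mul_prod_filter_not S (fun c => c.1 = a₀), hu, hv]
    refine congrArg₂ (· * ·) (prod_congr rfl fun c hc' => ?_) (prod_congr rfl fun c hc' => ?_)
    · obtain ⟨m, e⟩ := mem_filter.1 hc'
      have : c.2 ≠ b₀ := fun e' => hc (by rwa [← e, ← e'])
      rw [e, Function.update_self, Function.update_of_ne this]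
    · rw [Function.update_of_ne (mem_filter.1 hc').2]
  rw [sift_upd2 A B hA hB a₀ b₀] at hlow
  rw [sift_upd2 A B hA hB a₀ b₀, sift_upd2 A B hA hB a₀ b₀ fun x y =>
    ∏ c ∈ insert (a₀, b₀) S, g (x c.1) (y c.2)] at hS
  simp only [prod_insert hc, fac, Function.update_self, ← expect_mul_expect] at hlow hS
  by_contra hn
  have all : ∀ x y, 𝔼 a ∈ A, 𝔼 b ∈ B, g a b * (u y a * v x y b) <
      (1 - ε) * l * ((𝔼 a ∈ A, u y a) * 𝔼 b ∈ B, v x y b) + ε * l ^ (p * p + 1) := by
    intro x y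
    have w0 : 0 ≤ (𝔼 a ∈ A, u y a) * 𝔼 b ∈ B, v x y b :=
      mul_nonneg (expect_nonneg fun a _ => (u1 y a).1) (expect_nonneg fun b _ => (v1 x y b).1)
    have w1 : 0 ≤ (1 - ε) * l * ((𝔼 a ∈ A, u y a) * 𝔼 b ∈ B, v x y b) :=
      mul_nonneg (mul_nonneg (by linarith) hl.le) w0
    have w2 : 0 < ε * l ^ (p * p + 1) := by positivity
    have w3 : 𝔼 a ∈ A, 𝔼 b ∈ B, g a b * (u y a * v x y b) ≤
        (𝔼 a ∈ A, u y a) * 𝔼 b ∈ B, v x y b := by
      rw [expect_mul_expect]
      exact expect_le_expect fun a _ => expect_le_expect fun b _ =>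
        mul_le_of_le_one_left (mul_nonneg (u1 y a).1 (v1 x y b).1) (hg a b).2
    by_cases k : ε * l ^ (p * p + 1) ≤ (𝔼 a ∈ A, u y a) * 𝔼 b ∈ B, v x y b
    · have := not_le.1 fun k' => hn ⟨u y, v x y, u1 y, v1 x y, k, k'⟩
      simp only [mul_comm (g _ _)]
      linarith
    · linarith [not_le.1 k]
  obtain ⟨x₀, hx₀⟩ := nA
  obtain ⟨y₀, hy₀⟩ := nB
  have fin := expect_lt_expect (s := Fintype.piFinset fun _ : Fin p => A)
    (fun x _ => (expect_lt_expect (s := Fintype.piFinset fun _ : Fin p => B)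
      (fun y _ => (all x y).le) ⟨y₀, hy₀, all x y₀⟩).le)
    ⟨x₀, hx₀, expect_lt_expect (fun y _ => (all x₀ y).le) ⟨y₀, hy₀, all x₀ y₀⟩⟩
  simp only [expect_add_distrib, ← mul_expect, expect_const ⟨x₀, hx₀⟩, expect_const ⟨y₀, hy₀⟩]
    at fin
  have e := mul_le_mul_of_nonneg_left hlow (mul_pos hε hl).le
  rw [pow_succ] at fin
  linarith

theorem sift : SIFT := by
  intro α β A B p G M lam ε hA hB hp hM hG hl hε hε1 h
  have M0 : 0 < M := by linarith
  obtain ⟨u, v, hu, hv, h1, h2⟩ := sift_core A B p (fun a b => G a b / M) (lam / M) ε hA hB hp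
    (fun a b => ⟨div_nonneg (hG a b).1 M0.le, (div_le_one M0).2 (hG a b).2⟩) (div_pos hl M0) hε hε1
    (by
      simp only [prod_div_distrib, prod_const, card_univ, Fintype.card_prod, Fintype.card_fin,
        ← expect_div, Fintype.prod_prod_type]
      rw [div_pow]
      exact div_le_div_of_nonneg_right h (by positivity))
  refine ⟨u, v, hu, hv, (div_le_self (by positivity) (one_le_pow₀ hM)).trans h1, ?_⟩
  simp only [← mul_div_assoc, ← expect_div] at h2
  rw [div_mul_eq_mul_div, div_le_div_iff_of_pos_right M0] at h2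
  rwa [mul_assoc]

end

end Vale.Agent.P057L
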