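import Vale.Agent.P057L.Gh
import Vale.Agent.P057L.Num

/-! The start: either a dense progression or a large grid. -/

set_option linter.all false

open Finset
open scoped BigOperators

namespace Vale.Agent.P057L

noncomputable section

namespace St1

theorem rg_sum (L : ℕ) (h : ℤ → ℝ) : ∑ z ∈ rg L, h z = ∑ w ∈ range L, h w := by
  symm
  refine sum_nbij' (fun w => (w : ℤ)) Int.toNat ?_ ?_ ?_ ?_ fun _ _ => rfl <;>
    simp only [rg, coe_range, coe_Ico, Set.mem_Iio, Set.mem_Ico, mem_range, mem_Ico] <;>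
    intro a ha <;> omega

theorem rg_card (L : ℕ) : (rg L).card = L := by simp [rg]

theorem rg_exp (L : ℕ) (h : ℤ → ℝ) : 𝔼 z ∈ rg L, h z = (∑ w ∈ range L, h w) / L := by
  rw [expect_eq_sum_div_card, rg_sum, rg_card]

theorem fin_exp (L : ℕ) (h : ℤ → ℝ) : 𝔼 w : Fin L, h ((w : ℕ) : ℤ) = 𝔼 z ∈ rg L, h z := by
  rw [rg_exp, expect_eq_sum_div_card, card_univ, Fintype.card_fin,
    Fin.sum_univ_eq_sum_range (fun w : ℕ => h w)]

theorem refl (L : ℕ) (h : ℤ → ℝ) : 𝔼 z ∈ rg L, h z = 𝔼 z ∈ rg L, h (L - 1 - z) := by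
  refine expect_nbij' (fun z => L - 1 - z) (fun z => L - 1 - z) ?_ ?_ ?_ ?_ ?_ <;>
    simp only [rg, coe_Ico, Set.mem_Ico, mem_Ico] <;> intro a ha
  · omega
  · omega
  · omega
  · omega
  · congr 1; omega

theorem shift (L : ℕ) (h : ℤ → ℝ) {B : ℝ} (hB : ∀ x, 0 ≤ h x ∧ h x ≤ B) (s : ℤ) :
    ∑ w ∈ range L, h w - |(s : ℝ)| * B ≤ ∑ w ∈ range L, h (w + s) := by
  have key : ∀ s : ℤ, ∑ w ∈ range L, h (w + s) + h (L + s) =
      ∑ w ∈ range L, h (w + (s + 1)) + h s := fun s => by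
    rw [← sum_range_succ (fun w : ℕ => h (w + s)), sum_range_succ']
    congr 1
    · exact sum_congr rfl fun w _ => by congr 1; push_cast; ring
    · simp
  induction s using Int.induction_on with
  | zero => simp
  | succ n ih =>
    have h1 := key n
    have h2 := (hB ((L : ℤ) + n)).1
    have h3 := (hB (n : ℤ)).2
    rw [abs_of_nonneg (by positivity)] at ih ⊢
    push_cast at ih ⊢
    linarith
  | pred n ih =>
    have h1 := key (-(n : ℤ) - 1)
    have h2 := (hB ((L : ℤ) + (-(n : ℤ) - 1))).2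
    have h3 := (hB (-(n : ℤ) - 1)).1
    rw [sub_add_cancel] at h1
    have h4 : (0 : ℝ) ≤ n := Nat.cast_nonneg n
    rw [abs_of_nonpos (by push_cast; linarith)] at ih ⊢
    push_cast at ih ⊢
    linarith

theorem ind_bd (A : Finset ℤ) {α : ℝ} (h : 0 < α) (x : ℤ) : 0 ≤ ind A α x ∧ ind A α x ≤ 1 / α := by
  unfold ind
  split_ifs
  · exact ⟨by positivity, le_rfl⟩
  · exact ⟨le_rfl, by positivity⟩

theorem tot {A : Finset ℤ} {α : ℝ} {N S : ℕ} (h : 0 < α) (hA : A ⊆ rg N) (e : α * N = A.card)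
    {t : ℤ} (ht : |t| ≤ S) : (N : ℝ) ≤ ∑ x ∈ Ico (-(S : ℤ)) (N + S), ind A α (x + t) := by
  have h1 : ∑ x ∈ A.image (· - t), ind A α (x + t) = N := by
    rw [sum_image fun a _ b _ h => by simpa using h, sum_congr rfl (g := fun _ => 1 / α)
      fun x hx => by rw [sub_add_cancel, ind, if_pos hx], sum_const, nsmul_eq_mul, ← e]
    field_simp
  rw [← h1]
  refine sum_le_sum_of_subset_of_nonneg (fun x hx => ?_) fun x _ _ => (ind_bd A h _).1
  obtain ⟨a, ha, rfl⟩ := mem_image.1 hx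
  have h2 := hA ha
  rw [rg, mem_Ico] at h2
  rw [abs_le] at ht
  rw [mem_Ico]
  omega

variable {k M M' : ℕ}

/-- the scale of a variable -/
def sc (k : ℕ) (j : Fin (k + 2)) : ℤ := if j = Fin.last (k + 1) then 1 else (k + 1).factorial

/-- the value of a variable -/
def vl (j : Fin (k + 2)) (w : Fin M × Fin M') : ℤ :=
  if j = Fin.last (k + 1) then ((w.1 : ℕ) : ℤ) else ((w.2 : ℕ) : ℤ)

/-- the range of a variable -/
def Mj (M M' : ℕ) (j : Fin (k + 2)) : ℕ := if j = Fin.last (k + 1) then M else M'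

/-- the coefficients -/
def cf (i j : Fin (k + 2)) : ℤ := ((i : ℕ) - (j : ℕ) : ℤ) * sc k j

/-- the point of the slot `i` -/
def pt (i : Fin (k + 2)) (y : Fin (k + 1) → Fin M × Fin M') : ℤ :=
  (i : ℕ) + ∑ l, cf i (i.succAbove l) * vl (i.succAbove l) (y l)

theorem vl_exp [NeZero M] [NeZero M'] (j : Fin (k + 2)) (h : ℤ → ℝ) :
    𝔼 w : Fin M × Fin M', h (vl j w) = 𝔼 z ∈ rg (Mj M M' j), h z := by
  rw [← univ_product_univ, expect_product]
  unfold vl Mj
  split_ifs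
  · rw [← fin_exp]
    exact expect_congr rfl fun x _ => expect_const univ_nonempty (h ((x : ℕ) : ℤ))
  · rw [← fin_exp]
    exact expect_const univ_nonempty (𝔼 w : Fin M', h ((w : ℕ) : ℤ))

theorem sc_pos (j : Fin (k + 2)) : 1 ≤ sc k j ∧ sc k j ≤ (k + 1).factorial := by
  have h : (1 : ℤ) ≤ (k + 1).factorial := by exact_mod_cast Nat.factorial_pos _
  unfold sc
  split_ifs
  · exact ⟨le_rfl, h⟩
  · exact ⟨h, le_rfl⟩

theorem vl_bd (h : M' ≤ M) (j : Fin (k + 2)) (w : Fin M × Fin M') : 0 ≤ vl j w ∧ vl j w ≤ M := by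
  have h1 := w.1.2
  have h2 := w.2.2
  unfold vl
  split_ifs <;> omega

theorem df_bd (i j : Fin (k + 2)) : |((i : ℕ) - (j : ℕ) : ℤ)| ≤ k + 1 := by
  have h1 := i.2
  have h2 := j.2
  rw [abs_le]
  omega

theorem df_dvd {i j : Fin (k + 2)} (h : i ≠ j) :
    ((i : ℕ) - (j : ℕ) : ℤ) ∣ ((k + 1).factorial : ℕ) := by
  have h1 := df_bd i j
  have h2 : (i : ℕ) ≠ j := fun e => h (Fin.ext e)
  rw [← Int.natAbs_dvd, Int.natCast_dvd_natCast]
  rw [abs_le] at h1
  exact Nat.dvd_factorial (by omega) (by omega)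

theorem cf_ne {i j : Fin (k + 2)} (h : i ≠ j) : cf i j ≠ 0 := by
  have h2 : (i : ℕ) ≠ j := fun e => h (Fin.ext e)
  exact mul_ne_zero (by omega) (by have := (sc_pos j).1; omega)

theorem cf_dvd {i j : Fin (k + 2)} (h : i ≠ j) :
    cf i j ∣ (((k + 1).factorial ^ 2 : ℕ) : ℤ) := by
  rw [sq, Nat.cast_mul]
  refine mul_dvd_mul (df_dvd h) ?_
  unfold sc
  split_ifs
  · exact one_dvd _
  · exact dvd_rfl

theorem pt_bd (h : M' ≤ M) (h1 : 1 ≤ M) (i : Fin (k + 2)) (y : Fin (k + 1) → Fin M × Fin M') :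
    |pt i y| ≤ (2 * (k + 1) ^ 2 * (k + 1).factorial * M : ℕ) := by
  have h2 : ∀ l, |cf i (i.succAbove l) * vl (i.succAbove l) (y l)| ≤
      (k + 1) * (k + 1).factorial * M := fun l => by
    rw [cf, abs_mul, abs_mul, abs_of_nonneg (vl_bd h _ _).1,
      abs_of_nonneg (zero_le_one.trans (sc_pos _).1)]
    exact mul_le_mul (mul_le_mul (df_bd _ _) (sc_pos _).2 (zero_le_one.trans (sc_pos _).1)
      (by positivity)) (vl_bd h _ _).2 (vl_bd h _ _).1 (by positivity)
  have h3 := (abs_sum_le_sum_abs _ _).trans (sum_le_card_nsmul univ _ _ fun l _ => h2 l)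
  rw [card_univ, Fintype.card_fin, nsmul_eq_mul] at h3
  have h4 : (1 : ℤ) ≤ (k + 1) * (k + 1).factorial * M := by
    have : 0 < (k + 1) * (k + 1).factorial * M := by positivity
    exact_mod_cast this
  have h5 : ((i : ℕ) : ℤ) ≤ k + 1 := by have := i.2; omega
  refine (abs_add_le _ _).trans ?_
  rw [abs_of_nonneg (Int.natCast_nonneg _)]
  push_cast at h3 ⊢
  nlinarith

theorem pt_full (i : Fin (k + 2)) (y : Fin (k + 2) → Fin M × Fin M') :
    pt i (y ∘ i.succAbove) = -∑ j : Fin (k + 2), (j : ℕ) * (sc k j * vl j (y j)) +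
      (i : ℕ) * (1 + ∑ j, sc k j * vl j (y j)) := by
  have h : ∑ j, cf i j * vl j (y j) =
      ∑ l, cf i (i.succAbove l) * vl (i.succAbove l) (y (i.succAbove l)) := by
    rw [Fin.sum_univ_succAbove _ i, cf, sub_self, zero_mul, zero_mul, zero_add]
  unfold pt
  simp only [Function.comp_apply]
  rw [← h, mul_add, mul_sum, ← add_assoc, add_right_comm, neg_add_eq_sub, ← sum_sub_distrib,
    mul_one, add_comm]
  congr 1
  exact sum_congr rfl fun j _ => by rw [cf]; ring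

/-- the point without the last variable -/
def bs (i : Fin (k + 2)) (y : Fin (k + 1) → Fin M × Fin M') : ℤ :=
  ∑ l : Fin k, cf i (i.succAbove l.castSucc) * vl (i.succAbove l.castSucc) (y l.castSucc)

theorem pt_upd (i : Fin (k + 2)) (y : Fin (k + 1) → Fin M × Fin M') (w : Fin M × Fin M') :
    pt i (Function.update y (Fin.last k) w) = (i : ℕ) + bs i y +
      cf i (i.succAbove (Fin.last k)) * vl (i.succAbove (Fin.last k)) w := by
  rw [pt, Fin.sum_univ_castSucc, Function.update_self, add_assoc, bs]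
  congr 2
  exact sum_congr rfl fun l _ => by rw [Function.update_of_ne (Fin.castSucc_ne_last l)]

theorem bs_df {i : Fin (k + 2)} (hi : i ≠ Fin.last (k + 1)) (y y' : Fin (k + 1) → Fin M × Fin M') :
    ∃ s : ℤ, |s| ≤ ((k + 1) ^ 2 * (k + 1).factorial * M' : ℕ) ∧
      bs i y = bs i y' + cf i (Fin.last (k + 1)) * s := by
  obtain ⟨D, hD⟩ := df_dvd hi
  have h0 : ((i : ℕ) - (Fin.last (k + 1) : ℕ) : ℤ) ≠ 0 := by
    have h2 : (i : ℕ) ≠ Fin.last (k + 1) := fun e => hi (Fin.ext e)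
    omega
  have h1 : |D| ≤ (k + 1).factorial := by
    have h := Int.le_of_dvd (by exact_mod_cast Nat.factorial_pos (k + 1))
      ((abs_dvd _ _).2 (Dvd.intro_left _ hD.symm))
    exact h
  have h2 : ∀ l : Fin k, i.succAbove l.castSucc ≠ Fin.last (k + 1) := fun l => by
    rw [← Fin.succAbove_ne_last_last hi]
    exact fun e => Fin.castSucc_ne_last l (Fin.succAbove_right_injective e)
  refine ⟨D * ∑ l : Fin k, ((i : ℕ) - (i.succAbove l.castSucc : ℕ) : ℤ) *
    (((y l.castSucc).2 : ℕ) - ((y' l.castSucc).2 : ℕ) : ℤ), ?_, ?_⟩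
  · have h3 : ∀ l : Fin k, |((i : ℕ) - (i.succAbove l.castSucc : ℕ) : ℤ) *
        (((y l.castSucc).2 : ℕ) - ((y' l.castSucc).2 : ℕ) : ℤ)| ≤ (k + 1) * M' := fun l => by
      rw [abs_mul]
      refine mul_le_mul (df_bd _ _) ?_ (abs_nonneg _) (by positivity)
      have h4 := (y l.castSucc).2.2
      have h5 := (y' l.castSucc).2.2
      rw [abs_le]
      omega
    have h4 := (abs_sum_le_sum_abs _ _).trans (sum_le_card_nsmul univ _ _ fun l _ => h3 l)
    rw [card_univ, Fintype.card_fin, nsmul_eq_mul] at h4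
    rw [abs_mul]
    refine (mul_le_mul h1 h4 (abs_nonneg _) (by positivity)).trans ?_
    have h5 : (0 : ℤ) ≤ (k + 1).factorial * ((k + 1) * M') := by positivity
    push_cast
    nlinarith
  · rw [cf, sc, if_pos rfl, mul_one, ← mul_assoc, ← hD, mul_sum, bs, bs, ← sum_add_distrib]
    exact sum_congr rfl fun l _ => by
      rw [cf, sc, vl, vl, if_neg (h2 l), if_neg (h2 l), if_neg (h2 l)]; ring

theorem floor_bd {x : ℝ} (h : 1 ≤ x) : 1 ≤ ⌊x⌋₊ ∧ (⌊x⌋₊ : ℝ) ≤ x ∧ x ≤ 2 * ⌊x⌋₊ := by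
  have h1 : 1 ≤ ⌊x⌋₊ := Nat.le_floor (by exact_mod_cast h)
  have h2 := Nat.lt_floor_add_one x
  have h3 : (1 : ℝ) ≤ ⌊x⌋₊ := by exact_mod_cast h1
  exact ⟨h1, Nat.floor_le (by linarith), by linarith⟩

/-- the choice of the two scales -/
theorem scales {η K X E : ℝ} {N : ℕ} (hη : 0 < η) (hη1 : η ≤ 1) (hK : 1 ≤ K) (hX : 0 ≤ X)
    (hE : 8 * K ^ 2 / η ^ 2 * Real.exp X ≤ E) (hN : E ≤ N) :
    ∃ M M' : ℕ, 1 ≤ M' ∧ M' ≤ M ∧ 2 * (K * M) ≤ η * N ∧ K * M' * Real.exp X ≤ η * M ∧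
      N ≤ M' * E := by
  have h1 : 1 ≤ Real.exp X := Real.one_le_exp hX
  have h2 : 8 * K ^ 2 * Real.exp X ≤ η ^ 2 * E := by
    rw [div_mul_eq_mul_div, div_le_iff₀ (by positivity)] at hE
    linarith
  have h3 : 8 * K ^ 2 * Real.exp X ≤ η ^ 2 * N := h2.trans (by gcongr)
  have hN0 : (0 : ℝ) ≤ N := Nat.cast_nonneg N
  have h4 : η ^ 2 * N ≤ η * N := by nlinarith [mul_nonneg hη.le hN0]
  obtain ⟨a1, a2, a3⟩ := floor_bd (x := η * N / (2 * K)) (by
    rw [le_div_iff₀ (by positivity)]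
    nlinarith [mul_le_mul_of_nonneg_left h1 (sq_nonneg K)])
  generalize ⌊η * N / (2 * K)⌋₊ = M at a1 a2 a3
  rw [le_div_iff₀ (by positivity)] at a2
  rw [div_le_iff₀ (by positivity)] at a3
  have hM0 : (0 : ℝ) ≤ M := Nat.cast_nonneg M
  have h5 : K * Real.exp X ≤ η * M := by
    apply le_of_mul_le_mul_left _ (show 0 < 4 * K by positivity)
    nlinarith [mul_le_mul_of_nonneg_left a3 hη.le, mul_nonneg (sq_nonneg K) (Real.exp_pos X).le]
  obtain ⟨b1, b2, b3⟩ := floor_bd (x := η * M / (K * Real.exp X)) (by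
    rw [le_div_iff₀ (by positivity)]; linarith)
  generalize ⌊η * M / (K * Real.exp X)⌋₊ = M' at b1 b2 b3
  rw [le_div_iff₀ (by positivity)] at b2
  rw [div_le_iff₀ (by positivity)] at b3
  have hM1 : (0 : ℝ) ≤ M' := Nat.cast_nonneg M'
  have h6 : 1 ≤ K * Real.exp X := one_le_mul_of_one_le_of_one_le hK h1
  refine ⟨M, M', b1, ?_, by linarith, by linarith, ?_⟩
  · have h : (M' : ℝ) ≤ M := by nlinarith [mul_le_mul_of_nonneg_left h6 hM1]
    exact_mod_cast h
  · apply le_of_mul_le_mul_left _ (show 0 < η ^ 2 by positivity)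
    have h7 := mul_le_mul_of_nonneg_left a3 hη.le
    have h8 := mul_le_mul_of_nonneg_left b3 (show 0 ≤ 4 * K by positivity)
    have h9 := mul_le_mul_of_nonneg_left h2 hM1
    nlinarith

end St1

open St1

theorem st1 (hH : HGA) (hP : PUSH) : ST1 := by
  intro k hk
  obtain ⟨η₀, h0, h0', C₀, hC⟩ := hH k hk
  obtain ⟨η, hη⟩ : ∃ η : ℝ, η = η₀ / (4 * (k + 2)) := ⟨_, rfl⟩
  have hk0 : (0 : ℝ) ≤ k := Nat.cast_nonneg k
  have e1 : 4 * (k + 2) * η = η₀ := by rw [hη]; field_simp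
  have η0 : 0 < η := by rw [hη]; positivity
  have η1 : 2 * η ≤ η₀ := by nlinarith
  obtain ⟨K, hK⟩ : ∃ K : ℕ, K = 2 * (k + 1) ^ 2 * (k + 1).factorial := ⟨_, rfl⟩
  have K1 : (1 : ℝ) ≤ K := by
    have : 0 < K := by rw [hK]; positivity
    exact_mod_cast this
  refine ⟨η, η0, by linarith, C₀ + 2 + ⌈8 * (K : ℝ) ^ 2 / η ^ 2⌉₊,
    fun X α N A hX hN hA hF hα e => ?_⟩
  have c1 := Nat.le_ceil (8 * (K : ℝ) ^ 2 / η ^ 2)
  generalize ⌈8 * (K : ℝ) ^ 2 / η ^ 2⌉₊ = c at hX hN c1 ⊢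
  have c0 : (0 : ℝ) ≤ c := Nat.cast_nonneg c
  have C0 : (0 : ℝ) ≤ C₀ := Nat.cast_nonneg C₀
  push_cast at hX
  have X2 : 2 ≤ X := by linarith
  have X3 : c + X ≤ X ^ (C₀ + 2 + c) :=
    le_trans (by nlinarith) (pw_le (by linarith) (show 2 ≤ C₀ + 2 + c by omega))
  have α0 : 0 < α := (Real.exp_pos _).trans_le hα
  have α1 : 1 / α ≤ Real.exp X := by
    rw [div_le_iff₀ α0]
    have h := mul_le_mul_of_nonneg_left hα (Real.exp_pos X).le
    rwa [← Real.exp_add, add_neg_cancel, Real.exp_zero] at h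
  have fb : ∀ x, 0 ≤ ind A α x ∧ ind A α x ≤ Real.exp X := fun x =>
    ⟨(ind_bd A α0 x).1, (ind_bd A α0 x).2.trans α1⟩
  obtain ⟨M, M', m1, m2, m3, m4, m5⟩ := scales (X := X) (N := N) η0 (by linarith) K1 (by linarith)
    (E := Real.exp (X ^ (C₀ + 2 + c))) (by
      refine le_trans ?_ (Real.exp_le_exp.2 X3)
      rw [Real.exp_add]
      exact mul_le_mul_of_nonneg_right (by linarith [Real.add_one_le_exp (c : ℝ)])
        (Real.exp_pos _).le) (exp_le_of_log (by positivity) hN)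
  haveI : NeZero M' := ⟨by omega⟩
  haveI : NeZero M := ⟨by omega⟩
  have mj : ∀ j : Fin (k + 2), 1 ≤ Mj M M' j ∧
      (N : ℝ) ≤ Mj M M' j * Real.exp (X ^ (C₀ + 2 + c)) := fun j => by
    have h : M' ≤ Mj M M' j := by unfold Mj; split_ifs <;> omega
    exact ⟨by omega, m5.trans (by gcongr)⟩
  refine or_iff_not_imp_left.2 fun hn => ?_
  have ub : ∀ (x d : ℤ) (j : Fin (k + 2)), d ≠ 0 →
      𝔼 z ∈ rg (Mj M M' j), ind A α (x + d * z) ≤ 1 + η := by
    have h : ∀ (x : ℤ) (d : ℕ) (j : Fin (k + 2)), 1 ≤ d →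
        𝔼 z ∈ rg (Mj M M' j), ind A α (x + d * z) ≤ 1 + η := fun x d j hd =>
      (not_le.1 fun h => hn ⟨x, d, _, hd, (mj j).1, (mj j).2, h⟩).le
    intro x d j hd
    obtain ⟨n, rfl | rfl⟩ := Int.eq_nat_or_neg d
    · exact h x n j (by omega)
    · rw [refl]
      refine le_of_eq_of_le (expect_congr rfl fun z _ => ?_)
        (h (x - n * (Mj M M' j - 1)) n j (by omega))
      congr 1
      ring
  have G : ∀ (x : ℤ) (i : Fin (k + 2)) (y : Fin (k + 1) → Fin M × Fin M'),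
      𝔼 w, ind A α (x + pt i (Function.update y (Fin.last k) w)) =
        𝔼 z ∈ rg (Mj M M' (i.succAbove (Fin.last k))),
          ind A α (x + (i : ℕ) + bs i y + cf i (i.succAbove (Fin.last k)) * z) := fun x i y => by
    rw [← vl_exp]
    exact expect_congr rfl fun w _ => by rw [pt_upd, ← add_assoc, ← add_assoc]
  have R : ∀ h : (Fin (k + 1) → Fin M × Fin M') → ℝ,
      𝔼 y, h y = 𝔼 y, 𝔼 w, h (Function.update y (Fin.last k) w) := fun h => by
    have h1 := Gh.resample (fun _ : Fin (k + 1) => (univ : Finset (Fin M × Fin M'))) (Fin.last k) h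
    rwa [Fintype.piFinset_univ] at h1
  have up : ∀ (x : ℤ) (i : Fin (k + 2)),
      𝔼 y : Fin (k + 1) → Fin M × Fin M', ind A α (x + pt i y) ≤ 1 + η := fun x i => by
    rw [R]
    exact expect_le univ_nonempty fun y _ =>
      (G x i y).trans_le (ub _ _ _ (cf_ne (Fin.succAbove_ne i _).symm))
  have lo : ∀ i : Fin (k + 2), (N : ℝ) ≤ ∑ x ∈ Ico (-(K * M : ℕ) : ℤ) (N + (K * M : ℕ)),
      𝔼 y : Fin (k + 1) → Fin M × Fin M', ind A α (x + pt i y) := fun i => by
    rw [← expect_sum_comm]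
    exact le_expect univ_nonempty fun y _ => tot α0 hA e (hK ▸ pt_bd m2 (by omega) i y)
  have hc : ((Ico (-(K * M : ℕ) : ℤ) (N + (K * M : ℕ))).card : ℝ) = N + 2 * (K * M) := by
    have h : (Ico (-(K * M : ℕ) : ℤ) (N + (K * M : ℕ))).card = N + 2 * (K * M) := by
      rw [Int.card_Ico]; omega
    rw [h]; push_cast; ring
  have N0 : (0 : ℝ) < N := (Real.exp_pos _).trans_le (exp_le_of_log (by positivity) hN)
  obtain ⟨x, -, hx⟩ := exists_le_of_sum_le (s := Ico (-(K * M : ℕ) : ℤ) (N + (K * M : ℕ)))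
    (f := fun x => ∑ i : Fin (k + 2),
      (1 + η - 𝔼 y : Fin (k + 1) → Fin M × Fin M', ind A α (x + pt i y)))
    (g := fun _ => η₀ / 2) (card_pos.1 (by
      have : (0 : ℝ) < N + 2 * (K * M) := by positivity
      rw [← hc] at this
      exact_mod_cast this)) (by
      rw [sum_comm, sum_const, nsmul_eq_mul, hc]
      refine (sum_le_card_nsmul univ _ (2 * η * (N + 2 * (K * M))) fun i _ => ?_).trans ?_
      · rw [sum_sub_distrib, sum_const, nsmul_eq_mul, hc]
        have h1 := lo i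
        have h2 : (0 : ℝ) ≤ K * M := by positivity
        nlinarith [mul_nonneg η0.le h2]
      · rw [card_univ, Fintype.card_fin, nsmul_eq_mul, ← e1]
        push_cast
        exact le_of_eq (by ring))
  have gd : ∀ i : Fin (k + 2), 1 + η - η₀ / 2 ≤
      𝔼 y : Fin (k + 1) → Fin M × Fin M', ind A α (x + pt i y) := fun i => by
    have h := single_le_sum (f := fun i : Fin (k + 2) =>
      1 + η - 𝔼 y : Fin (k + 1) → Fin M × Fin M', ind A α (x + pt i y))
      (fun i _ => sub_nonneg.2 (up x i)) (mem_univ i)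
    linarith
  refine (hC X (Fin M × Fin M') (fun i y => ind A α (x + pt i y))
    (by linarith) (fun i y => fb _) (fun i hi y => ?_) (by linarith [gd (Fin.last (k + 1))])
    ?_).elim fun i hi => ?_
  rotate_left 2
  · obtain ⟨p, p1, p2, p3⟩ := hi
    refine ⟨x + (i : ℕ), p, fun l => Mj M M' (i.succAbove l), fun l => cf i (i.succAbove l), p1,
      p2.trans (pw_le (by linarith) (by omega)), fun l => cf_dvd (Fin.succAbove_ne i l).symm,
      fun l => (mj _).2, ?_⟩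
    rw [← hP (Fin M × Fin M') ℤ (k + 1) (fun _ => univ) _ (fun l => vl (i.succAbove l)) _ _
      fun l h => vl_exp _ h]
    refine (pow_le_pow_left₀ (by linarith) (by linarith) _).trans (p3.trans_eq ?_)
    simp only [pt, add_assoc]
  · have h1 := gd i
    rw [R] at h1
    obtain ⟨y', -, h2⟩ := exists_le_of_le_expect univ_nonempty h1
    obtain ⟨s, s1, s2⟩ := bs_df hi y y'
    rw [G, Fin.succAbove_ne_last_last hi, Mj, if_pos rfl, rg_exp] at h2 ⊢
    have h3 := shift M (fun z => ind A α (x + (i : ℕ) + bs i y' + cf i (Fin.last (k + 1)) * z))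
      (fun z => fb _) s
    have M0 : (0 : ℝ) < M := by exact_mod_cast (show 0 < M by omega)
    rw [le_div_iff₀ M0] at h2 ⊢
    have h4 : 2 * |(s : ℝ)| ≤ K * M' := by
      have h : 2 * |s| ≤ (K * M' : ℕ) := by rw [hK]; push_cast at s1 ⊢; linarith
      exact_mod_cast h
    have h5 := mul_le_mul_of_nonneg_right h4 (Real.exp_pos X).le
    refine le_trans ?_ (h3.trans_eq (sum_congr rfl fun w _ => by rw [s2]; congr 1; ring))
    nlinarith [mul_pos η0 M0]
  · refine le_of_eq_of_le (expect_eq_zero fun y _ => ?_) (by norm_num)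
    by_contra h
    refine hF (x - ∑ j : Fin (k + 2), (j : ℕ) * (sc k j * vl j (y j)))
      (1 + ∑ j, sc k j * vl j (y j)) ?_ fun n hn => ?_
    · exact add_pos_of_pos_of_nonneg one_pos (sum_nonneg fun j _ =>
        mul_nonneg (zero_le_one.trans (sc_pos j).1) (vl_bd m2 j _).1)
    · have h1 := prod_ne_zero_iff.1 h ⟨n, hn⟩ (mem_univ _)
      rw [pt_full, ← add_assoc, ← sub_eq_add_neg] at h1
      by_contra h2
      exact h1 (if_neg h2)

end

end Vale.Agent.P057L
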