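import Vale.Agent.P057L.Bas
import Vale.Agent.P057L.Bogz
import Vale.Agent.P057L.Box3
import Vale.Agent.P057L.Ch
import Vale.Agent.P057L.Core0
import Vale.Agent.P057L.Covr
import Vale.Agent.P057L.Cpy
import Vale.Agent.P057L.Crq
import Vale.Agent.P057L.Cs2
import Vale.Agent.P057L.Drp1
import Vale.Agent.P057L.Exd
import Vale.Agent.P057L.Exg
import Vale.Agent.P057L.Fact
import Vale.Agent.P057L.Gfac
import Vale.Agent.P057L.Gh
import Vale.Agent.P057L.Hga
import Vale.Agent.P057L.Idx
import Vale.Agent.P057L.Inc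
import Vale.Agent.P057L.Ker
import Vale.Agent.P057L.Kha
import Vale.Agent.P057L.Khb
import Vale.Agent.P057L.Km1
import Vale.Agent.P057L.Mono
import Vale.Agent.P057L.Nrm
import Vale.Agent.P057L.Pair
import Vale.Agent.P057L.Pet
import Vale.Agent.P057L.Pet2
import Vale.Agent.P057L.Poor
import Vale.Agent.P057L.Prune
import Vale.Agent.P057L.Rec0
import Vale.Agent.P057L.Rec1
import Vale.Agent.P057L.S1
import Vale.Agent.P057L.Sch
import Vale.Agent.P057L.Sgg
import Vale.Agent.P057L.Sift
import Vale.Agent.P057L.Slc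
import Vale.Agent.P057L.St1
import Vale.Agent.P057L.Step
import Vale.Agent.P057L.Stz
import Vale.Agent.P057L.Van
import Vale.Agent.P057L.Ven
import Vale.Agent.P057L.Weyl
import Vale.Agent.P057L.Win

/-! Assembly of the blocks. -/

namespace Vale.Agent.P057L.All

theorem recs : ∀ r, REC r
  | 0 => rec0
  | r + 1 => rec1 r (recs r)

theorem seq0 : SEQ := seq (exd exg)

theorem pet0 : PET :=
  pet (poor bas) (pet1 bas bogz (extb (exta stz idx))) (pet2 van (covr ker crq)) (fact crq) cs2 seq0

theorem kh : ∀ j m, 1 ≤ m → KH j m :=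
  khall (kh0 (sch ker weyl)) (kha bas win pet0 lin) (khb bas win (slc bas prune))

theorem of3 (hD : DRP1 → COV → DROP) (hC : WIN → CST) (hT : PAIR → TAIL) : RESULT :=
  res (bnd (inc (start (st1 (hga (hT (pair (core0 recs))) (sgg gh)) push) (nrm loc push))
    (down (step gfac (s1 loc sift km1) (hD (drp1 box3) (cov (ch exg))) (vec (ven (hyb_of prune)) seq0)
      (fun j => kh j 1 le_rfl) (hC win) (cpy gh mono)))))

end Vale.Agent.P057L.All
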