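import Vale.Agent.P057Z.Sk
import Vale.Agent.P057Z.Fr.Sk2

/-! Definitions and block statements for the bound on sets without k term progressions
(local route, note 4207). -/

set_option linter.all false

open Finset
open scoped BigOperators

namespace Vale.Agent.P057L

open Vale.Agent.P057Z

noncomputable section

abbrev Vz (q : ℕ) := Fin q → ℤ
abbrev Pt (j q : ℕ) := Fin j → Fin q → ℤ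

def rg (N : ℕ) : Finset ℤ := Ico (0 : ℤ) N
def sy (N : ℕ) : Finset ℤ := Ioo (-(N : ℤ)) N
def bz (q N : ℕ) : Finset (Vz q) := Fintype.piFinset fun _ => rg N
def sz (q N : ℕ) : Finset (Vz q) := Fintype.piFinset fun _ => sy N
def bp (j q N : ℕ) : Finset (Pt j q) := Fintype.piFinset fun _ => bz q N

variable {j q : ℕ} {H : Type} [AddCommGroup H]

/-- dense subset of the box -/
def Dn (Ω : Finset (Pt j q)) (N : ℕ) (Y : ℝ) : Prop :=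
  Ω ⊆ bp j q N ∧ Real.exp (-Y) * (N : ℝ) ^ (j * q) ≤ Ω.card

/-- all relations of six terms hold on S -/
def R6 {G : Type} [AddCommGroup G] (g : G → H) (S : Finset G) : Prop :=
  ∀ s t : Fin 6 → G, (∀ a, s a ∈ S) → (∀ a, t a ∈ S) → ∑ a, s a = ∑ a, t a →
    ∑ a, g (s a) = ∑ a, g (t a)

/-- Freiman homomorphism of order six in the vector variable i -/
def MHi (φ : Pt j q → H) (Ω : Finset (Pt j q)) (i : Fin j) : Prop :=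
  ∀ (W : Pt j q) (s t : Fin 6 → Vz q), (∀ a, Function.update W i (s a) ∈ Ω) →
    (∀ a, Function.update W i (t a) ∈ Ω) → ∑ a, s a = ∑ a, t a →
    ∑ a, φ (Function.update W i (s a)) = ∑ a, φ (Function.update W i (t a))

def MH (φ : Pt j q → H) (Ω : Finset (Pt j q)) : Prop := ∀ i, MHi φ Ω i

/-- a respected parallelogram -/
def Pg {G : Type} [AddCommGroup G] (φ : G → H) (Ω : Finset G) (W a b : G) : Prop :=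
  W ∈ Ω ∧ W + a ∈ Ω ∧ W + b ∈ Ω ∧ W + a + b ∈ Ω ∧ φ W + φ (W + a + b) = φ (W + a) + φ (W + b)

/-- a vector in the class i -/
def ev (i : Fin j) (a : Vz q) : Pt j q := Pi.single i a

/-- a vector along one copy -/
def e1 (i : Fin j) (l : Fin q) (a : ℤ) : Pt j q := Pi.single i (Pi.single l a)

open Classical in
/-- energy in the vector variable i -/
def env (φ : Pt j q → H) (Ω : Finset (Pt j q)) (N : ℕ) (i : Fin j) : ℝ :=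
  (((Ω ×ˢ sz q N ×ˢ sz q N).filter fun p => Pg φ Ω p.1 (ev i p.2.1) (ev i p.2.2)).card : ℝ) /
    (N : ℝ) ^ (j * q + 2 * q)

open Classical in
/-- energy along two copies of the class i -/
def ens (φ : Pt j q → H) (Ω : Finset (Pt j q)) (N : ℕ) (i : Fin j) (l l' : Fin q) : ℝ :=
  (((Ω ×ˢ sy N ×ˢ sy N).filter fun p => Pg φ Ω p.1 (e1 i l p.2.1) (e1 i l' p.2.2)).card : ℝ) /
    (N : ℝ) ^ (j * q + 2)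

/-- all parallelograms along two copies are respected -/
def Pr (φ : Pt j q → H) (Ω : Finset (Pt j q)) (i : Fin j) (l l' : Fin q) : Prop :=
  ∀ (W : Pt j q) (a b : ℤ), W ∈ Ω → W + e1 i l a ∈ Ω → W + e1 i l' b ∈ Ω →
    W + e1 i l a + e1 i l' b ∈ Ω →
    φ W + φ (W + e1 i l a + e1 i l' b) = φ (W + e1 i l a) + φ (W + e1 i l' b)

/-- local coordinates -/
def lc (W0 : Pt j q) (d : ℕ) (t : Pt j q) : Pt j q := W0 + (d : ℤ) • t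

open Classical in
def pre (Ω : Finset (Pt j q)) (W0 : Pt j q) (d L : ℕ) : Finset (Pt j q) :=
  (bp j q L).filter fun t => lc W0 d t ∈ Ω

/-- L is at least the power 1 / Y of N -/
def Lg (N L : ℕ) (Y : ℝ) : Prop := 1 ≤ L ∧ Real.log N ≤ Y * Real.log L

/-- a point of one more class -/
def cn (y : Vz q) (x : Pt j q) : Pt (j + 1) q := Fin.cons y x

open Classical in
/-- the fibre over x -/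
def fb (Ω : Finset (Pt (j + 1) q)) (N : ℕ) (x : Pt j q) : Finset (Vz q) :=
  (bz q N).filter fun y => cn y x ∈ Ω

/-- integer vector against a family of group elements -/
def zd {α : Type} [Fintype α] (v : α → ℤ) (θ : α → H) : H := ∑ a, v a • θ a

/-- a small point of the lifted lattice -/
def Sl {κ : Type} {Q : ℕ} (γ : κ → Fin q → ZMod Q) (T : ℕ) (ρ : ℝ) (y : Vz q) (m : κ → ℤ) : Prop :=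
  (∀ l, |(y l : ℝ)| ≤ ρ * T) ∧ ∀ r, |(∑ l, ((γ r l).val : ℝ) / Q * y l) - m r| ≤ ρ

/-- small for the matrix A -/
def Sa {D D' : Type} [Fintype D] (A : D' → D → ℝ) (ρ : ℝ) (v : D → ℝ) : Prop :=
  ∀ r, |∑ d, A r d * v d| ≤ ρ

/-- linear in the first class -/
def LinS (φ : Pt (j + 1) q → H) (Ω : Finset (Pt (j + 1) q)) (Θ : Pt j q → Fin q → H) : Prop :=
  ∀ (x : Pt j q) (t t' : Vz q), cn t x ∈ Ω → cn t' x ∈ Ω →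
    φ (cn t x) - φ (cn t' x) = zd (t - t') (Θ x)

/-- the general grid average -/
def gridA {α : Type} {m : ℕ} (S : Fin m → Finset α) (p : Fin m → ℕ)
    (F : ((i : Fin m) → Fin (p i)) → (Fin m → α) → ℝ) : ℝ :=
  𝔼 W ∈ Fintype.piFinset (fun i => Fintype.piFinset fun _ : Fin (p i) => S i),
    ∏ c : (i : Fin m) → Fin (p i), F c (fun i => W i (c i))

/-- the grid with m classes of p copies for a function of the sum -/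
def grd (m p N : ℕ) (g : ℤ → ℝ) : ℝ :=
  gridA (fun _ : Fin m => rg N) (fun _ => p) (fun _ y => g (∑ i, y i))

/-- the product over the cells -/
def Gw (g : ℤ → ℝ) (W : Pt j q) (s : ℤ) : ℝ := ∏ c : Fin j → Fin q, g (s + ∑ i, W i (c i))

/-- product form along two copies -/
def Fac (G : Pt j q → ℤ → ℝ) (Bd : ℝ) (i : Fin j) (l l' : Fin q) : Prop :=
  ∀ W0 : Pt j q, ∃ (σ : ℤ) (A B : ℤ → ℤ → ℝ), (σ = 0 ∨ σ = 1) ∧ (∀ s a, |A s a| ≤ Bd) ∧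
    (∀ s b, |B s b| ≤ Bd) ∧
    ∀ a b s, G (W0 + e1 i l a + e1 i l' b) s = A (s + σ * a) a * B (s + σ * a) b

/-- the weighted excess of G W over θ -/
def exc {Q r : ℕ} (Ψ : (Fin r → ZMod Q) → ℝ) (ξ γ : Fin r → ZMod Q) (T : ℕ) (G : ℤ → ℝ)
    (θ : ℝ) : ℝ :=
  𝔼 s ∈ rg T, Ψ ((s : ZMod Q) • ξ + γ) * (G s - θ)

/-- no progression of k terms -/
def APF (k : ℕ) (A : Finset ℤ) : Prop :=
  ∀ a d : ℤ, 0 < d → ¬ ∀ i : ℕ, i < k → a + i * d ∈ A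

/-! ### Tools -/

/-- sliding windows -/
def WIN : Prop :=
  (∀ (q N L e : ℕ) (w : Vz q → ℝ), 1 ≤ L → e * L ≤ N → (∀ y, 0 ≤ w y) →
    ∃ y0 : Vz q, (∑ y ∈ bz q N, w y) * (L : ℝ) ^ q ≤
      2 ^ q * (N : ℝ) ^ q * ∑ t ∈ bz q L, w (y0 + (e : ℤ) • t)) ∧
  ∀ (j q N L e : ℕ) (w : Pt j q → ℝ), 1 ≤ L → e * L ≤ N → (∀ y, 0 ≤ w y) →
    ∃ W0 : Pt j q, (∑ y ∈ bp j q N, w y) * (L : ℝ) ^ (j * q) ≤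
      2 ^ (j * q) * (N : ℝ) ^ (j * q) * ∑ t ∈ bp j q L, w (lc W0 e t)

/-- small facts on fibres and local coordinates -/
def BAS : Prop :=
  (∀ q N : ℕ, (bz q N).card = N ^ q ∧ (sz q N).card ≤ (2 * N) ^ q) ∧
  (∀ j q N : ℕ, (bp j q N).card = N ^ (j * q)) ∧
  (∀ (j q N : ℕ) (Ω : Finset (Pt (j + 1) q)), Ω ⊆ bp (j + 1) q N →
    Ω.card = ∑ x ∈ bp j q N, (fb Ω N x).card) ∧
  (∀ (j q N : ℕ) (y : Vz q) (x : Pt j q), cn y x ∈ bp (j + 1) q N ↔ y ∈ bz q N ∧ x ∈ bp j q N) ∧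
  (∀ (j q d : ℕ) (y t : Vz q) (x u : Pt j q),
    lc (cn y x) d (cn t u) = cn (y + (d : ℤ) • t) (lc x d u)) ∧
  (∀ (j q d e : ℕ) (W0 W1 t : Pt j q), lc W0 d (lc W1 e t) = lc (lc W0 d W1) (d * e) t) ∧
  (∀ (j q d : ℕ) (H : Type) [AddCommGroup H] (φ : Pt j q → H) (Ω Ω' : Finset (Pt j q))
    (W0 : Pt j q), MH φ Ω → (∀ t ∈ Ω', lc W0 d t ∈ Ω) → MH (fun t => φ (lc W0 d t)) Ω') ∧
  (∀ (j q : ℕ) (H : Type) [AddCommGroup H] (φ : Pt (j + 1) q → H) (Ω : Finset (Pt (j + 1) q))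
    (X : Finset (Pt j q)) (y : Vz q), MH φ Ω → (∀ x ∈ X, cn y x ∈ Ω) →
    MH (fun x => φ (cn y x)) X) ∧
  ∀ (j q N : ℕ) (H : Type) [AddCommGroup H] (φ : Pt (j + 1) q → H) (Ω : Finset (Pt (j + 1) q))
    (x : Pt j q), MH φ Ω → R6 (fun y => φ (cn y x)) (fb Ω N x)

open Classical in
/-- a large subset all of whose points lie on rich lines -/
def PRUNE : Prop :=
  ∀ (n N : ℕ) (S : Finset (Vz n)), 1 ≤ n → S ⊆ bz n N → ∃ S' ⊆ S, S.card ≤ 2 * S'.card ∧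
    ∀ x ∈ S', ∀ l, (S.card : ℝ) ≤ 2 * n * (N : ℝ) ^ (n - 1) *
      ((rg N).filter fun h => Function.update x l h ∈ S').card

/-- hybrid of two points -/
def hyb {n : ℕ} (l : ℕ) (x x' : Vz n) : Vz n := fun i => if (i : ℕ) < l then x' i else x i

open Classical in
def HYB : Prop :=
  ∀ (n N : ℕ) (S : Finset (Vz n)), 1 ≤ n → 1 ≤ N → S ⊆ bz n N →
    ((S.card : ℝ) / (N : ℝ) ^ n / (2 * n)) ^ (n + 1) * (N : ℝ) ^ (2 * n) ≤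
      ((S ×ˢ S).filter fun p => ∀ l, l ≤ n → hyb l p.1 p.2 ∈ S).card

/-- Hoelder inequality for grids -/
def GH : Prop :=
  ∀ (α : Type) (m : ℕ) (S : Fin m → Finset α) (p : Fin m → ℕ)
    (F : ((i : Fin m) → Fin (p i)) → (Fin m → α) → ℝ), (∀ c y, 0 ≤ F c y) →
    gridA S p F ^ (∏ i, p i) ≤ ∏ c, gridA S p (fun _ => F c)

/-- more copies -/
def MONO : Prop :=
  ∀ (α : Type) (m : ℕ) (S : Fin m → Finset α) (p p' : Fin m → ℕ) (F : (Fin m → α) → ℝ) (θ : ℝ),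
    (∀ i, (S i).Nonempty) → (∀ y, 0 ≤ F y) → 0 ≤ θ → (∀ i, 1 ≤ p i ∧ p i ≤ p' i) →
    θ ^ (∏ i, p i) ≤ gridA S p (fun _ => F) → θ ^ (∏ i, p' i) ≤ gridA S p' (fun _ => F)

/-- localisation of one class -/
def LOC : Prop :=
  ∀ (α β : Type) (m : ℕ) (S : Fin m → Finset α) (p : Fin m → ℕ) (F : (Fin m → α) → ℝ) (i : Fin m)
    (O : Finset β) (P : β → Finset α) (B : ℝ), (∀ y, 0 ≤ F y) → 1 ≤ p i → O.Nonempty → 0 ≤ B →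
    (∀ h : α → ℝ, (∀ y, 0 ≤ h y) → 𝔼 y ∈ S i, h y ≤ B * 𝔼 o ∈ O, 𝔼 y ∈ P o, h y) →
    ∃ o ∈ O, gridA S p (fun _ => F) ≤ B ^ p i * gridA (Function.update S i (P o)) p (fun _ => F)

/-- a positive definite kernel -/
def KER : Prop :=
  ∀ (Q : ℕ) [Fact Q.Prime] (ι α : Type) [Fintype ι] [DecidableEq ι] (s : Finset α)
    (u : α → ι → ZMod Q) (ρ δ : ℝ) (K0 : ℕ), s.Nonempty → 0 < ρ →
    ρ * (4 * Fintype.card ι + 4) ≤ 1 → (4 * Fintype.card ι + 8) / ρ ^ 2 ≤ K0 → 0 ≤ δ →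
    4 * δ * (K0 : ℝ) ^ Fintype.card ι ≤ 1 →
    (∀ k ∈ Sm ι K0, -δ ≤ (𝔼 e ∈ s, ch (cs Q k ⬝ᵥ u e)).re) →
    δ * s.card ≤ (open Classical in (s.filter fun e => ∀ i, nm (u e i) ≤ ρ).card)

/-- a subfamily with a small dual family, over the integers -/
def CRQ : Prop :=
  ∀ (κ α : Type) [Fintype κ] [DecidableEq κ] [Fintype α] (f : α → κ → ℤ) (Hh : ℕ), 1 ≤ Hh →
    (∀ a r, |f a r| ≤ Hh) →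
    ∃ (t : ℕ) (sel : Fin t → α) (w : Fin t → κ → ℤ) (D0 : ℤ), t ≤ Fintype.card κ ∧ D0 ≠ 0 ∧
      |D0| ≤ ((Fintype.card κ).factorial * Hh ^ Fintype.card κ : ℕ) ∧
      (∀ i r, |w i r| ≤ ((Fintype.card κ).factorial * Hh ^ Fintype.card κ : ℕ)) ∧
      (∀ i i', f (sel i) ⬝ᵥ w i' = if i = i' then D0 else 0) ∧
      ∀ a, D0 • f a = ∑ i, (w i ⬝ᵥ f a) • f (sel i)

/-! ### From energy to exact homomorphisms -/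

open Classical in
def EXG : Prop :=
  ∃ C : ℕ, ∀ (Y : ℝ) (n N Q : ℕ) [Fact Q.Prime] (ι : Type) [Fintype ι] [DecidableEq ι]
    (g : Vz n → ι → ZMod Q) (S : Finset (Vz n)), (C : ℝ) ≤ Y → (n : ℝ) ≤ Y → 1 ≤ N → S ⊆ bz n N →
    Real.exp (-Y) * (N : ℝ) ^ (3 * n) ≤
      ((S ×ˢ sz n N ×ˢ sz n N).filter fun p => Pg g S p.1 p.2.1 p.2.2).card →
    ∃ S' ⊆ S, Real.exp (-Y ^ C) * (N : ℝ) ^ n ≤ S'.card ∧ R6 g S'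

def EXD : Prop :=
  ∀ j : ℕ, ∃ C : ℕ, ∀ (Y : ℝ) (q N Q : ℕ) [Fact Q.Prime] (ι : Type) [Fintype ι] [DecidableEq ι]
    (φ : Pt j q → ι → ZMod Q) (Ω : Finset (Pt j q)) (i : Fin j), (C : ℝ) ≤ Y → (q : ℝ) ≤ Y →
    1 ≤ N → Ω ⊆ bp j q N → Real.exp (-Y) ≤ env φ Ω N i →
    ∃ E ⊆ Ω, Dn E N (Y ^ C) ∧ MHi φ E i

def SEQ : Prop :=
  ∀ j : ℕ, ∃ C : ℕ, ∀ (Y : ℝ) (q N Q A : ℕ) [Fact Q.Prime] (ι : Type) [Fintype ι] [DecidableEq ι]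
    (φ : Pt j q → ι → ZMod Q) (Ω : Finset (Pt j q)), (C : ℝ) ≤ Y → (q : ℝ) ≤ Y → (A : ℝ) ≤ Y →
    1 ≤ N → Dn Ω N Y →
    (∀ E ⊆ Ω, ∀ i, Real.exp (-Y) * ((E.card : ℝ) / (N : ℝ) ^ (j * q)) ^ A ≤ env φ E N i) →
    ∃ E ⊆ Ω, Dn E N (Y ^ C) ∧ MH φ E

def VEN : Prop :=
  ∃ C : ℕ, ∀ (Y : ℝ) (j q N : ℕ) (H : Type) [AddCommGroup H] (φ : Pt j q → H)
    (E : Finset (Pt j q)) (i : Fin j), (C : ℝ) ≤ Y → 1 ≤ q → (q : ℝ) ≤ Y → 1 ≤ N →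
    E ⊆ bp j q N → (∀ l l', Pr φ E i l l') →
    Real.exp (-Y ^ C) * ((E.card : ℝ) / (N : ℝ) ^ (j * q)) ^ ((q + 1) ^ 2) ≤ env φ E N i

def VEC : Prop :=
  ∀ j : ℕ, ∃ C : ℕ, ∀ (Y : ℝ) (q N Q : ℕ) [Fact Q.Prime] (ι : Type) [Fintype ι] [DecidableEq ι]
    (φ : Pt j q → ι → ZMod Q) (Ω : Finset (Pt j q)), (C : ℝ) ≤ Y → 1 ≤ q → (q : ℝ) ≤ Y →
    1 ≤ N → Dn Ω N Y → (∀ i l l', Pr φ Ω i l l') → ∃ E ⊆ Ω, Dn E N (Y ^ C) ∧ MH φ E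

open Classical in
def CS2 : Prop :=
  ∃ C : ℕ, ∀ (Y : ℝ) (j q N : ℕ) (H : Type) [AddCommGroup H] (ψ g2 g3 g4 : Pt j q → H)
    (E : Finset (Pt j q)) (i : Fin j), (C : ℝ) ≤ Y → (q : ℝ) ≤ Y → 1 ≤ N → E ⊆ bp j q N →
    (∀ x ∈ E, Real.exp (-Y) * (N : ℝ) ^ (2 * q) ≤ ((sz q N ×ˢ sz q N).filter fun p =>
      ψ x = g2 (x + ev i p.1) + g3 (x + ev i p.2) + g4 (x + ev i p.1 + ev i p.2)).card) →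
    Real.exp (-Y ^ C) * ((E.card : ℝ) / (N : ℝ) ^ (j * q)) ^ 4 ≤ env ψ E N i

/-! ### Dropping frequencies -/

open Classical in
def BOX3 : Prop :=
  ∀ (Q : ℕ) [Fact Q.Prime] (α β : Type) (A : Finset α) (B : Finset β) (T : ℕ) (δ : ℝ)
    (u : α → β → ℂ) (F : ℤ → α → ℂ) (G : ℤ → β → ℂ) (ξ : α → β → ZMod Q),
    1 ≤ T → T ≤ Q → 0 < δ → δ ≤ 1 → (∀ a b, ‖u a b‖ ≤ 1) → (∀ s a, ‖F s a‖ ≤ 1) →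
    (∀ s b, ‖G s b‖ ≤ 1) →
    δ ≤ ‖𝔼 s ∈ rg T, 𝔼 a ∈ A, 𝔼 b ∈ B, u a b * F s a * G s b * ch (ξ a b * (s : ZMod Q))‖ →
    δ ^ 8 * T / (8 * Q) * ((A.card : ℝ) ^ 2 * (B.card : ℝ) ^ 2) ≤
      (((A ×ˢ A) ×ˢ B ×ˢ B).filter fun p => u p.1.1 p.2.1 ≠ 0 ∧ u p.1.2 p.2.1 ≠ 0 ∧
        u p.1.1 p.2.2 ≠ 0 ∧ u p.1.2 p.2.2 ≠ 0 ∧
        ξ p.1.1 p.2.1 + ξ p.1.2 p.2.2 = ξ p.1.2 p.2.1 + ξ p.1.1 p.2.2).card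

def GFAC : Prop :=
  ∀ (j q : ℕ) (g : ℤ → ℝ) (M : ℝ) (x0 : ℤ) (i : Fin j) (l l' : Fin q), 1 ≤ M →
    (∀ x, 0 ≤ g x ∧ g x ≤ M) → Fac (fun W s => Gw g W (x0 + s)) (M ^ (q ^ j)) i l l'

def DRP1 : Prop :=
  ∀ j : ℕ, ∃ C : ℕ, ∀ (Y Bd : ℝ) (q N T Q : ℕ) [Fact Q.Prime] (ψ : Pt j q → ZMod Q)
    (U : Finset (Pt j q)) (u : Pt j q → ℂ) (G : Pt j q → ℤ → ℝ) (i : Fin j) (l l' : Fin q),
    (C : ℝ) ≤ Y → (q : ℝ) ≤ Y → 1 ≤ T → T ≤ N → N ≤ T * Real.exp Y → 2 * N ≤ Q →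
    Q ≤ N * Real.exp Y → 0 < Bd → U ⊆ bp j q N → (∀ W, ‖u W‖ ≤ 1) → Fac G Bd i l l' →
    Real.exp (-Y) * Bd ^ 2 * (N : ℝ) ^ (j * q) ≤
      ‖∑ W ∈ U, u W * 𝔼 s ∈ rg T, (G W s : ℂ) * ch (ψ W * (s : ZMod Q))‖ →
    Real.exp (-Y ^ C) ≤ ens ψ U N i l l'

def CH : Prop :=
  ∀ j : ℕ, ∃ C : ℕ, ∀ (Y : ℝ) (q N Q : ℕ) [Fact Q.Prime] (ψ : Pt j q → ZMod Q)
    (U : Finset (Pt j q)) (i : Fin j) (l l' : Fin q), (C : ℝ) ≤ Y → 1 ≤ N → U ⊆ bp j q N →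
    Real.exp (-Y) ≤ ens ψ U N i l l' → ∃ E ⊆ U, Dn E N (Y ^ C) ∧ Pr ψ E i l l'

def COV : Prop :=
  ∀ j : ℕ, ∃ C : ℕ, ∀ (Y : ℝ) (q N Q : ℕ) [Fact Q.Prime] (ψ : Pt j q → ZMod Q)
    (i : Fin j) (l l' : Fin q), (C : ℝ) ≤ Y → 1 ≤ N →
    ∃ col : Pt j q → ℕ, (∀ W, (col W : ℝ) ≤ Real.exp (Y ^ C)) ∧
      (∀ n, n ≠ 0 → Pr ψ ((bp j q N).filter fun W => col W = n) i l l') ∧
      ∀ U ⊆ bp j q N, (∀ W ∈ U, col W = 0) → ens ψ U N i l l' < Real.exp (-Y)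

/-- the data after the almost periodicity step -/
structure In1 {Q r : ℕ} [Fact Q.Prime] (Y : ℝ) (N T : ℕ) (ρ θ : ℝ) (G : Pt j q → ℤ → ℝ)
    (ξ γ : Pt j q → Fin r → ZMod Q) (Ω : Finset (Pt j q)) : Prop where
  hr : (r : ℝ) ≤ Y
  hρ : Real.exp (-Y) ≤ ρ
  hρ1 : ρ ≤ 1
  hT : 1 ≤ T
  hTN : T ≤ N
  hNT : N ≤ T * Real.exp Y
  hNQ : 2 * N ≤ Q
  hQN : Q ≤ N * Real.exp Y
  hd : Dn Ω N Y
  hx : ∀ W ∈ Ω, Real.exp (-Y) ≤ exc (lap ρ) (ξ W) (γ W) T (G W) θ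

/-- the data after dropping -/
structure In2 {Q r t : ℕ} [Fact Q.Prime] (Y : ℝ) (N T K0 : ℕ) (ρ θ : ℝ) (G : Pt j q → ℤ → ℝ)
    (ξ γ : Pt j q → Fin r → ZMod Q) (b : Fin t → Fin r → ℤ) (Ψ : (Fin r → ZMod Q) → ℝ)
    (Ω : Finset (Pt j q)) : Prop where
  ht : t ≤ r
  hK : 1 ≤ K0
  hK' : (K0 : ℝ) ≤ Real.exp Y
  hb : ∀ i, b i ∈ Sm (Fin r) K0
  hi : LinearIndependent (ZMod Q) (fun i => cs Q (b i))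
  hl : LL (1 / ρ) Ψ
  hp : ∀ u v, (∀ i, cs Q (b i) ⬝ᵥ v = 0) → Ψ (u + v) = Ψ u
  hd : Dn Ω N Y
  hx : ∀ W ∈ Ω, Real.exp (-Y) ≤ exc Ψ (ξ W) (γ W) T (G W) θ

def DROP : Prop :=
  ∀ (j : ℕ) (ε : ℝ), 0 < ε → ε ≤ 1 / 100 → ∃ C : ℕ, ∀ (Y : ℝ) (q N T Q r : ℕ) [Fact Q.Prime]
    (ρ θ : ℝ) (G : Pt j q → ℤ → ℝ) (ξ γ : Pt j q → Fin r → ZMod Q) (Ω : Finset (Pt j q)),
    (C : ℝ) ≤ Y → (q : ℝ) ≤ Y → Y ^ C ≤ Real.log N → (∀ W s, 0 ≤ G W s ∧ G W s ≤ Real.exp Y) →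
    0 ≤ θ → θ ≤ Real.exp Y → (∀ i l l', Fac G (Real.exp Y) i l l') → In1 Y N T ρ θ G ξ γ Ω →
    ∃ (t K0 : ℕ) (b : Fin t → Fin r → ℤ) (Ψ : (Fin r → ZMod Q) → ℝ) (Ω1 : Finset (Pt j q)),
      In2 (Y ^ C) N T K0 ρ ((1 - ε) * θ) G ξ γ b Ψ Ω1 ∧
      ∀ i l l', Pr (fun W (a : Fin t) => cs Q (b a) ⬝ᵥ ξ W) Ω1 i l l'

/-! ### Recurrence -/

def WEYL : Prop :=
  ∀ m : ℕ, 1 ≤ m → ∃ C : ℕ, ∀ (Q : ℕ) [Fact Q.Prime] (E : ℕ) (δ : ℝ) (β : ZMod Q),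
    0 < δ → δ ≤ 1 / 2 → (1 / δ) ^ C ≤ (E : ℝ) →
    δ ≤ ‖𝔼 e ∈ range E, ch (β * (e : ZMod Q) ^ m)‖ →
    ∃ n : ℕ, 1 ≤ n ∧ (n : ℝ) ≤ (1 / δ) ^ C ∧ nm ((n : ZMod Q) * β) ≤ (1 / δ) ^ C / (E : ℝ) ^ m

def SCH : Prop :=
  ∀ m : ℕ, 1 ≤ m → ∃ C : ℕ, ∀ (Y : ℝ) (N Q : ℕ) [Fact Q.Prime] (ι : Type) [Fintype ι]
    [DecidableEq ι] (a : ι → ZMod Q), (C : ℝ) ≤ Y → (Fintype.card ι : ℝ) ≤ Y →
    Y ^ C ≤ Real.log N → N ≤ Q →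
    ∃ d L : ℕ, 1 ≤ d ∧ d * L ≤ N ∧ Lg N L (Y ^ C) ∧ ∀ i, nm ((d : ZMod Q) ^ m * a i) ≤ 1 / L

/-- killing a multi-homomorphism on a local box -/
def KH (j m : ℕ) : Prop :=
  ∃ C : ℕ, ∀ (Y : ℝ) (q N Q : ℕ) [Fact Q.Prime] (ι : Type) [Fintype ι] [DecidableEq ι]
    (φ : Pt j q → ι → ZMod Q) (Ω : Finset (Pt j q)), (C : ℝ) ≤ Y → 1 ≤ q → (q : ℝ) ≤ Y →
    (Fintype.card ι : ℝ) ≤ Y → Y ^ C ≤ Real.log N → N ≤ Q → Dn Ω N Y → MH φ Ω →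
    ∃ (W0 : Pt j q) (d L : ℕ) (Ω' : Finset (Pt j q)), 1 ≤ d ∧ d * L ≤ N ∧ Lg N L (Y ^ C) ∧
      Ω' ⊆ pre Ω W0 d L ∧ Dn Ω' L (Y ^ C) ∧
      ∀ t ∈ Ω', ∀ i, nm ((d : ZMod Q) ^ m * φ (lc W0 d t) i) ≤ 1 / L

/-! ### Lattices -/

/-- the lemma of Steinitz -/
def STZ : Prop :=
  ∀ (D D' : Type) [Fintype D] (A : D' → D → ℝ) (ρ : ℝ) (n : ℕ) (v : Fin n → D → ℝ), 0 ≤ ρ →
    (∀ i, Sa A ρ (v i)) → ∑ i, v i = 0 →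
    ∃ σ : Equiv.Perm (Fin n), ∀ k : ℕ,
      Sa A (Fintype.card D * ρ) (∑ i ∈ univ.filter (fun i : Fin n => (i : ℕ) < k), v (σ i))

/-- the lattice spanned by the small points has small index in its saturation -/
def IDX : Prop :=
  ∀ (D D' : Type) [Fintype D] [Fintype D'] (A : D' → D → ℝ) (ρ : ℝ) (v : D → ℤ) (n : ℕ), 0 < ρ →
    1 ≤ n → (n : ℤ) • v ∈ Submodule.span ℤ {w : D → ℤ | Sa A ρ (fun d => (w d : ℝ))} →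
    ∃ n' : ℕ, 1 ≤ n' ∧ n' ≤ (2 * Fintype.card D + 3) ^ Fintype.card D' ∧
      (n' : ℤ) • v ∈ Submodule.span ℤ {w : D → ℤ | Sa A ρ (fun d => (w d : ℝ))}

/-- a locally additive map is linear on small points -/
def EXTA : Prop :=
  ∀ (Q : ℕ) [Fact Q.Prime] (D D' ι : Type) [Fintype D] [Fintype D'] (A : D' → D → ℝ) (ρ : ℝ)
    (Φ : (D → ℤ) → ι → ZMod Q), 0 < ρ → (2 * Fintype.card D + 3) ^ Fintype.card D' < Q →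
    (∀ a b : D → ℤ, Sa A ρ (fun d => (a d : ℝ)) → Sa A ρ (fun d => (b d : ℝ)) →
      Sa A ρ (fun d => ((a + b) d : ℝ)) → Φ (a + b) = Φ a + Φ b) →
    ∃ T : D → ι → ZMod Q, ∀ v : D → ℤ, Sa A (ρ / (Fintype.card D + 1)) (fun d => (v d : ℝ)) →
      Φ v = zd v T

def BOGZ : Prop :=
  ∃ C : ℕ, ∀ (Y : ℝ) (q N Q : ℕ) [Fact Q.Prime], (C : ℝ) ≤ Y → (q : ℝ) ≤ Y →
    Y ^ C ≤ Real.log N → 4 * N ≤ Q →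
    ∃ R T : ℕ, (R : ℝ) ≤ Y ^ C ∧ N ≤ T * Real.exp (Y ^ C) ∧ T ≤ N ∧
      ∀ S ⊆ bz q N, Real.exp (-Y) * (N : ℝ) ^ q ≤ S.card →
        ∃ γ : Fin R → Fin q → ZMod Q, ∀ (v : Vz q) (m : Fin R → ℤ),
          Sl γ T (Real.exp (-Y ^ C)) v m →
          ∃ s1 ∈ S, ∃ s2 ∈ S, ∃ s3 ∈ S, ∃ s4 ∈ S, v = s1 + s2 - s3 - s4

/-- the chart of one fibre -/
def EXTB : Prop :=
  ∀ (q Q Q' T : ℕ) [Fact Q.Prime] (κ ι : Type) [Fintype κ] (γ : κ → Fin q → ZMod Q') (τ : ℝ)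
    (S : Finset (Vz q)) (g : Vz q → ι → ZMod Q), 1 ≤ T → 0 < τ → τ ≤ 1 / 4 →
    (2 * (q + Fintype.card κ) + 3) ^ (q + Fintype.card κ) < Q → R6 g S →
    (∀ v m, Sl γ T τ v m → ∃ s1 ∈ S, ∃ s2 ∈ S, ∃ s3 ∈ S, ∃ s4 ∈ S, v = s1 + s2 - s3 - s4) →
    ∃ (θ : Fin q → ι → ZMod Q) (c : κ → ι → ZMod Q), ∀ y ∈ S, ∀ y' ∈ S, ∀ m,
      Sl γ T (τ / (q + Fintype.card κ + 1)) (y - y') m → g y - g y' = zd (y - y') θ + zd m c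

/-- a linear map that vanishes on small differences of a dense set vanishes on small points -/
def VAN : Prop :=
  ∃ C : ℕ, ∀ (Y ρ : ℝ) (q N T Q Q' : ℕ) [Fact Q.Prime] (κ ι : Type) [Fintype κ]
    (γ : κ → Fin q → ZMod Q') (Z : Finset (Vz q)) (θ : Fin q → ι → ZMod Q) (c : κ → ι → ZMod Q),
    (C : ℝ) ≤ Y → (q : ℝ) ≤ Y → (Fintype.card κ : ℝ) ≤ Y → Real.exp (-Y) ≤ ρ → ρ ≤ 1 / 4 →
    1 ≤ T → T ≤ N → N ≤ T * Real.exp Y → Real.exp (Y ^ C) ≤ Q → Z ⊆ bz q N →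
    Real.exp (-Y) * (N : ℝ) ^ q ≤ Z.card →
    (∀ y ∈ Z, ∀ y' ∈ Z, ∀ m, Sl γ T ρ (y - y') m → zd (y - y') θ + zd m c = 0) →
    ∀ v m, Sl γ T (Real.exp (-Y ^ C)) v m → zd v θ + zd m c = 0

/-- short relations control the vertical vectors -/
def COVR : Prop :=
  ∃ C : ℕ, ∀ (Y ρ : ℝ) (q T Q' : ℕ) [Fact Q'.Prime] (κ : Type) [Fintype κ] [DecidableEq κ]
    (γ : κ → Fin q → ZMod Q'), (C : ℝ) ≤ Y → (q : ℝ) ≤ Y → (Fintype.card κ : ℝ) ≤ Y →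
    Real.exp (-Y) ≤ ρ → ρ ≤ 1 → Y ^ C ≤ Real.log T → T ≤ Q' →
    ∃ b : κ → κ → ℤ, (∀ i r, |(b i r : ℝ)| ≤ Real.exp (Y ^ C)) ∧
      (∀ i l, nm (∑ r, (b i r : ZMod Q') * γ r l) ≤ Real.exp (Y ^ C) / T) ∧
      ∀ v : κ → ℤ, (∀ r, 16 * (v r : ℝ) ^ 2 ≤ ρ ^ 2 * Q') → (∀ i, b i ⬝ᵥ v = 0) →
        ∀ (H : Type) [AddCommGroup H] (θ : Fin q → H) (c : κ → H),
          (∀ y m, Sl γ T ρ y m → zd y θ + zd m c = 0) → zd v c = 0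

/-- factorisation through the intersection of the spans -/
def FACT : Prop :=
  ∀ j : ℕ, ∃ C : ℕ, ∀ (Y : ℝ) (R : ℕ) (α : Type) [Fintype α] (β : Fin j → α → Fin R → ℤ),
    (C : ℝ) ≤ Y → (R : ℝ) ≤ Y → (∀ i a r, |(β i a r : ℝ)| ≤ Real.exp Y) →
    ∃ σ : Fin R → Fin R → ℤ, (∀ s r, |(σ s r : ℝ)| ≤ Real.exp (Y ^ C)) ∧
      (∀ i s, ∃ n : α → ℤ, σ s = ∑ a, n a • β i a) ∧
      ∀ (Q : ℕ) [Fact Q.Prime] (ι : Type) (c : Fin R → ι → ZMod Q), Real.exp (Y ^ C) ≤ Q →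
        (∀ (i : Fin j) (v : Fin R → ℤ), (∀ r, |(v r : ℝ)| ≤ Real.exp (Y ^ C)) →
          (∀ a, β i a ⬝ᵥ v = 0) → zd v c = 0) →
        ∃ c' : Fin R → ι → ZMod Q, ∀ m : Fin R → ℤ, zd m c = zd (fun s => σ s ⬝ᵥ m) c'

/-! ### The step of the induction for KH -/

open Classical in
def POOR : Prop :=
  ∀ j : ℕ, ∃ C : ℕ, ∀ (Y : ℝ) (q N : ℕ) (Ω : Finset (Pt (j + 1) q)), (C : ℝ) ≤ Y → (q : ℝ) ≤ Y →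
    1 ≤ N → Dn Ω N Y →
    ∃ X : Finset (Pt j q), Dn X N (Y ^ C) ∧ ∀ x ∈ X,
      Real.exp (-Y ^ C) * (N : ℝ) ^ q ≤ (fb Ω N x).card ∧ ∀ i : Fin j,
        Real.exp (-Y ^ C) * (N : ℝ) ^ (2 * q) ≤ ((sz q N ×ˢ sz q N).filter fun p =>
          Real.exp (-Y ^ C) * (N : ℝ) ^ q ≤ (fb Ω N x ∩ fb Ω N (x + ev i p.1) ∩
            fb Ω N (x + ev i p.2) ∩ fb Ω N (x + ev i p.1 + ev i p.2)).card).card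

/-- charts on all dense fibres -/
def Chs {Q Q' R : ℕ} {ι : Type} (φ : Pt (j + 1) q → ι → ZMod Q) (Ω : Finset (Pt (j + 1) q))
    (N T : ℕ) (ρ : ℝ) (γ : Pt j q → Fin R → Fin q → ZMod Q') (θ : Pt j q → Fin q → ι → ZMod Q)
    (c : Pt j q → Fin R → ι → ZMod Q) (x : Pt j q) : Prop :=
  ∀ y ∈ fb Ω N x, ∀ y' ∈ fb Ω N x, ∀ m, Sl (γ x) T ρ (y - y') m →
    φ (cn y x) - φ (cn y' x) = zd (y - y') (θ x) + zd m (c x)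

def PET1 : Prop :=
  ∃ C : ℕ, ∀ (Y : ℝ) (j q N Q Q' : ℕ) [Fact Q.Prime] [Fact Q'.Prime] (ι : Type)
    (φ : Pt (j + 1) q → ι → ZMod Q) (Ω : Finset (Pt (j + 1) q)), (C : ℝ) ≤ Y → (q : ℝ) ≤ Y →
    Y ^ C ≤ Real.log N → N ≤ Q → 4 * N ≤ Q' → MH φ Ω →
    ∃ (R T : ℕ) (γ : Pt j q → Fin R → Fin q → ZMod Q') (θ : Pt j q → Fin q → ι → ZMod Q)
      (c : Pt j q → Fin R → ι → ZMod Q), (R : ℝ) ≤ Y ^ C ∧ N ≤ T * Real.exp (Y ^ C) ∧ T ≤ N ∧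
      ∀ x, Real.exp (-Y) * (N : ℝ) ^ q ≤ (fb Ω N x).card →
        Chs φ Ω N T (Real.exp (-Y ^ C)) γ θ c x

open Classical in
/-- fixed relations for many parallelograms at every point -/
def PET2 : Prop :=
  ∀ j : ℕ, ∃ C : ℕ, ∀ (Y : ℝ) (q N T R Q Q' : ℕ) [Fact Q.Prime] [Fact Q'.Prime] (ι : Type)
    (φ : Pt (j + 1) q → ι → ZMod Q) (Ω : Finset (Pt (j + 1) q)) (X : Finset (Pt j q))
    (γ : Pt j q → Fin R → Fin q → ZMod Q') (θ : Pt j q → Fin q → ι → ZMod Q)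
    (c : Pt j q → Fin R → ι → ZMod Q), (C : ℝ) ≤ Y → (q : ℝ) ≤ Y → (R : ℝ) ≤ Y →
    Y ^ C ≤ Real.log N → N ≤ Q → 4 * N ≤ Q' → Q' ≤ 8 * N → N ≤ T * Real.exp Y → T ≤ N → MH φ Ω →
    (∀ x, Real.exp (-Y) * (N : ℝ) ^ q ≤ (fb Ω N x).card → Chs φ Ω N T (Real.exp (-Y)) γ θ c x) →
    Dn X N Y →
    (∀ x ∈ X, ∀ i : Fin j, Real.exp (-Y) * (N : ℝ) ^ (2 * q) ≤ ((sz q N ×ˢ sz q N).filter fun p =>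
      Real.exp (-Y) * (N : ℝ) ^ q ≤ (fb Ω N x ∩ fb Ω N (x + ev i p.1) ∩
        fb Ω N (x + ev i p.2) ∩ fb Ω N (x + ev i p.1 + ev i p.2)).card).card) →
    ∃ (X' : Finset (Pt j q)) (β : Fin j → Fin 4 × Fin R → Fin R → ℤ)
      (g2 g3 g4 : Fin j → Pt j q → Fin 4 × Fin R → Fin q → ZMod Q'),
      X' ⊆ X ∧ Dn X' N (Y ^ C) ∧ (∀ i a r, |(β i a r : ℝ)| ≤ Real.exp (Y ^ C)) ∧
      ∀ x ∈ X', ∀ i : Fin j,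
        (∀ v : Fin R → ℤ, (∀ r, (v r : ℝ) ^ 2 * Real.exp (Y ^ C) ≤ N) → (∀ a, β i a ⬝ᵥ v = 0) →
          zd v (c x) = 0) ∧
        Real.exp (-Y ^ C) * (N : ℝ) ^ (2 * q) ≤ ((sz q N ×ˢ sz q N).filter fun p =>
          ∀ a, zd (β i a) (γ x) = g2 i (x + ev i p.1) a + g3 i (x + ev i p.2) a +
            g4 i (x + ev i p.1 + ev i p.2) a).card

/-- the brackets come from a multi-homomorphism in fewer variables -/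
def PET : Prop :=
  ∀ j : ℕ, ∃ C : ℕ, ∀ (Y : ℝ) (q N Q Q' : ℕ) [Fact Q.Prime] [Fact Q'.Prime] (ι : Type)
    (φ : Pt (j + 1) q → ι → ZMod Q) (Ω : Finset (Pt (j + 1) q)), (C : ℝ) ≤ Y → (q : ℝ) ≤ Y →
    Y ^ C ≤ Real.log N → N ≤ Q → 4 * N ≤ Q' → Q' ≤ 8 * N → Dn Ω N Y → MH φ Ω →
    ∃ (R T : ℕ) (γ : Pt j q → Fin R → Fin q → ZMod Q') (σ : Fin R → Fin R → ℤ)
      (θ : Pt j q → Fin q → ι → ZMod Q) (c' : Pt j q → Fin R → ι → ZMod Q) (X : Finset (Pt j q)),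
      (R : ℝ) ≤ Y ^ C ∧ N ≤ T * Real.exp (Y ^ C) ∧ T ≤ N ∧
      (∀ s r, |(σ s r : ℝ)| ≤ Real.exp (Y ^ C)) ∧ Dn X N (Y ^ C) ∧
      MH (fun x (p : Fin R × Fin q) => zd (σ p.1) (γ x) p.2) X ∧
      ∀ x ∈ X, Real.exp (-Y ^ C) * (N : ℝ) ^ q ≤ (fb Ω N x).card ∧
        ∀ y ∈ fb Ω N x, ∀ y' ∈ fb Ω N x, ∀ m, Sl (γ x) T (Real.exp (-Y ^ C)) (y - y') m →
          φ (cn y x) - φ (cn y' x) = zd (y - y') (θ x) + zd (fun s => σ s ⬝ᵥ m) (c' x)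

/-- on a short progression the brackets are linear (one fibre) -/
def LIN : Prop :=
  ∃ C : ℕ, ∀ (Y ρ : ℝ) (q R T d L L1 Q' : ℕ) [Fact Q'.Prime] (H : Type) [AddCommGroup H]
    (γ : Fin R → Fin q → ZMod Q') (σ : Fin R → Fin R → ℤ) (θ : Fin q → H) (c' : Fin R → H)
    (g : Vz q → H) (S : Finset (Vz q)), (C : ℝ) ≤ Y → (q : ℝ) ≤ Y → (R : ℝ) ≤ Y →
    Real.exp (-Y) ≤ ρ → ρ ≤ 1 → (∀ s r, |(σ s r : ℝ)| ≤ Real.exp Y) → 4 * q * L1 ≤ L →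
    (d * L1 : ℝ) ≤ ρ * T → 1 ≤ L → (∀ s l, nm ((d : ZMod Q') * zd (σ s) γ l) ≤ 1 / L) →
    S ⊆ bz q L1 →
    (∀ t ∈ S, ∀ t' ∈ S, ∀ m, Sl γ T ρ ((d : ℤ) • (t - t')) m →
      g t - g t' = zd ((d : ℤ) • (t - t')) θ + zd (fun s => σ s ⬝ᵥ m) c') →
    ∃ S' ⊆ S, ∃ Θ : Fin q → H, Real.exp (-Y ^ C) * S.card ≤ S'.card ∧
      ∀ t ∈ S', ∀ t' ∈ S', g t - g t' = zd (t - t') Θ

def KHA (j : ℕ) : Prop :=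
  ∃ C : ℕ, ∀ (Y : ℝ) (q N Q : ℕ) [Fact Q.Prime] (ι : Type)
    (φ : Pt (j + 1) q → ι → ZMod Q) (Ω : Finset (Pt (j + 1) q)), (C : ℝ) ≤ Y → 1 ≤ q →
    (q : ℝ) ≤ Y → Y ^ C ≤ Real.log N → N ≤ Q → Dn Ω N Y → MH φ Ω →
    ∃ (W0 : Pt (j + 1) q) (d L : ℕ) (Ω' : Finset (Pt (j + 1) q)) (Θ : Pt j q → Fin q → ι → ZMod Q),
      1 ≤ d ∧ d * L ≤ N ∧ Lg N L (Y ^ C) ∧ Ω' ⊆ pre Ω W0 d L ∧ Dn Ω' L (Y ^ C) ∧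
      LinS (fun t => φ (lc W0 d t)) Ω' Θ

/-- the slopes form a multi-homomorphism -/
def SLC : Prop :=
  ∀ j : ℕ, ∃ C : ℕ, ∀ (Y : ℝ) (q L Q : ℕ) [Fact Q.Prime] (ι : Type)
    (φ : Pt (j + 1) q → ι → ZMod Q) (Ω : Finset (Pt (j + 1) q)) (Θ : Pt j q → Fin q → ι → ZMod Q),
    (C : ℝ) ≤ Y → 1 ≤ q → (q : ℝ) ≤ Y → Y ^ C ≤ Real.log L → L ≤ Q → Dn Ω L Y → MH φ Ω →
    LinS φ Ω Θ →
    ∃ X : Finset (Pt j q), Dn X L (Y ^ C) ∧ MH (fun x (p : Fin q × ι) => Θ x p.1 p.2) X ∧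
      ∀ x ∈ X, Real.exp (-Y ^ C) * (L : ℝ) ^ q ≤ (fb Ω L x).card

/-! ### The step for grids -/

def SIFT : Prop :=
  ∀ (α β : Type) (A : Finset α) (B : Finset β) (p : ℕ) (G : α → β → ℝ) (M lam ε : ℝ),
    A.Nonempty → B.Nonempty → 1 ≤ p → 1 ≤ M → (∀ a b, 0 ≤ G a b ∧ G a b ≤ M) → 0 < lam →
    0 < ε → ε ≤ 1 →
    lam ^ (p * p) ≤ 𝔼 x ∈ Fintype.piFinset (fun _ : Fin p => A),
      𝔼 y ∈ Fintype.piFinset (fun _ : Fin p => B), ∏ a, ∏ b, G (x a) (y b) →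
    ∃ (u : α → ℝ) (v : β → ℝ), (∀ a, 0 ≤ u a ∧ u a ≤ 1) ∧ (∀ b, 0 ≤ v b ∧ v b ≤ 1) ∧
      ε * (lam / M) ^ (p * p + 1) / M ^ (p * p) ≤ (𝔼 a ∈ A, u a) * 𝔼 b ∈ B, v b ∧
      (1 - ε) * lam * (𝔼 a ∈ A, u a) * (𝔼 b ∈ B, v b) ≤ 𝔼 a ∈ A, 𝔼 b ∈ B, u a * v b * G a b

open Classical in
/-- the almost periodicity step on the integers, with scales fixed in advance -/
def KM1 : Prop :=
  ∀ ε : ℝ, 0 < ε → ε ≤ 1 / 100 → ∃ C : ℕ, ∀ (Y : ℝ) (N : ℕ), (C : ℝ) ≤ Y → Y ^ C ≤ Real.log N →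
    ∃ (T3 T Q r : ℕ) (_ : Fact Q.Prime) (ρ : ℝ), 1 ≤ T3 ∧ T3 * Real.exp Y ≤ N ∧ 1 ≤ T ∧ T ≤ N ∧
      N ≤ T * Real.exp (Y ^ C) ∧ 2 * N ≤ Q ∧ Q ≤ 16 * N ∧ (r : ℝ) ≤ Y ^ C ∧
      Real.exp (-Y ^ C) ≤ ρ ∧ ρ ≤ 1 ∧
      ∀ (g u v : ℤ → ℝ) (θ : ℝ), (∀ x, 0 ≤ g x ∧ g x ≤ Real.exp Y) → (∀ x, 0 ≤ u x ∧ u x ≤ 1) →
        (∀ x, 0 ≤ v x ∧ v x ≤ 1) → Real.exp (-Y) ≤ θ → Real.exp (-Y) ≤ 𝔼 x ∈ rg T3, u x →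
        Real.exp (-Y) ≤ 𝔼 y ∈ rg N, v y →
        θ * (𝔼 x ∈ rg T3, u x) * (𝔼 y ∈ rg N, v y) ≤
          𝔼 x ∈ rg T3, 𝔼 y ∈ rg N, u x * v y * g (x + y) →
        ∃ ξ : Fin r → ZMod Q, Real.exp (-Y ^ C) * N ≤ ((Icc (-(2 * N : ℤ)) (2 * N)).filter fun z =>
          ∃ γ : Fin r → ZMod Q, Real.exp (-Y ^ C) ≤
            exc (lap ρ) ξ γ T (fun s => g (z + s)) ((1 - ε) * θ)).card

def S1 : Prop :=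
  ∀ (j : ℕ) (ε : ℝ), 0 < ε → ε ≤ 1 / 100 → ∃ C : ℕ, ∀ (Y θ : ℝ) (q N : ℕ) (g : ℤ → ℝ),
    (C : ℝ) ≤ Y → 1 ≤ q → (q : ℝ) ≤ Y → Y ^ C ≤ Real.log N →
    (∀ x, 0 ≤ g x ∧ g x ≤ Real.exp Y) → 1 / 2 ≤ θ → θ ^ (q ^ (j + 2)) ≤ grd (j + 2) q N g →
    ∃ (x0 : ℤ) (T Q r : ℕ) (_ : Fact Q.Prime) (ρ : ℝ) (ξ γ : Pt j q → Fin r → ZMod Q)
      (Ω : Finset (Pt j q)),
      In1 (Y ^ C) N T ρ ((1 - ε) * θ ^ (q ^ j)) (fun W s => Gw g W (x0 + s)) ξ γ Ω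

/-- the weight is constant on short progressions -/
def CST : Prop :=
  ∀ (j : ℕ) (ε : ℝ), 0 < ε → ε ≤ 1 / 100 → ∃ C : ℕ, ∀ (Y : ℝ) (q N T Q r t K0 d L : ℕ)
    [Fact Q.Prime] (ρ θ : ℝ) (G : Pt j q → ℤ → ℝ) (ξ γ : Pt j q → Fin r → ZMod Q)
    (b : Fin t → Fin r → ℤ) (Ψ : (Fin r → ZMod Q) → ℝ) (Ω Ω' : Finset (Pt j q)) (W0 : Pt j q),
    (C : ℝ) ≤ Y → (q : ℝ) ≤ Y → (r : ℝ) ≤ Y → Y ^ C ≤ Real.log L → Real.exp (-Y) ≤ ρ →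
    1 ≤ T → N ≤ T * Real.exp Y → (∀ W s, 0 ≤ G W s ∧ G W s ≤ Real.exp Y) → 0 ≤ θ →
    θ ≤ Real.exp Y → In2 Y N T K0 ρ θ G ξ γ b Ψ Ω → 1 ≤ d → d * L ≤ N → Ω' ⊆ pre Ω W0 d L →
    Dn Ω' L Y → (∀ w ∈ Ω', ∀ a, nm ((d : ZMod Q) * (cs Q (b a) ⬝ᵥ ξ (lc W0 d w))) ≤ 1 / L) →
    ∃ (o : ℤ) (W1 : Pt j q) (d' L' : ℕ) (Ω5 : Finset (Pt j q)), 1 ≤ d' ∧ 1 ≤ L' ∧
      L ≤ L' * Real.exp (Y ^ C) ∧ Dn Ω5 L' (Y ^ C) ∧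
      ∀ w ∈ Ω5, (1 - ε) * θ ≤ 𝔼 v ∈ rg L', G (lc W1 d' w) (o + d' * v)

/-- copies of the new class -/
def CPY : Prop :=
  ∀ (j : ℕ) (ε : ℝ), 0 < ε → ε ≤ 1 / 100 → ∃ C : ℕ, ∀ (Y θ : ℝ) (q L d : ℕ) (g : ℤ → ℝ) (o : ℤ)
    (W1 : Pt j q) (Ω : Finset (Pt j q)), (C : ℝ) ≤ Y → 1 ≤ q → (q : ℝ) ≤ Y → 1 ≤ L →
    (∀ x, 0 ≤ g x) → 0 ≤ θ → Dn Ω L Y →
    (∀ w ∈ Ω, θ ^ (q ^ j) ≤ 𝔼 v ∈ rg L, Gw g (lc W1 d w) (o + d * v)) →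
    ∃ (x1 : ℤ) (p : ℕ), 1 ≤ p ∧ (p : ℝ) ≤ Y ^ C ∧
      ((1 - ε) * θ) ^ (p ^ (j + 1)) ≤ grd (j + 1) p L (fun z => g (x1 + d * z))

def STEP : Prop :=
  ∀ (j : ℕ) (ε : ℝ), 0 < ε → ε ≤ 1 / 10 → ∃ C : ℕ, ∀ (Y θ : ℝ) (q N : ℕ) (g : ℤ → ℝ),
    (C : ℝ) ≤ Y → 1 ≤ q → (q : ℝ) ≤ Y → Y ^ C ≤ Real.log N →
    (∀ x, 0 ≤ g x ∧ g x ≤ Real.exp Y) → 1 / 2 ≤ θ → θ ^ (q ^ (j + 2)) ≤ grd (j + 2) q N g →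
    ∃ (x1 : ℤ) (d L p : ℕ), 1 ≤ d ∧ Lg N L (Y ^ C) ∧ 1 ≤ p ∧ (p : ℝ) ≤ Y ^ C ∧
      ((1 - ε) * θ) ^ (p ^ (j + 1)) ≤ grd (j + 1) p L (fun z => g (x1 + d * z))

def DOWN : Prop :=
  ∀ (m : ℕ) (ε : ℝ), 0 < ε → ε ≤ 1 / 10 → ∃ C : ℕ, ∀ (Y θ : ℝ) (q N : ℕ) (g : ℤ → ℝ),
    (C : ℝ) ≤ Y → 1 ≤ q → (q : ℝ) ≤ Y → Y ^ C ≤ Real.log N →
    (∀ x, 0 ≤ g x ∧ g x ≤ Real.exp Y) → 1 / 2 ≤ (1 - ε) ^ m * θ →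
    θ ^ (q ^ (m + 1)) ≤ grd (m + 1) q N g →
    ∃ (x1 : ℤ) (d L : ℕ), 1 ≤ d ∧ Lg N L (Y ^ C) ∧
      (1 - ε) ^ m * θ ≤ 𝔼 z ∈ rg L, g (x1 + d * z)

/-! ### The hypergraph step, the start, the end -/

def HGA : Prop :=
  ∀ k : ℕ, 1 ≤ k → ∃ η : ℝ, 0 < η ∧ η ≤ 1 / 10 ∧ ∃ C : ℕ, ∀ (X : ℝ) (Ω : Type) [Fintype Ω]
    [DecidableEq Ω] [Nonempty Ω] (f : Fin (k + 2) → (Fin (k + 1) → Ω) → ℝ), (C : ℝ) ≤ X →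
    (∀ i y, 0 ≤ f i y ∧ f i y ≤ Real.exp X) →
    (∀ i, i ≠ Fin.last (k + 1) → ∀ y,
      1 - η ≤ 𝔼 w : Ω, f i (Function.update y (Fin.last k) w)) →
    1 - η ≤ 𝔼 y, f (Fin.last (k + 1)) y →
    𝔼 y : Fin (k + 2) → Ω, ∏ i, f i (y ∘ i.succAbove) ≤ 1 / 2 →
    ∃ (i : Fin (k + 2)) (p : ℕ), 1 ≤ p ∧ (p : ℝ) ≤ X ^ C ∧
      (1 + η) ^ (p ^ (k + 1)) ≤ gridA (fun _ => (univ : Finset Ω)) (fun _ => p) (fun _ => f i)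

/-- the normalised indicator -/
def ind (A : Finset ℤ) (α : ℝ) (x : ℤ) : ℝ := if x ∈ A then 1 / α else 0

/-- change of the sample space of a grid -/
def PUSH : Prop :=
  ∀ (α β : Type) (m : ℕ) (S : Fin m → Finset α) (S' : Fin m → Finset β) (e : Fin m → α → β)
    (p : Fin m → ℕ) (F : (Fin m → β) → ℝ),
    (∀ (i : Fin m) (h : β → ℝ), 𝔼 y ∈ S i, h (e i y) = 𝔼 y ∈ S' i, h y) →
    gridA S p (fun _ y => F (fun i => e i (y i))) = gridA S' p (fun _ => F)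

/-- one common difference for all classes -/
def NRM : Prop :=
  ∀ (m p L D : ℕ) (M : Fin m → ℕ) (c : Fin m → ℤ) (g : ℤ → ℝ) (B : ℝ), 1 ≤ p → 1 ≤ L → 1 ≤ D →
    (∀ i, c i ∣ (D : ℤ)) → (∀ x, 0 ≤ g x) → (∀ i, 1 ≤ M i ∧ (M i + D * L : ℝ) ≤ B * M i) →
    ∃ x1 : ℤ, gridA (fun i => rg (M i)) (fun _ => p) (fun _ y => g (∑ i, c i * y i)) ≤
      B ^ (m * p) * grd m p L (fun z => g (x1 + D * z))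

/-- the start before the normalisation of the differences -/
def ST1 : Prop :=
  ∀ k : ℕ, 1 ≤ k → ∃ η : ℝ, 0 < η ∧ η ≤ 1 / 10 ∧ ∃ C : ℕ, ∀ (X α : ℝ) (N : ℕ) (A : Finset ℤ),
    (C : ℝ) ≤ X → X ^ C ≤ Real.log N → A ⊆ rg N → APF (k + 2) A → Real.exp (-X) ≤ α →
    α * N = A.card →
    (∃ (x1 : ℤ) (d L : ℕ), 1 ≤ d ∧ 1 ≤ L ∧ N ≤ L * Real.exp (X ^ C) ∧
      1 + η ≤ 𝔼 z ∈ rg L, ind A α (x1 + d * z)) ∨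
    ∃ (x0 : ℤ) (p : ℕ) (M : Fin (k + 1) → ℕ) (c : Fin (k + 1) → ℤ), 1 ≤ p ∧ (p : ℝ) ≤ X ^ C ∧
      (∀ i, c i ∣ (((k + 1).factorial ^ 2 : ℕ) : ℤ)) ∧ (∀ i, N ≤ M i * Real.exp (X ^ C)) ∧
      (1 + η) ^ (p ^ (k + 1)) ≤
        gridA (fun i => rg (M i)) (fun _ => p) (fun _ y => ind A α (x0 + ∑ i, c i * y i))

def START : Prop :=
  ∀ k : ℕ, 1 ≤ k → ∃ η : ℝ, 0 < η ∧ η ≤ 1 / 10 ∧ ∃ C : ℕ, ∀ (X α : ℝ) (N : ℕ) (A : Finset ℤ),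
    (C : ℝ) ≤ X → X ^ C ≤ Real.log N → A ⊆ rg N → APF (k + 2) A → Real.exp (-X) ≤ α →
    α * N = A.card →
    ∃ (x1 : ℤ) (d L : ℕ), 1 ≤ d ∧ 1 ≤ L ∧ N ≤ L * Real.exp (X ^ C) ∧
      (1 + η ≤ 𝔼 z ∈ rg L, ind A α (x1 + d * z) ∨
        ∃ p : ℕ, 1 ≤ p ∧ (p : ℝ) ≤ X ^ C ∧
          (1 + η) ^ (p ^ (k + 1)) ≤ grd (k + 1) p L (fun z => ind A α (x1 + d * z)))

def INC : Prop :=
  ∀ k : ℕ, 1 ≤ k → ∃ η : ℝ, 0 < η ∧ η ≤ 1 ∧ ∃ C : ℕ, ∀ (X α : ℝ) (N : ℕ) (A : Finset ℤ),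
    (C : ℝ) ≤ X → X ^ C ≤ Real.log N → A ⊆ rg N → APF (k + 2) A → Real.exp (-X) ≤ α →
    α * N = A.card →
    ∃ (L : ℕ) (A' : Finset ℤ), Lg N L (X ^ C) ∧ A' ⊆ rg L ∧ APF (k + 2) A' ∧
      (1 + η) * α * L ≤ A'.card

def BND : Prop :=
  ∀ k : ℕ, 1 ≤ k → ∃ C : ℕ, ∀ (X : ℝ) (N : ℕ) (A : Finset ℤ), (C : ℝ) ≤ X → 1 ≤ N → A ⊆ rg N →
    APF (k + 2) A → Real.exp (-X) * N ≤ A.card → Real.log N ≤ Real.exp (C * X * Real.log X)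

def RESULT : Prop :=
  ∀ k : ℕ, 3 ≤ k → ∃ c : ℝ, 0 < c ∧ ∃ N₀ : ℕ, ∀ N : ℕ, N₀ ≤ N → ∀ A : Finset ℕ, A ⊆ Icc 1 N →
    (∀ a d : ℕ, 0 < d → ¬ ∀ i : ℕ, i < k → a + i * d ∈ A) →
    (A.card : ℝ) ≤ N * Real.exp (-(c * Real.log (Real.log N) / Real.log (Real.log (Real.log N))))

end

end Vale.Agent.P057L
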