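import Vale.Agent.P057L.Defs

/-! Statements for the hypergraph step (note 4099). -/

set_option linter.all false

open Finset
open scoped BigOperators

namespace Vale.Agent.P057L

noncomputable section

/-- the sign of a boolean -/
def sb (b : Bool) : ℝ := if b then 1 else -1

/-- the rotated factor -/
def rot (τ : ℝ) (b : Bool) (x : ℝ) : ℂ := 1 + Complex.I * ((τ * sb b * x : ℝ) : ℂ)

/-- the average with signs: two rotated slots, r plain slots -/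
def IJ {Ω Γ Wt Xt Z : Type} [Fintype Ω] [DecidableEq Ω] [Fintype Γ] [Fintype Wt] [Fintype Xt]
    {r : ℕ} (τ : ℝ) (ew : Wt → Γ → Z) (sg : Xt → Γ → Bool) (f1 f2 : Ω → (Fin r → Ω) → Z → ℝ)
    (g : Fin r → Ω → Ω → (Fin r → Ω) → Z → ℝ) : ℂ :=
  𝔼 w : Wt, 𝔼 χ : Xt, 𝔼 y1 : Ω, 𝔼 y2 : Ω, 𝔼 m : Fin r → Ω,
    ∏ c : Γ, (rot τ (sg χ c) (f1 y2 m (ew w c)) * rot τ (sg χ c) (f2 y1 m (ew w c)) *
      ∏ i, ((g i y1 y2 m (ew w c) : ℝ) : ℂ))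

/-- subgrids of a plain slot -/
def SgP {Ω Γ Wt Z : Type} [Fintype Ω] [DecidableEq Ω] [Fintype Wt] {r : ℕ} (q : ℕ) [NeZero q]
    (κ : ℝ) (ew : Wt → Γ → Z) (g : Ω → Ω → (Fin r → Ω) → Z → ℝ) (i : Fin r) : Prop :=
  ∀ S : Finset ((Fin r → Fin q) × Γ), (∀ x ∈ S, x.1 i = 0) →
    𝔼 w : Wt, 𝔼 y1 : Ω, 𝔼 y2 : Ω, 𝔼 M : Fin r → Fin q → Ω,
      ∏ x ∈ S, g y1 y2 (fun j => M j (x.1 j)) (ew w x.2) ≤ κ ^ S.card

/-- subgrids of a rotated slot -/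
def SgR {Ω Γ Wt Z : Type} [Fintype Ω] [DecidableEq Ω] [Fintype Wt] {r : ℕ} (q : ℕ)
    (κ : ℝ) (ew : Wt → Γ → Z) (f : Ω → (Fin r → Ω) → Z → ℝ) : Prop :=
  ∀ S : Finset ((Fin r → Fin q) × Γ),
    𝔼 w : Wt, 𝔼 y : Ω, 𝔼 y' : Ω, 𝔼 M : Fin r → Fin q → Ω,
      ∏ x ∈ S, (f y (fun j => M j (x.1 j)) (ew w x.2) * f y' (fun j => M j (x.1 j)) (ew w x.2))
      ≤ κ ^ (2 * S.card)

def REC (r : ℕ) : Prop :=
  ∀ (Ω Γ Wt Xt Z : Type) [Fintype Ω] [DecidableEq Ω] [Nonempty Ω] [Fintype Γ] [DecidableEq Γ]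
    [Fintype Wt] [Nonempty Wt] [Fintype Xt] [Nonempty Xt] (q : ℕ) [NeZero q] (ew : Wt → Γ → Z)
    (sg : Xt → Γ → Bool) (ng : Xt ≃ Xt) (B K κ ν τ : ℝ) (f1 f2 : Ω → (Fin r → Ω) → Z → ℝ)
    (g : Fin r → Ω → Ω → (Fin r → Ω) → Z → ℝ), Even q → (∀ χ c, sg (ng χ) c = !(sg χ c)) →
    0 ≤ B → (∀ e : Γ → Bool, ((univ.filter fun χ => sg χ = e).card : ℝ) * 2 ^ Fintype.card Γ ≤
      B * Fintype.card Xt) →
    1 ≤ κ → 1 ≤ K → 0 ≤ ν → κ ^ q * K ≤ ν ^ q → (∀ y m z, 0 ≤ f1 y m z) → (∀ y m z, 0 ≤ f2 y m z) →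
    (∀ i y y' m z, 0 ≤ g i y y' m z ∧ g i y y' m z ≤ K) →
    (∀ i y y' m z a, g i y y' (Function.update m i a) z = g i y y' m z) →
    (∀ i, SgP q κ ew (g i) i) → SgR q κ ew f1 → SgR q κ ew f2 →
    ‖IJ τ ew sg f1 f2 g‖ ^ (q ^ r) ≤
      (B * ν ^ (r * Fintype.card Γ) * (1 + τ ^ 2 * κ ^ 2) ^ Fintype.card Γ) ^ (q ^ r)

/-- subgrids of a slot of the full system -/
def SgF {Ω : Type} [Fintype Ω] [DecidableEq Ω] {n : ℕ} (q : ℕ) [NeZero q] (κ : ℝ)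
    (f : (Fin n → Ω) → Ω → ℝ) (i : Fin n) : Prop :=
  ∀ S : Finset ((Fin n → Fin q) × Fin q), (∀ x ∈ S, x.1 i = 0) →
    𝔼 w : Fin q → Ω, 𝔼 M : Fin n → Fin q → Ω,
      ∏ x ∈ S, f (fun j => M j (x.1 j)) (w x.2) ≤ κ ^ S.card

/-- an admissible family of slots -/
structure Fam {Ω : Type} [Fintype Ω] [DecidableEq Ω] {n : ℕ} (q : ℕ) [NeZero q] (K κ : ℝ)
    (f : Fin n → (Fin n → Ω) → Ω → ℝ) : Prop where
  bd : ∀ i y w, 0 ≤ f i y w ∧ f i y w ≤ K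
  ind : ∀ i y w a, f i (Function.update y i a) w = f i y w
  sg : ∀ i, SgF q κ (f i) i

/-- the marginal of a product of slots -/
def mg {Ω : Type} [Fintype Ω] {n : ℕ} (f : Fin n → (Fin n → Ω) → Ω → ℝ) (I : Finset (Fin n))
    (y : Fin n → Ω) : ℝ :=
  𝔼 w : Ω, ∏ i ∈ I, f i y w

/-- the moment of the rotated marginal, first two slots -/
def CORE0 : Prop :=
  ∀ (r : ℕ) (Ω : Type) [Fintype Ω] [DecidableEq Ω] [Nonempty Ω] (q : ℕ) [NeZero q] (K κ ν τ : ℝ)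
    (f : Fin (r + 2) → (Fin (r + 2) → Ω) → Ω → ℝ), Even q → 1 ≤ κ → 1 ≤ K → 0 ≤ ν →
    κ ^ q * K ≤ ν ^ q → Fam q K κ f →
    𝔼 y : Fin (r + 2) → Ω, ‖𝔼 w : Ω, rot τ true (f 0 y w) * rot τ true (f 1 y w) *
        ∏ i : Fin r, ((f i.succ.succ y w : ℝ) : ℂ)‖ ^ q ≤
      (q + 1) * ν ^ (r * q) * (1 + τ ^ 2 * κ ^ 2) ^ q

open Classical in
/-- any two slots of any subfamily -/
def PAIR : Prop :=
  ∀ (r : ℕ) (Ω : Type) [Fintype Ω] [DecidableEq Ω] [Nonempty Ω] (q : ℕ) [NeZero q] (K κ ν η x : ℝ)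
    (f : Fin (r + 2) → (Fin (r + 2) → Ω) → Ω → ℝ) (I : Finset (Fin (r + 2))) (a b : Fin (r + 2)),
    Even q → 1 ≤ κ → 1 ≤ K → 0 ≤ ν → κ ^ q * K ≤ ν ^ q → Fam q K κ f → a ∈ I → b ∈ I → a ≠ b →
    0 ≤ η → η ≤ 1 / 4 → 0 ≤ x → x ≤ 1 →
    ((univ.filter fun y : Fin (r + 2) → Ω => 1 - η ≤ mg f ((I.erase a).erase b) y ∧
        1 - η ≤ mg f (I.erase a) y ∧ 1 - η ≤ mg f (I.erase b) y ∧ mg f I y ≤ 1 - x).card : ℝ) /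
        Fintype.card (Fin (r + 2) → Ω) * (9 / 4 + x / 2 - 6 * η) ^ (q / 2) ≤
      (q + 1) * ν ^ (r * q) * (1 + κ ^ 2 / 2) ^ q

open Classical in
/-- the lower tail of the full marginal -/
def TAIL : Prop :=
  ∀ r : ℕ, ∃ η : ℝ, 0 < η ∧ η ≤ 1 / 10 ∧ ∃ C : ℕ, ∀ (X : ℝ), (C : ℝ) ≤ X →
    ∃ q : ℕ, ∃ _ : NeZero q, (q : ℝ) ≤ X ^ C ∧ ∀ (Ω : Type) [Fintype Ω] [DecidableEq Ω] [Nonempty Ω]
      (f : Fin (r + 2) → (Fin (r + 2) → Ω) → Ω → ℝ), Fam q (Real.exp X) (1 + η) f →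
      (∀ i y, 1 - η ≤ 𝔼 w : Ω, f i y w) →
      ((univ.filter fun y : Fin (r + 2) → Ω => mg f univ y < 3 / 4).card : ℝ) ≤
        Real.exp (-X) / 10 * Fintype.card (Fin (r + 2) → Ω)

/-- subgrids from the full grid -/
def SGG : Prop :=
  ∀ (k : ℕ) (Ω : Type) [Fintype Ω] [DecidableEq Ω] [Nonempty Ω] (q : ℕ) [NeZero q] (κ : ℝ)
    (F : (Fin (k + 1) → Ω) → ℝ) (i : Fin (k + 1)), 1 ≤ κ → (∀ y, 0 ≤ F y) →
    gridA (fun _ => (univ : Finset Ω)) (fun _ => q) (fun _ => F) ≤ κ ^ (q ^ (k + 1)) →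
    SgF q κ (fun (y : Fin (k + 1) → Ω) (w : Ω) =>
      F ((Fin.snoc y w : Fin (k + 2) → Ω) ∘ i.castSucc.succAbove)) i

end

end Vale.Agent.P057L
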